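import Crest.Agent.R181.DDefs

/-! # Row 181, D1: basic facts on graded modules. -/

set_option autoImplicit false

namespace Crest.Agent.R181

open Module MvPolynomial

section General

variable {E : Type} [DivisionRing E] {P X Y : Type} [AddCommGroup X] [Module (TT E P) X]
  [AddCommGroup Y] [Module (TT E P) Y]

theorem mem_piece {t : ℤ} {x : X} : toRes E P x ∈ piece E P X t ↔ πT E P t • x = x := Iff.rfl

theorem mem_resSub {A : Submodule (TT E P) X} {x : X} : toRes E P x ∈ resSub A ↔ x ∈ A := Iff.rfl

theorem resMap_toRes (f : X →ₗ[TT E P] Y) (x : X) :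
    resMap f (toRes E P x) = toRes E P (f x) := rfl

theorem sT_aT (e : E) (p : P) (x : X) : sT P e • aT E p • x = aT E p • sT P e • x := by
  rw [← mul_smul, ← mul_smul, aT, sT_comm_single]

theorem sT_πT (e : E) (t : ℤ) (x : X) : sT P e • πT E P t • x = πT E P t • sT P e • x := by
  rw [← mul_smul, ← mul_smul, πT, sT_comm_single]

/-- Induction over the generators of `TT E P`. -/
theorem d1_induction {motive : TT E P → Prop} (h0 : motive 0)
    (hadd : ∀ a b, motive a → motive b → motive (a + b))
    (hmul : ∀ a b, motive a → motive b → motive (a * b))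
    (hs : ∀ e : E, motive (sT P e)) (ha : ∀ p : P, motive (aT E p))
    (hp : ∀ t : ℤ, motive (πT E P t)) (r : TT E P) : motive r := by
  induction r using MonoidAlgebra.induction_linear with
  | zero => exact h0
  | add a b ha hb => exact hadd a b ha hb
  | single m e =>
    have h1 : (MonoidAlgebra.single m e : TT E P) = sT P e * MonoidAlgebra.single m 1 := by
      simp [sT, MonoidAlgebra.single_mul_single]
    rw [h1]
    refine hmul _ _ (hs e) ?_
    clear h1
    induction m using FreeMonoid.inductionOn with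
    | one => exact hs 1
    | of x =>
      rcases x with p | t
      · exact ha p
      · exact hp t
    | mul x y hx hy =>
      have h2 : (MonoidAlgebra.single (x * y) 1 : TT E P) =
          MonoidAlgebra.single x 1 * MonoidAlgebra.single y 1 := by
        simp [MonoidAlgebra.single_mul_single]
      rw [h2]
      exact hmul _ _ hx hy

theorem d1_sT_one (x : X) : sT P (1 : E) • x = x := by
  have : sT P (1 : E) = 1 := rfl
  rw [this, one_smul]

theorem d1_sT_zero (x : X) : sT P (0 : E) • x = 0 := by
  have : sT P (0 : E) = 0 := by simp [sT]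
  rw [this, zero_smul]

/-- An additive subgroup stable under `sT`, `aT`, `πT` is a submodule. -/
theorem smul_mem_of_gens (S : AddSubgroup X) (hs : ∀ (e : E), ∀ x ∈ S, sT P e • x ∈ S)
    (ha : ∀ (p : P), ∀ x ∈ S, aT E p • x ∈ S) (hp : ∀ (t : ℤ), ∀ x ∈ S, πT E P t • x ∈ S)
    (r : TT E P) {x : X} (hx : x ∈ S) : r • x ∈ S := by
  revert x
  induction r using d1_induction with
  | h0 => intro x _; rw [zero_smul]; exact S.zero_mem
  | hadd a b ha hb => intro x hx; rw [add_smul]; exact S.add_mem (ha hx) (hb hx)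
  | hmul a b ha hb => intro x hx; rw [mul_smul]; exact ha (hb hx)
  | hs e => exact fun {x} hx => hs e x hx
  | ha p => exact fun {x} hx => ha p x hx
  | hp t => exact fun {x} hx => hp t x hx

/-- An additive map commuting with `sT`, `aT`, `πT` is linear. -/
theorem map_smul_of_gens (f : X →+ Y) (hs : ∀ (e : E) x, f (sT P e • x) = sT P e • f x)
    (ha : ∀ (p : P) x, f (aT E p • x) = aT E p • f x)
    (hp : ∀ (t : ℤ) x, f (πT E P t • x) = πT E P t • f x) (r : TT E P) (x : X) :
    f (r • x) = r • f x := by
  revert x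
  induction r using d1_induction with
  | h0 => intro x; simp
  | hadd a b ha hb => intro x; rw [add_smul, add_smul, map_add, ha, hb]
  | hmul a b ha hb => intro x; rw [mul_smul, mul_smul, ha, hb]
  | hs e => exact hs e
  | ha p => exact ha p
  | hp t => exact hp t

theorem map_piece_le (f : X →ₗ[TT E P] Y) (t : ℤ) :
    (piece E P X t).map (resMap f) ≤ piece E P Y t := by
  rintro _ ⟨x, hx, rfl⟩
  have hx' : πT E P t • (toRes E P).symm x = (toRes E P).symm x := hx
  change πT E P t • f ((toRes E P).symm x) = f ((toRes E P).symm x)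
  rw [← f.map_smul, hx']

theorem finrank_piece_sub (A : Submodule (TT E P) X) (t : ℤ) :
    finrank E (piece E P A t) = finrank E ↥(piece E P X t ⊓ resSub A) := by
  have hinj : Function.Injective (resMap (E := E) A.subtype) := fun x y hxy =>
    A.injective_subtype hxy
  have h1 : (piece E P A t).map (resMap A.subtype) = piece E P X t ⊓ resSub A := by
    apply le_antisymm
    · refine le_inf (map_piece_le _ t) ?_
      rintro _ ⟨x, _, rfl⟩
      exact ((toRes E P).symm x).2
    · rintro x ⟨hx, hA⟩
      refine ⟨toRes E P ⟨(toRes E P).symm x, hA⟩, ?_, rfl⟩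
      exact Subtype.ext hx
  rw [← h1]
  exact (Submodule.equivMapOfInjective _ hinj _).finrank_eq

theorem finrank_piece_equiv (e : X ≃ₗ[TT E P] Y) (t : ℤ) :
    finrank E (piece E P X t) = finrank E (piece E P Y t) := by
  have hinj : Function.Injective (resMap (E := E) e.toLinearMap) := fun x y hxy =>
    e.injective hxy
  have h1 : (piece E P X t).map (resMap e.toLinearMap) = piece E P Y t := by
    apply le_antisymm (map_piece_le _ t)
    intro y hy
    refine ⟨resMap e.symm.toLinearMap y, map_piece_le _ t ⟨y, hy, rfl⟩, ?_⟩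
    exact e.apply_symm_apply _
  rw [← h1]
  exact (Submodule.equivMapOfInjective _ hinj _).finrank_eq

end General

variable {K : Type} [Field K] {n : ℕ} {E : Type} [DivisionRing E] [Algebra K E] {γ : CD1 K n}
  {X Y : Type} [AddCommGroup X] [Module (TT E (PP K n)) X]
  [AddCommGroup Y] [Module (TT E (PP K n)) Y]

theorem IsGM.of_injective (h : IsGM E γ Y) (f : X →ₗ[TT E (PP K n)] Y)
    (hf : Function.Injective f) : IsGM E γ X := by
  refine ⟨fun p q x => hf ?_, fun p q x => hf ?_, fun k x => hf ?_, fun t t' x => hf ?_,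
    fun v t x => hf ?_, fun x => ?_, fun k x => hf ?_⟩
  · simp only [map_add, map_smul, h.add]
  · simp only [map_smul, h.mul]
  · simp only [map_smul, h.const]
  · rw [map_smul, map_smul, h.pp]
    split_ifs <;> simp
  · simp only [map_smul, h.px]
  · obtain ⟨s, hs⟩ := h.fin (f x)
    refine ⟨s, hf ?_⟩
    rw [map_sum]
    simpa only [map_smul] using hs
  · simp only [map_smul, h.eq, map_zero]

theorem IsGM.of_surjective (h : IsGM E γ X) (f : X →ₗ[TT E (PP K n)] Y)
    (hf : Function.Surjective f) : IsGM E γ Y := by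
  refine ⟨fun p q x => ?_, fun p q x => ?_, fun k x => ?_, fun t t' x => ?_,
    fun v t x => ?_, fun x => ?_, fun k x => ?_⟩ <;> obtain ⟨x, rfl⟩ := hf x
  · simp only [← map_smul, ← map_add, h.add]
  · simp only [← map_smul, h.mul]
  · simp only [← map_smul, h.const]
  · rw [← map_smul, ← map_smul, h.pp]
    split_ifs <;> simp
  · simp only [← map_smul, h.px]
  · obtain ⟨s, hs⟩ := h.fin x
    refine ⟨s, ?_⟩
    simp only [← map_smul]
    rw [← map_sum, ← hs]
  · rw [← map_smul, h.eq, map_zero]

theorem IsGM.sub (h : IsGM E γ X) (A : Submodule (TT E (PP K n)) X) : IsGM E γ A :=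
  h.of_injective A.subtype A.injective_subtype

theorem IsGM.quot (h : IsGM E γ X) (A : Submodule (TT E (PP K n)) X) : IsGM E γ (X ⧸ A) :=
  h.of_surjective A.mkQ A.mkQ_surjective

theorem IsGM.d1_fin_mono (h : IsGM E γ X) {x : X} {s s' : Finset ℤ}
    (hs : x = ∑ t ∈ s, πT E (PP K n) t • x) (hss : s ⊆ s') :
    x = ∑ t ∈ s', πT E (PP K n) t • x := by
  refine hs.trans (Finset.sum_subset hss fun t _ ht => ?_)
  rw [hs, Finset.smul_sum]
  refine Finset.sum_eq_zero fun t' ht' => ?_
  rw [h.pp, if_neg]
  rintro rfl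
  exact ht ht'

theorem IsGM.prod (hX : IsGM E γ X) (hY : IsGM E γ Y) : IsGM E γ (X × Y) := by
  refine ⟨fun p q x => Prod.ext (hX.add _ _ _) (hY.add _ _ _),
    fun p q x => Prod.ext (hX.mul _ _ _) (hY.mul _ _ _),
    fun k x => Prod.ext (hX.const _ _) (hY.const _ _), fun t t' x => ?_,
    fun v t x => Prod.ext (hX.px _ _ _) (hY.px _ _ _), fun x => ?_,
    fun k x => Prod.ext (hX.eq _ _) (hY.eq _ _)⟩
  · have h1 := hX.pp t t' x.1
    have h2 := hY.pp t t' x.2
    split_ifs at h1 h2 ⊢
    · exact Prod.ext h1 h2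
    · exact Prod.ext h1 h2
  · obtain ⟨s, hs⟩ := hX.fin x.1
    obtain ⟨s', hs'⟩ := hY.fin x.2
    refine ⟨s ∪ s', Prod.ext ?_ ?_⟩
    · rw [Prod.fst_sum]
      exact hX.d1_fin_mono hs Finset.subset_union_left
    · rw [Prod.snd_sum]
      exact hY.d1_fin_mono hs' Finset.subset_union_right

theorem IsGM.pi (hX : IsGM E γ X) (ι : Type) [Finite ι] : IsGM E γ (ι → X) := by
  have := Fintype.ofFinite ι
  refine ⟨fun p q x => funext fun i => hX.add _ _ _,
    fun p q x => funext fun i => hX.mul _ _ _,
    fun k x => funext fun i => hX.const _ _, fun t t' x => ?_,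
    fun v t x => funext fun i => hX.px _ _ _, fun x => ?_,
    fun k x => funext fun i => hX.eq _ _⟩
  · funext i
    have h1 := hX.pp t t' (x i)
    split_ifs at h1 ⊢
    · exact h1
    · exact h1
  · choose s hs using fun i => hX.fin (x i)
    refine ⟨Finset.univ.biUnion s, funext fun i => ?_⟩
    rw [Finset.sum_apply]
    exact hX.d1_fin_mono (hs i) (Finset.subset_biUnion_of_mem s (Finset.mem_univ i))

theorem IsGM.finsupp (hX : IsGM E γ X) (ι : Type) : IsGM E γ (ι →₀ X) := by
  refine ⟨fun p q x => Finsupp.ext fun i => hX.add _ _ _,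
    fun p q x => Finsupp.ext fun i => hX.mul _ _ _,
    fun k x => Finsupp.ext fun i => hX.const _ _, fun t t' x => ?_,
    fun v t x => Finsupp.ext fun i => hX.px _ _ _, fun x => ?_,
    fun k x => Finsupp.ext fun i => hX.eq _ _⟩
  · ext i
    have h1 := hX.pp t t' (x i)
    split_ifs at h1 ⊢
    · exact h1
    · exact h1
  · choose s hs using fun i => hX.fin (x i)
    refine ⟨x.support.biUnion s, Finsupp.ext fun i => ?_⟩
    rw [Finsupp.finsetSum_apply]
    by_cases hi : i ∈ x.support
    · exact hX.d1_fin_mono (hs i) (Finset.subset_biUnion_of_mem s hi)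
    · rw [Finsupp.notMem_support_iff] at hi
      simp [hi]

/-- A module all of whose pairs of elements lie in the range of a linear map from a graded
module (e.g. a directed union) is graded. -/
theorem IsGM.of_cover
    (h : ∀ x : X, ∃ A : Submodule (TT E (PP K n)) X, IsGM E γ A ∧ x ∈ A) : IsGM E γ X := by
  refine ⟨fun p q x => ?_, fun p q x => ?_, fun k x => ?_, fun t t' x => ?_,
    fun v t x => ?_, fun x => ?_, fun k x => ?_⟩ <;> obtain ⟨A, hA, hx⟩ := h x
  · exact congrArg Subtype.val (hA.add p q ⟨x, hx⟩)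
  · exact congrArg Subtype.val (hA.mul p q ⟨x, hx⟩)
  · exact congrArg Subtype.val (hA.const k ⟨x, hx⟩)
  · have h1 := hA.pp t t' ⟨x, hx⟩
    split_ifs at h1 ⊢
    · exact congrArg Subtype.val h1
    · exact congrArg Subtype.val h1
  · exact congrArg Subtype.val (hA.px v t ⟨x, hx⟩)
  · obtain ⟨s, hs⟩ := hA.fin ⟨x, hx⟩
    refine ⟨s, ?_⟩
    have h1 := congrArg Subtype.val hs
    rw [Submodule.coe_sum] at h1
    exact h1
  · exact congrArg Subtype.val (hA.eq k ⟨x, hx⟩)

/-- The action of the polynomial ring as a ring homomorphism. -/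
theorem IsGM.exists_act (h : IsGM E γ X) :
    ∃ φ : PP K n →+* Module.End E (Res E (PP K n) X),
      ∀ p x, φ p (toRes E (PP K n) x) = toRes E (PP K n) (aT E p • x) := by
  have h0 : ∀ x : X, aT E (0 : PP K n) • x = 0 := fun x => by
    have := h.const 0 x
    rwa [map_zero, map_zero, d1_sT_zero] at this
  have h1 : ∀ x : X, aT E (1 : PP K n) • x = x := fun x => by
    have := h.const 1 x
    rwa [map_one, map_one, d1_sT_one] at this
  let ψ : PP K n → Module.End E (Res E (PP K n) X) := fun p =>
    { toFun := fun x => toRes E (PP K n) (aT E p • (toRes E (PP K n)).symm x)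
      map_add' := fun x y => smul_add (aT E p) ((toRes E (PP K n)).symm x)
        ((toRes E (PP K n)).symm y)
      map_smul' := fun e x => (sT_aT e p ((toRes E (PP K n)).symm x)).symm }
  exact ⟨{ toFun := ψ
           map_one' := LinearMap.ext fun x => h1 ((toRes E (PP K n)).symm x)
           map_mul' := fun p q => LinearMap.ext fun x => h.mul p q ((toRes E (PP K n)).symm x)
           map_zero' := LinearMap.ext fun x => h0 ((toRes E (PP K n)).symm x)
           map_add' := fun p q => LinearMap.ext fun x => h.add p q ((toRes E (PP K n)).symm x) },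
    fun p x => rfl⟩

theorem IsGM.aT_zero (h : IsGM E γ X) (x : X) : aT E (0 : PP K n) • x = 0 := by
  have := h.const 0 x
  rwa [map_zero, map_zero, d1_sT_zero] at this

theorem IsGM.aT_one (h : IsGM E γ X) (x : X) : aT E (1 : PP K n) • x = x := by
  have := h.const 1 x
  rwa [map_one, map_one, d1_sT_one] at this

theorem IsGM.aT_sum (h : IsGM E γ X) {ι : Type} (s : Finset ι) (p : ι → PP K n) (x : X) :
    aT E (∑ i ∈ s, p i) • x = ∑ i ∈ s, aT E (p i) • x := by
  classical
  induction s using Finset.induction_on with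
  | empty => simp [h.aT_zero]
  | insert i s hi ih => rw [Finset.sum_insert hi, Finset.sum_insert hi, h.add, ih]

theorem IsGM.aT_neg (h : IsGM E γ X) (p : PP K n) (x : X) : aT E (-p) • x = -(aT E p • x) := by
  rw [eq_neg_iff_add_eq_zero, ← h.add, neg_add_cancel, h.aT_zero]

theorem IsGM.aT_ideal (h : IsGM E γ X) {p : PP K n} (hp : p ∈ Ideal.span (Set.range γ.eqn))
    (x : X) : aT E p • x = 0 := by
  induction hp using Submodule.span_induction generalizing x with
  | mem p hp => obtain ⟨k, rfl⟩ := hp; exact h.eq k x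
  | zero => exact h.aT_zero x
  | add p q _ _ hp hq => rw [h.add, hp, hq, add_zero]
  | smul r p _ hp => rw [smul_eq_mul, h.mul, hp, smul_zero]

theorem IsGM.d1_πT_mono (h : IsGM E γ X) (μ : Var n →₀ ℕ) (t : ℤ) (x : X) :
    πT E (PP K n) (t + (μ.degree : ℕ)) • aT E (monomial μ (1 : K) : PP K n) • x =
      aT E (monomial μ (1 : K) : PP K n) • πT E (PP K n) t • x := by
  induction μ using Finsupp.induction_linear generalizing t x with
  | zero =>
    have : (monomial (0 : Var n →₀ ℕ) (1 : K) : PP K n) = 1 := rfl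
    rw [this, h.aT_one, h.aT_one]
    simp
  | add μ ν hμ hν =>
    have e1 : (monomial (μ + ν) (1 : K) : PP K n) = monomial μ 1 * monomial ν 1 := by
      rw [monomial_mul, one_mul]
    have e2 : t + (((μ + ν).degree : ℕ) : ℤ) = (t + (ν.degree : ℕ)) + (μ.degree : ℕ) := by
      rw [map_add]; push_cast; ring
    rw [e1, e2, h.mul, h.mul, hμ, hν]
  | single v k =>
    rw [Finsupp.degree_single, ← X_pow_eq_monomial]
    induction k generalizing t x with
    | zero => simp [h.aT_one]
    | succ k ih =>
      have e2 : t + ((k + 1 : ℕ) : ℤ) = (t + k) + 1 := by push_cast; ring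
      rw [pow_succ', h.mul, h.mul, e2, h.px, ih]

theorem IsGM.d1_aT_monomial (h : IsGM E γ X) (μ : Var n →₀ ℕ) (c : K) (x : X) :
    aT E (monomial μ c : PP K n) • x =
      sT (PP K n) (algebraMap K E c) • aT E (monomial μ (1 : K) : PP K n) • x := by
  have e : (monomial μ c : PP K n) = MvPolynomial.C c * monomial μ 1 := by
    rw [C_mul_monomial, mul_one]
  rw [e, h.mul, h.const]

theorem IsGM.πT_aT (h : IsGM E γ X) {p : PP K n} {δ : ℕ} (hp : p.IsHomogeneous δ) (t : ℤ) (x : X) :
    πT E (PP K n) (t + δ) • aT E p • x = aT E p • πT E (PP K n) t • x := by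
  rw [p.as_sum, h.aT_sum, h.aT_sum, Finset.smul_sum]
  refine Finset.sum_congr rfl fun μ hμ => ?_
  have hd : μ.degree = δ := by
    by_contra hne
    exact (mem_support_iff.1 hμ) (hp.coeff_eq_zero hne)
  rw [h.d1_aT_monomial μ (coeff μ p), h.d1_aT_monomial μ (coeff μ p), ← sT_πT, ← hd,
    h.d1_πT_mono]

theorem IsGM.map_piece (h : IsGM E γ X) (f : X →ₗ[TT E (PP K n)] Y) (t : ℤ) :
    (piece E (PP K n) X t).map (resMap f) =
      piece E (PP K n) Y t ⊓ resSub (LinearMap.range f) := by
  apply le_antisymm
  · refine le_inf (map_piece_le _ t) ?_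
    rintro _ ⟨x, _, rfl⟩
    exact ⟨(toRes E (PP K n)).symm x, rfl⟩
  · rintro y ⟨hy, x, hx⟩
    have hy' : πT E (PP K n) t • (toRes E (PP K n)).symm y = (toRes E (PP K n)).symm y := hy
    refine ⟨toRes E (PP K n) (πT E (PP K n) t • x), ?_, ?_⟩
    · change πT E (PP K n) t • πT E (PP K n) t • x = πT E (PP K n) t • x
      rw [h.pp, if_pos rfl]
    · change f (πT E (PP K n) t • x) = (toRes E (PP K n)).symm y
      rw [map_smul, hx, hy']

/-- Additivity of Hilbert functions. -/
theorem IsGM.finrank_piece_add (h : IsGM E γ X) (f : X →ₗ[TT E (PP K n)] Y) (t : ℤ)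
    [Module.Finite E (piece E (PP K n) X t)] :
    finrank E (piece E (PP K n) X t) =
      finrank E (piece E (PP K n) (LinearMap.ker f) t) +
        finrank E (piece E (PP K n) (LinearMap.range f) t) := by
  have h1 := LinearMap.finrank_range_add_finrank_ker
    ((resMap (E := E) f).comp (piece E (PP K n) X t).subtype)
  rw [LinearMap.range_comp, Submodule.range_subtype, h.map_piece] at h1
  have h2 : LinearMap.ker ((resMap (E := E) f).comp (piece E (PP K n) X t).subtype) =
      (resSub (LinearMap.ker f)).comap (piece E (PP K n) X t).subtype := by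
    ext x
    exact Iff.rfl
  rw [h2, ← Submodule.finrank_map_subtype_eq, Submodule.map_comap_subtype] at h1
  rw [finrank_piece_sub, finrank_piece_sub, ← h1, add_comm]

/-- A non-zero submodule contains a non-zero homogeneous element. -/
theorem IsGM.exists_homog (h : IsGM E γ X) {A : Submodule (TT E (PP K n)) X} (hA : A ≠ ⊥) :
    ∃ t : ℤ, ∃ x ∈ A, x ≠ 0 ∧ πT E (PP K n) t • x = x := by
  obtain ⟨x, hx, hx0⟩ := (Submodule.ne_bot_iff A).1 hA
  obtain ⟨s, hs⟩ := h.fin x
  obtain ⟨t, _, ht⟩ := Finset.exists_ne_zero_of_sum_ne_zero (hs ▸ hx0 :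
    ∑ t ∈ s, πT E (PP K n) t • x ≠ 0)
  exact ⟨t, _, A.smul_mem _ hx, ht, by rw [h.pp, if_pos rfl]⟩

theorem IsGM.d1_πT_gen (h : IsGM E γ X) {s : ℤ} {g : X} (hg : πT E (PP K n) s • g = g)
    (μ : Var n →₀ ℕ) (t : ℤ) :
    πT E (PP K n) t • aT E (monomial μ (1 : K) : PP K n) • g =
      if ((μ.degree : ℕ) : ℤ) + s = t then aT E (monomial μ (1 : K) : PP K n) • g else 0 := by
  have h1 := h.d1_πT_mono μ s g
  rw [hg] at h1
  rw [← h1, h.pp]
  by_cases ht : ((μ.degree : ℕ) : ℤ) + s = t
  · rw [if_pos ht, if_pos (by rw [← ht, add_comm]), ← ht, add_comm, h1]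
  · rw [if_neg ht, if_neg (fun h' => ht (by rw [h', add_comm]))]

/-- The pieces of the submodule generated by homogeneous elements. -/
theorem IsGM.piece_span (h : IsGM E γ X) {ι : Type} (σ : ι → ℤ) (g : ι → X)
    (hg : ∀ i, πT E (PP K n) (σ i) • g i = g i) (t : ℤ) :
    piece E (PP K n) X t ⊓ resSub (Submodule.span (TT E (PP K n)) (Set.range g)) =
      Submodule.span E {x | ∃ (i : ι) (μ : Var n →₀ ℕ), (μ.degree : ℤ) + σ i = t ∧
        x = toRes E (PP K n) (aT E (monomial μ (1 : K) : PP K n) • g i)} := by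
  apply le_antisymm
  · set W : Submodule E (Res E (PP K n) X) := Submodule.span E
      {x | ∃ (i : ι) (μ : Var n →₀ ℕ),
        x = toRes E (PP K n) (aT E (monomial μ (1 : K) : PP K n) • g i)} with hW
    have hπ : ∀ (t : ℤ), ∀ x ∈ W, toRes E (PP K n) (πT E (PP K n) t • (toRes E (PP K n)).symm x) ∈
        Submodule.span E {x | ∃ (i : ι) (μ : Var n →₀ ℕ), (μ.degree : ℤ) + σ i = t ∧
          x = toRes E (PP K n) (aT E (monomial μ (1 : K) : PP K n) • g i)} := by
      intro t x hx
      induction hx using Submodule.span_induction with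
      | mem x hx =>
        obtain ⟨i, μ, rfl⟩ := hx
        rw [AddEquiv.symm_apply_apply, h.d1_πT_gen (hg i)]
        split_ifs with hc
        · exact Submodule.subset_span ⟨i, μ, hc, rfl⟩
        · exact Submodule.zero_mem _
      | zero => rw [map_zero, smul_zero, map_zero]; exact Submodule.zero_mem _
      | add x y _ _ hx hy =>
        rw [map_add, smul_add, map_add]
        exact Submodule.add_mem _ hx hy
      | smul e x _ hx =>
        have e1 : toRes E (PP K n) (πT E (PP K n) t • (toRes E (PP K n)).symm (e • x)) =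
            e • toRes E (PP K n) (πT E (PP K n) t • (toRes E (PP K n)).symm x) :=
          (sT_πT e t ((toRes E (PP K n)).symm x)).symm
        rw [e1]
        exact Submodule.smul_mem _ _ hx
    have hgen : ∀ (p : PP K n) (i : ι), toRes E (PP K n) (aT E p • g i) ∈ W := by
      intro p i
      rw [p.as_sum, h.aT_sum, map_sum]
      refine Submodule.sum_mem _ fun μ _ => ?_
      rw [h.d1_aT_monomial, ← smul_toRes]
      exact Submodule.smul_mem _ _ (Submodule.subset_span ⟨i, μ, rfl⟩)
    have ha : ∀ (p : PP K n), ∀ x ∈ W,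
        toRes E (PP K n) (aT E p • (toRes E (PP K n)).symm x) ∈ W := by
      intro p x hx
      induction hx using Submodule.span_induction with
      | mem x hx =>
        obtain ⟨i, μ, rfl⟩ := hx
        rw [AddEquiv.symm_apply_apply, ← h.mul]
        exact hgen _ i
      | zero => rw [map_zero, smul_zero, map_zero]; exact Submodule.zero_mem _
      | add x y _ _ hx hy =>
        rw [map_add, smul_add, map_add]
        exact Submodule.add_mem _ hx hy
      | smul e x _ hx =>
        have e1 : toRes E (PP K n) (aT E p • (toRes E (PP K n)).symm (e • x)) =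
            e • toRes E (PP K n) (aT E p • (toRes E (PP K n)).symm x) :=
          (sT_aT e p ((toRes E (PP K n)).symm x)).symm
        rw [e1]
        exact Submodule.smul_mem _ _ hx
    have hsub : ∀ x ∈ Submodule.span (TT E (PP K n)) (Set.range g), toRes E (PP K n) x ∈ W := by
      intro x hx
      induction hx using Submodule.span_induction with
      | mem x hx =>
        obtain ⟨i, rfl⟩ := hx
        have := hgen 1 i
        rwa [h.aT_one] at this
      | zero => exact W.zero_mem
      | add x y _ _ hx hy => exact W.add_mem hx hy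
      | smul r x _ hx =>
        refine smul_mem_of_gens
          (W.toAddSubgroup.comap (toRes E (PP K n)).toAddMonoidHom) ?_ ?_ ?_ r hx
        · exact fun e x hx => W.smul_mem e hx
        · exact fun p x hx => ha p _ hx
        · intro t x hx
          change toRes E (PP K n) (πT E (PP K n) t • x) ∈ W
          refine Submodule.span_mono ?_ (hπ t _ hx)
          rintro _ ⟨i, μ, _, rfl⟩
          exact ⟨i, μ, rfl⟩
    rintro x ⟨hx, hx2⟩
    have hx' : πT E (PP K n) t • (toRes E (PP K n)).symm x = (toRes E (PP K n)).symm x := hx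
    have := hπ t x (hsub _ hx2)
    rwa [hx'] at this
  · rw [Submodule.span_le]
    rintro _ ⟨i, μ, hc, rfl⟩
    refine ⟨?_, ?_⟩
    · change πT E (PP K n) t • aT E (monomial μ (1 : K) : PP K n) • g i = _
      rw [h.d1_πT_gen (hg i), if_pos hc]
      rfl
    · exact Submodule.smul_mem (Submodule.span (TT E (PP K n)) (Set.range g)) _
        (Submodule.subset_span ⟨i, rfl⟩)

/-- Homogeneous generators. -/
theorem Adm.exists_gens (h : Adm E γ X) :
    ∃ (m : ℕ) (σ : Fin m → ℤ) (g : Fin m → X), (∀ i, πT E (PP K n) (σ i) • g i = g i) ∧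
      Submodule.span (TT E (PP K n)) (Set.range g) = ⊤ := by
  classical
  obtain ⟨hG, hF⟩ := h
  obtain ⟨S, hS⟩ := hF.fg_top
  choose s hs using hG.fin
  set T : Finset (ℤ × X) := S.biUnion fun x => (s x).image fun t => (t, πT E (PP K n) t • x)
    with hT
  refine ⟨T.card, fun j => (T.equivFin.symm j).1.1, fun j => (T.equivFin.symm j).1.2,
    fun j => ?_, ?_⟩
  · have h1 := (T.equivFin.symm j).2
    simp only [hT, Finset.mem_biUnion, Finset.mem_image] at h1
    obtain ⟨x, _, t, _, h2⟩ := h1
    beta_reduce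
    rw [← h2, hG.pp, if_pos rfl]
  · rw [eq_top_iff, ← hS, Submodule.span_le]
    intro x hx
    rw [hs x]
    refine Submodule.sum_mem _ fun t ht => Submodule.subset_span ?_
    have hm : (t, πT E (PP K n) t • x) ∈ T := by
      simp only [hT, Finset.mem_biUnion, Finset.mem_image]
      exact ⟨x, hx, t, ht, rfl⟩
    exact ⟨T.equivFin ⟨_, hm⟩, by simp⟩

theorem Adm.finite_piece (h : Adm E γ X) (t : ℤ) : Module.Finite E (piece E (PP K n) X t) := by
  obtain ⟨m, σ, g, hg, hsp⟩ := h.exists_gens
  have h1 := h.1.piece_span σ g hg t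
  have h2 : resSub (E := E) (P := PP K n) (⊤ : Submodule (TT E (PP K n)) X) = ⊤ := by
    rw [eq_top_iff]; intro x _; exact Submodule.mem_top
  rw [hsp, h2, inf_top_eq] at h1
  rw [h1]
  refine Module.Finite.span_of_finite E ?_
  refine Set.Finite.subset (Set.finite_iUnion fun i : Fin m =>
    (Finsupp.finite_of_degree_eq (σ := Var n) (t - σ i).toNat).image
      fun μ => toRes E (PP K n) (aT E (monomial μ (1 : K) : PP K n) • g i)) ?_
  rintro _ ⟨i, μ, hc, rfl⟩
  refine Set.mem_iUnion.2 ⟨i, μ, ?_, rfl⟩
  change μ.degree = (t - σ i).toNat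
  omega

end Crest.Agent.R181
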