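import Crest.Agent.R181.K1A

/-! # Row 181, K1B: the basic calculus of `sg`, `rho`, and monomial spaces. -/

set_option autoImplicit false

namespace Crest.Agent.R181

open Module

variable {D : Type} [DivisionRing D] {n : ℕ} {M : Type} [AddCommGroup M] [Module D M]

theorem sg_zero (s : Finset (Fin n)) (t : Fin n → M →ₗ[D] M) (W : Submodule D M) :
    sg s t 0 W = 0 := by
  have : (ch s 0 W).map (kd s t) = ⊥ := by
    rw [eq_bot_iff]
    rintro _ ⟨f, hf, rfl⟩
    exact kd_ch_zero t hf
  rw [sg, this, finrank_bot]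

theorem sg_mono (s : Finset (Fin n)) (t : Fin n → M →ₗ[D] M) (p : ℕ) {W W' : Submodule D M}
    [Module.Finite D W'] (h : W ≤ W') : sg s t p W ≤ sg s t p W' := by
  have := ch_finite s p W'
  exact Submodule.finrank_mono (Submodule.map_mono (ch_mono s p h))

/-- Comparison through a chain map: if `ψ` is injective on the image of `kd s t`,
`ψ ∘ d = d' ∘ φ` on `ch s p W`, and `φ` maps `ch s p W` into `ch s p W'`, then `sg ≤ sg'`. -/
theorem sg_le_of_chainMap {M' : Type} [AddCommGroup M'] [Module D M'] (s : Finset (Fin n))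
    (t : Fin n → M →ₗ[D] M) (t' : Fin n → M' →ₗ[D] M') (p : ℕ) (W : Submodule D M)
    (W' : Submodule D M') [Module.Finite D W']
    (φ ψ : (Finset (Fin n) → M) →ₗ[D] (Finset (Fin n) → M'))
    (hφ : ∀ f ∈ ch s p W, φ f ∈ ch s p W')
    (hcomm : ∀ f ∈ ch s p W, ψ (kd s t f) = kd s t' (φ f))
    (hinj : ∀ f ∈ ch s p W, ψ (kd s t f) = 0 → kd s t f = 0) :
    sg s t p W ≤ sg s t' p W' := by
  have := ch_finite s p W'
  refine LinearMap.finrank_le_finrank_of_injective
    (f := ψ.restrict (p := (ch s p W).map (kd s t)) (q := (ch s p W').map (kd s t')) ?_) ?_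
  · rintro _ ⟨f, hf, rfl⟩
    exact ⟨φ f, hφ f hf, (hcomm f hf).symm⟩
  · rw [injective_iff_map_eq_zero]
    rintro ⟨_, f, hf, rfl⟩ h
    exact Subtype.ext (hinj f hf (congrArg Subtype.val h))

/-- Transport along an injective linear map intertwining the operators. -/
theorem sg_map {M' : Type} [AddCommGroup M'] [Module D M'] (s : Finset (Fin n))
    (t : Fin n → M →ₗ[D] M) (t' : Fin n → M' →ₗ[D] M') (e : M →ₗ[D] M')
    (he : Function.Injective e) (h : ∀ i ∈ s, ∀ x, e (t i x) = t' i (e x)) (p : ℕ)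
    (W : Submodule D M) : sg s t' p (W.map e) = sg s t p W := by
  have h1 : ch s p (W.map e) = (ch s p W).map (e.compLeft (Finset (Fin n))) := by
    ext f
    constructor
    · intro hf
      have h2 : ∀ T, ∃ w, e w = f T ∧ (T ⊆ s ∧ T.card = p → w ∈ W) ∧
          (¬ (T ⊆ s ∧ T.card = p) → w = 0) := fun T => by
        by_cases hT : T ⊆ s ∧ T.card = p
        · obtain ⟨w, hw, hw'⟩ := (mem_ch.1 hf T).1 hT
          exact ⟨w, hw', fun _ => hw, fun h => absurd hT h⟩
        · exact ⟨0, by rw [map_zero, (mem_ch.1 hf T).2 hT], fun h => absurd h hT, fun _ => rfl⟩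
      choose g hg using h2
      exact ⟨g, mem_ch.2 fun T => (hg T).2, funext fun T => (hg T).1⟩
    · rintro ⟨g, hg, rfl⟩
      refine mem_ch.2 fun T => ⟨fun hT => ⟨g T, (mem_ch.1 hg T).1 hT, rfl⟩, fun hT => ?_⟩
      change e (g T) = 0
      rw [(mem_ch.1 hg T).2 hT, map_zero]
  have h2 : kd s t' ∘ₗ e.compLeft (Finset (Fin n)) = e.compLeft (Finset (Fin n)) ∘ₗ kd s t := by
    refine LinearMap.ext fun f => funext fun U => ?_
    change kd s t' (e.compLeft (Finset (Fin n)) f) U = e (kd s t f U)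
    rw [kd_apply, kd_apply, map_sum]
    refine Finset.sum_congr rfl fun i hi => ?_
    split_ifs
    · rw [map_zero]
    · rw [map_zsmul, h i hi]
      rfl
  have h3 : Function.Injective (e.compLeft (Finset (Fin n))) := fun f g hfg =>
    funext fun U => he (congrFun hfg U)
  rw [sg, sg, h1, ← Submodule.map_comp, h2, Submodule.map_comp]
  exact (Submodule.equivMapOfInjective _ h3 _).finrank_eq.symm

theorem le_rho (s : Finset (Fin n)) (t : Fin n → M →ₗ[D] M) (p : ℕ) (W' W : Submodule D M)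
    [Module.Finite D W'] [Module.Finite D W] :
    s.card.choose p * finrank D W ≤ rho s t p W' W := by
  have := ch_finite s p W
  have := ch_finite s (p + 1) W'
  rw [← finrank_ch]
  exact Submodule.finrank_mono le_sup_right

theorem rho_eq_of_le (s : Finset (Fin n)) (t : Fin n → M →ₗ[D] M) (p : ℕ) (W' W : Submodule D M)
    [Module.Finite D W] (h : ∀ i ∈ s, ∀ w ∈ W', t i w ∈ W) :
    rho s t p W' W = s.card.choose p * finrank D W := by
  rw [← finrank_ch, rho, sup_eq_right.2]
  rintro _ ⟨f, hf, rfl⟩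
  exact kd_mem_ch t h hf

theorem rho_le_add (s : Finset (Fin n)) (t : Fin n → M →ₗ[D] M) (p : ℕ)
    (W' W₁ W₂ : Submodule D M) [Module.Finite D W'] [Module.Finite D W₂] (h : W₁ ≤ W₂) :
    rho s t p W' W₂ + s.card.choose p * finrank D W₁ ≤
      rho s t p W' W₁ + s.card.choose p * finrank D W₂ := by
  have : Module.Finite D W₁ := Submodule.finiteDimensional_of_le h
  have := ch_finite s p W₁
  have := ch_finite s p W₂
  have := ch_finite s (p + 1) W'
  rw [← finrank_ch, ← finrank_ch, rho, rho]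
  have h1 := Submodule.finrank_sup_add_finrank_inf_eq
    ((ch s (p + 1) W').map (kd s t) ⊔ ch s p W₁) (ch s p W₂)
  rw [sup_assoc, sup_eq_right.2 (ch_mono s p h)] at h1
  rw [← h1]
  exact Nat.add_le_add_left (Submodule.finrank_mono (le_inf le_sup_right (ch_mono s p h))) _

/-! ### Monomial spaces -/

theorem Mon_finite (s : Finset (Fin n)) (d : ℕ) : (Mon s d).Finite := by
  exact (Finsupp.finite_of_degree_le d).subset fun μ hμ => hμ.1.le

theorem mon_finite {σ : Type} {X : Set (σ →₀ ℕ)} (hX : X.Finite) :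
    Module.Finite D (mon D X) := by
  have := hX.to_subtype
  exact Module.Finite.equiv (AddMonoidAlgebra.supportedEquivFinsupp X).symm

theorem finrank_mon {σ : Type} {X : Set (σ →₀ ℕ)} (hX : X.Finite) :
    finrank D (mon D X) = X.ncard := by
  have := hX.fintype
  rw [(AddMonoidAlgebra.supportedEquivFinsupp X).finrank_eq, Module.finrank_finsupp_self,
    ← Nat.card_coe_set_eq, Nat.card_eq_fintype_card]

theorem finite_of_le_mon {s : Finset (Fin n)} {d : ℕ} {W : Submodule D (PR D (Fin n))}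
    (h : W ≤ mon D (Mon s d)) : Module.Finite D W := by
  have := mon_finite (D := D) (Mon_finite s d)
  exact Submodule.finiteDimensional_of_le h

theorem tx_single {σ : Type} (i : σ) (μ : σ →₀ ℕ) (c : D) :
    tx D i (AddMonoidAlgebra.single μ c) =
      AddMonoidAlgebra.single (μ + Finsupp.single i 1) c := by
  change AddMonoidAlgebra.single μ c * AddMonoidAlgebra.single (Finsupp.single i 1) 1 = _
  rw [AddMonoidAlgebra.single_mul_single, mul_one]

theorem tx_coeff_add {σ : Type} (i : σ) (w : PR D σ) (μ : σ →₀ ℕ) :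
    (tx D i w).coeff (μ + Finsupp.single i 1) = w.coeff μ := by
  change (w * AddMonoidAlgebra.single (Finsupp.single i 1) 1).coeff _ = _
  rw [AddMonoidAlgebra.coeff_mul_single_eq_coeff_mul μ fun _ _ => add_left_inj _, mul_one]

theorem tx_coeff_ne_zero {σ : Type} (i : σ) (w : PR D σ) (ν : σ →₀ ℕ)
    (h : (tx D i w).coeff ν ≠ 0) : ∃ μ, ν = μ + Finsupp.single i 1 ∧ w.coeff μ ≠ 0 := by
  by_cases h1 : ∃ μ, μ + Finsupp.single i 1 = ν
  · obtain ⟨μ, rfl⟩ := h1
    exact ⟨μ, rfl, by rwa [tx_coeff_add] at h⟩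
  · exact absurd (AddMonoidAlgebra.coeff_mul_single_of_forall_add_ne 1 w (not_exists.1 h1)) h

theorem tx_comm {σ : Type} (i j : σ) (w : PR D σ) : tx D i (tx D j w) = tx D j (tx D i w) := by
  change w * xv D j * xv D i = w * xv D i * xv D j
  simp only [mul_assoc, xv, AddMonoidAlgebra.single_mul_single, add_comm]

theorem tx_injective {σ : Type} (i : σ) : Function.Injective (tx D i : PR D σ → PR D σ) := by
  intro w w' h
  refine AddMonoidAlgebra.coeff_injective (Finsupp.ext fun μ => ?_)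
  rw [← tx_coeff_add i w, h, tx_coeff_add]

theorem tx_mem_Mon {s : Finset (Fin n)} {d : ℕ} {i : Fin n} (hi : i ∈ s) {w : PR D (Fin n)}
    (hw : w ∈ mon D (Mon s d)) : tx D i w ∈ mon D (Mon s (d + 1)) := by
  refine AddMonoidAlgebra.mem_supported'.2 fun ν hν => by_contra fun h => hν ?_
  obtain ⟨μ, rfl, hμ⟩ := tx_coeff_ne_zero i w ν h
  have h1 : μ ∈ Mon s d := by_contra fun h2 => hμ (AddMonoidAlgebra.mem_supported'.1 hw μ h2)
  refine ⟨by rw [map_add, h1.1, Finsupp.degree_single], fun j hj => ?_⟩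
  rw [Finsupp.add_apply, h1.2 j hj, Finsupp.single_eq_of_ne (by rintro rfl; exact hj hi), add_zero]

/-- Variables are central. -/
theorem xv_comm {σ : Type} (i : σ) (w : PR D σ) : xv D i * w = w * xv D i := by
  exact (AddMonoidAlgebra.single_commute (fun m => add_comm _ m) Commute.one_left w).eq

/-- Products of homogeneous elements are homogeneous. -/
theorem mul_mem_Mon {s : Finset (Fin n)} {d e : ℕ} {w w' : PR D (Fin n)}
    (hw : w ∈ mon D (Mon s d)) (hw' : w' ∈ mon D (Mon s e)) : w * w' ∈ mon D (Mon s (d + e)) := by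
  classical
  intro ν hν
  obtain ⟨a, ha, b, hb, rfl⟩ :=
    Finset.mem_add.1 (AddMonoidAlgebra.support_coeff_mul_subset w w' hν)
  have h1 : a ∈ Mon s d := hw ha
  have h2 : b ∈ Mon s e := hw' hb
  exact ⟨by rw [map_add, h1.1, h2.1], fun j hj => by rw [Finsupp.add_apply, h1.2 j hj, h2.2 j hj]⟩

theorem colon_mon (s : Finset (Fin n)) (d : ℕ) (X : Set (Fin n →₀ ℕ)) :
    colon D s d (mon D X) = mon D (col s d X) := by
  ext w
  simp only [colon, Submodule.mem_inf, Submodule.mem_iInf, Submodule.mem_comap,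
    AddMonoidAlgebra.mem_supported']
  constructor
  · rintro ⟨h1, h2⟩ μ hμ
    by_contra h
    refine hμ ⟨by_contra fun h3 => h (h1 μ h3), fun i hi => by_contra fun h3 => h ?_⟩
    rw [← tx_coeff_add i w μ]
    exact h2 i hi _ h3
  · intro h
    refine ⟨fun μ hμ => h μ fun h1 => hμ h1.1, fun i hi ν hν => by_contra fun h1 => ?_⟩
    obtain ⟨μ, rfl, hμ⟩ := tx_coeff_ne_zero i w ν h1
    exact hμ (h μ fun h2 => hν (h2.2 i hi))

theorem mon_Mon_univ (d : ℕ) :
    mon ℂ (Mon (Finset.univ : Finset (Fin n)) d) = MvPolynomial.homogeneousSubmodule (Fin n) ℂ d := by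
  rw [MvPolynomial.homogeneousSubmodule_eq_finsupp_supported]
  congr 1
  ext μ
  simp [Mon]

end Crest.Agent.R181
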