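import Crest.Agent.R181.K1A
import Crest.Agent.R181.K1B

/-! # Row 181, K1: anticommutation relations and the basic calculus of `ch`, `sg`, `rho`. -/

set_option autoImplicit false

namespace Crest.Agent.R181

open Module

variable {D : Type} [DivisionRing D] {n : ℕ} {M : Type} [AddCommGroup M] [Module D M]

theorem tx_eq_mul_X (i : Fin n) (w : MvPolynomial (Fin n) ℂ) :
    tx ℂ i w = w * MvPolynomial.X i := rfl

end Crest.Agent.R181
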