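import Crest.Agent.R181.DDefs
import Crest.Agent.R181.K1

/-! # Row 181: calculus of `Good`, and the module form of `Intg`. -/

set_option autoImplicit false

namespace Crest.Agent.R181

open Module MvPolynomial

variable {n : ℕ} {C : Type}

theorem dB_pos {b : Fin n → ℕ} (hb : ∀ k, 1 ≤ b k) : 0 < dB b := by
  exact Finset.prod_pos fun k _ => by exact_mod_cast hb k

theorem Good.congr {b : Fin n → ℕ} {L : Finset C} {H H' : (C → ℤ) → ℤ} (h : Good b L H) (T : ℤ)
    (he : ∀ s : C → ℤ, (∀ c ∈ L, T ≤ s c) → (∀ c, c ∉ L → s c = 0) → H' s = H s) :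
    Good b L H' := by
  obtain ⟨G, hG, T', hT⟩ := h
  refine ⟨G, hG, max T T', fun s h1 h2 => ?_⟩
  rw [he s (fun c hc => (le_max_left _ _).trans (h1 c hc)) h2,
    hT s (fun c hc => (le_max_right _ _).trans (h1 c hc)) h2]

theorem Good.zero (b : Fin n → ℕ) (L : Finset C) : Good b L fun _ => 0 := by
  exact ⟨0, zero_mem _, 0, fun _ _ _ => rfl⟩

theorem Good.add {b : Fin n → ℕ} {L : Finset C} {H H' : (C → ℤ) → ℤ} (h : Good b L H)
    (h' : Good b L H') : Good b L fun s => H s + H' s := by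
  obtain ⟨G, hG, T, hT⟩ := h
  obtain ⟨G', hG', T', hT'⟩ := h'
  refine ⟨G + G', add_mem hG hG', max T T', fun s h1 h2 => ?_⟩
  change H s + H' s = G s + G' s
  rw [hT s (fun c hc => (le_max_left _ _).trans (h1 c hc)) h2,
    hT' s (fun c hc => (le_max_right _ _).trans (h1 c hc)) h2]

theorem Good.const_mul {b : Fin n → ℕ} {L : Finset C} {H : (C → ℤ) → ℤ} (h : Good b L H) (m : ℤ) :
    Good b L fun s => m * H s := by
  obtain ⟨G, hG, T, hT⟩ := h
  refine ⟨m • G, zsmul_mem hG m, T, fun s h1 h2 => ?_⟩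
  change m * H s = m • G s
  rw [hT s h1 h2, smul_eq_mul]

theorem Good.sum {b : Fin n → ℕ} {L : Finset C} {ι : Type} (S : Finset ι)
    {H : ι → (C → ℤ) → ℤ} (h : ∀ i ∈ S, Good b L (H i)) :
    Good b L fun s => ∑ i ∈ S, H i s := by
  classical
  induction S using Finset.induction_on with
  | empty => simpa using Good.zero b L
  | insert i S hi ih =>
    simp_rw [Finset.sum_insert hi]
    exact (h i (Finset.mem_insert_self _ _)).add
      (ih fun j hj => h j (Finset.mem_insert_of_mem hj))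

theorem Good.shift {b : Fin n → ℕ} {L : Finset C} {H : (C → ℤ) → ℤ} (h : Good b L H) (e : C → ℤ)
    (he : ∀ c, c ∉ L → e c = 0) : Good b L fun s => H (s - e) := by
  obtain ⟨G, hG, T, hT⟩ := h
  have key : (fun s => G (s - e)) ∈ GoodFn b L := by
    clear hT
    induction hG using AddSubgroup.closure_induction with
    | mem G hG =>
      obtain ⟨α, β, rfl⟩ := hG
      refine AddSubgroup.subset_closure ⟨α, fun c => β c + α c * e c, funext fun s => ?_⟩
      refine Finset.prod_congr rfl fun c _ => ?_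
      simp only [hB, Pi.sub_apply]
      ring
    | zero => exact zero_mem _
    | add G G' _ _ h1 h2 => exact add_mem h1 h2
    | neg G _ h1 => exact neg_mem h1
  refine ⟨_, key, T + ∑ c ∈ L, |e c|, fun s h1 h2 => hT _ (fun c hc => ?_) fun c hc => ?_⟩
  · have h3 : |e c| ≤ ∑ c ∈ L, |e c| :=
      Finset.single_le_sum (f := fun c => |e c|) (fun _ _ => abs_nonneg _) hc
    have h4 := h1 c hc
    have h5 := le_abs_self (e c)
    rw [Pi.sub_apply]
    linarith
  · rw [Pi.sub_apply, h2 c hc, he c hc, sub_zero]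

theorem Good.prod_hB (b : Fin n → ℕ) (L : Finset C) :
    Good b L fun s => ∏ c ∈ L, hB b (s c) := by
  refine ⟨_, AddSubgroup.subset_closure ⟨fun _ => 1, fun _ => 0, rfl⟩, 0, fun s _ _ => ?_⟩
  simp

theorem Good.insert [DecidableEq C] {b : Fin n → ℕ} {L : Finset C} {c : C} (hc : c ∉ L)
    {H : (C → ℤ) → ℤ} (h : Good b (insert c L) H) :
    ∃ H₀ H₁ : (C → ℤ) → ℤ, Good b L H₀ ∧ Good b L H₁ ∧ ∃ T : ℤ, ∀ s : C → ℤ,
      (∀ c' ∈ L, T ≤ s c') → (∀ c', c' ∉ L → s c' = 0) → ∀ t, T ≤ t →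
        H (Function.update s c t) = H₀ s * hB b t - H₁ s * dB b := by
  obtain ⟨G, hG, T, hT⟩ := h
  have key : ∃ G₀ ∈ GoodFn b L, ∃ G₁ ∈ GoodFn b L, ∀ s t,
      G (Function.update s c t) = G₀ s * hB b t - G₁ s * dB b := by
    clear hT
    induction hG using AddSubgroup.closure_induction with
    | mem G hG =>
      obtain ⟨α, β, rfl⟩ := hG
      have hm : (fun s : C → ℤ => ∏ c ∈ L, (α c * hB b (s c) - β c * dB b)) ∈ GoodFn b L :=
        AddSubgroup.subset_closure ⟨α, β, rfl⟩
      refine ⟨_, zsmul_mem hm (α c), _, zsmul_mem hm (β c), fun s t => ?_⟩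
      have : ∏ c' ∈ L, (α c' * hB b (Function.update s c t c') - β c' * dB b) =
          ∏ c' ∈ L, (α c' * hB b (s c') - β c' * dB b) :=
        Finset.prod_congr rfl fun c' hc' => by
          rw [Function.update_of_ne (ne_of_mem_of_not_mem hc' hc)]
      simp only [Finset.prod_insert hc, Function.update_self, this, Pi.smul_apply, smul_eq_mul]
      ring
    | zero => exact ⟨0, zero_mem _, 0, zero_mem _, fun s t => by simp⟩
    | add G G' _ _ h1 h2 =>
      obtain ⟨G₀, h0, G₁, h1, e1⟩ := h1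
      obtain ⟨G₀', h0', G₁', h1', e2⟩ := h2
      refine ⟨_, add_mem h0 h0', _, add_mem h1 h1', fun s t => ?_⟩
      simp only [Pi.add_apply, e1, e2]
      ring
    | neg G _ h1 =>
      obtain ⟨G₀, h0, G₁, h1, e1⟩ := h1
      refine ⟨_, neg_mem h0, _, neg_mem h1, fun s t => ?_⟩
      simp only [Pi.neg_apply, e1]
      ring
  obtain ⟨G₀, h0, G₁, h1, e1⟩ := key
  refine ⟨G₀, G₁, ⟨G₀, h0, 0, fun _ _ _ => rfl⟩, ⟨G₁, h1, 0, fun _ _ _ => rfl⟩, T,
    fun s hs1 hs2 t ht => ?_⟩
  rw [← e1]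
  refine hT _ (fun c' hc' => ?_) fun c' hc' => ?_
  · rcases Finset.mem_insert.1 hc' with rfl | hc'
    · rwa [Function.update_self]
    · rw [Function.update_of_ne (ne_of_mem_of_not_mem hc' hc)]
      exact hs1 c' hc'
  · rw [Finset.mem_insert, not_or] at hc'
    rw [Function.update_of_ne hc'.1]
    exact hs2 c' hc'.2

theorem Good.singleton [DecidableEq C] {b : Fin n → ℕ} {c : C} {H : (C → ℤ) → ℤ}
    (h : Good b {c} H) :
    ∃ c₀ c₁ T : ℤ, ∀ t, T ≤ t → H (Pi.single c t) = c₀ * hB b t - c₁ * dB b := by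
  obtain ⟨H₀, H₁, -, -, T, hT⟩ := Good.insert (L := ∅) (c := c) (Finset.notMem_empty c) h
  exact ⟨H₀ 0, H₁ 0, T, fun t ht => hT 0 (by simp) (fun _ _ => rfl) t ht⟩

theorem mdeg_add (μ ν : C × Var n →₀ ℕ) : mdeg (μ + ν) = mdeg μ + mdeg ν := by
  funext c
  simp [mdeg, Finset.sum_add_distrib]

theorem mdeg_zero : mdeg (0 : C × Var n →₀ ℕ) = 0 := by
  funext c
  simp [mdeg]

theorem mdeg_single [DecidableEq C] (c : C) (v : Var n) (m : ℕ) :
    mdeg (Finsupp.single (c, v) m) = Pi.single c (m : ℤ) := by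
  funext c'
  unfold mdeg
  by_cases h : c' = c
  · subst h
    rw [Pi.single_eq_same, Finset.sum_eq_single v]
    · rw [Finsupp.single_eq_same]
    · intro v' _ hv
      rw [Finsupp.single_eq_of_ne (fun h => hv (Prod.mk.inj h).2), Nat.cast_zero]
    · simp
  · rw [Pi.single_eq_of_ne h]
    refine Finset.sum_eq_zero fun v' _ => ?_
    rw [Finsupp.single_eq_of_ne (fun h' => h (Prod.mk.inj h').1), Nat.cast_zero]

theorem mdeg_mapDomain [DecidableEq C] (c : C) (μ : Var n →₀ ℕ) :
    mdeg (μ.mapDomain (Prod.mk c)) = Pi.single c (μ.degree : ℤ) := by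
  funext c'
  unfold mdeg
  by_cases h : c' = c
  · subst h
    rw [Pi.single_eq_same, Finsupp.degree_eq_sum, Nat.cast_sum]
    refine Finset.sum_congr rfl fun v _ => ?_
    rw [Finsupp.mapDomain_apply (Prod.mk_right_injective c')]
  · rw [Pi.single_eq_of_ne h]
    refine Finset.sum_eq_zero fun v' _ => ?_
    rw [Finsupp.mapDomain_of_notMem_range, Nat.cast_zero]
    rintro ⟨v, hv⟩
    exact h (Prod.mk.inj hv).1.symm

theorem eq_zero_of_mdeg {μ : C × Var n →₀ ℕ} {c : C} (h : mdeg μ c = 0) (v : Var n) :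
    μ (c, v) = 0 := by
  have := (Finset.sum_eq_zero_iff_of_nonneg (fun v _ => Nat.cast_nonneg (μ (c, v)))).1 h v
    (Finset.mem_univ v)
  exact_mod_cast this

theorem mdeg_finite [Finite C] (s : C → ℤ) : {μ : C × Var n →₀ ℕ | mdeg μ = s}.Finite := by
  have := Fintype.ofFinite C
  refine (Finsupp.finite_of_degree_le (∑ c, s c).toNat).subset fun μ hμ => ?_
  have h1 : ((μ.degree : ℕ) : ℤ) = ∑ c, s c := by
    rw [Finsupp.degree_eq_sum, Nat.cast_sum, Fintype.sum_prod_type, ← (show mdeg μ = s from hμ)]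
    rfl
  change μ.degree ≤ _
  omega

theorem dgood_ind {L : Finset C} {P : (C × Var n →₀ ℕ) → Prop} (h0 : P 0)
    (hs : ∀ μ c v, c ∈ L → P μ → P (μ + Finsupp.single (c, v) 1)) (μ : C × Var n →₀ ℕ)
    (hμ : ∀ c, c ∉ L → mdeg μ c = 0) : P μ := by
  have hμ' : ∀ a : C × Var n, a.1 ∉ L → μ a = 0 := fun a ha => eq_zero_of_mdeg (hμ a.1 ha) a.2
  clear hμ
  induction μ using Finsupp.induction with
  | zero => exact h0
  | single_add a m f _ hm ih =>
    have ha : a.1 ∈ L := by
      by_contra ha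
      have := hμ' a ha
      rw [Finsupp.add_apply, Finsupp.single_eq_same] at this
      omega
    have hf : P f := ih fun a' ha' => by
      have := hμ' a' ha'
      rw [Finsupp.add_apply] at this
      omega
    have : ∀ j : ℕ, P (Finsupp.single a j + f) := by
      intro j
      induction j with
      | zero => simpa using hf
      | succ j ihj =>
        rw [Finsupp.single_add, add_right_comm]
        exact hs _ a.1 a.2 ha ihj
    exact this m

theorem dgood_tx_mem {D : Type} [DivisionRing D] {σ : Type} {i : σ} {X Y : Set (σ →₀ ℕ)}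
    {w : PR D σ} (hw : w ∈ mon D X) (h : ∀ μ ∈ X, μ + Finsupp.single i 1 ∈ Y) :
    tx D i w ∈ mon D Y := by
  refine AddMonoidAlgebra.mem_supported'.2 fun ν hν => by_contra fun h' => hν ?_
  obtain ⟨μ, rfl, hμ⟩ := tx_coeff_ne_zero i w ν h'
  exact h μ (by_contra fun h0 => hμ (AddMonoidAlgebra.mem_supported'.1 hw μ h0))

theorem dgood_rank0 {D : Type} [DivisionRing D] {M N : Type} [AddCommGroup M] [Module D M]
    [AddCommGroup N] [Module D N] (f : M →ₗ[D] N) (P : Submodule D M) [Module.Finite D P] :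
    finrank D (P.map f) + finrank D ↥(LinearMap.ker f ⊓ P) = finrank D P := by
  have h := LinearMap.finrank_range_add_finrank_ker (f.domRestrict P)
  rw [LinearMap.range_domRestrict, LinearMap.ker_domRestrict] at h
  rw [← h]
  congr 1
  have e := Submodule.comapSubtypeEquivOfLe (inf_le_right : LinearMap.ker f ⊓ P ≤ P)
  rw [← e.finrank_eq, Submodule.comap_inf, Submodule.comap_subtype_self, inf_top_eq]

theorem dgood_rank {D : Type} [DivisionRing D] {M N : Type} [AddCommGroup M] [Module D M]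
    [AddCommGroup N] [Module D N] (f : M →ₗ[D] N) (P : Submodule D M) [Module.Finite D P]
    (U : Submodule D N) [Module.Finite D U] :
    finrank D ↥(U ⊔ P.map f) + finrank D ↥(P ⊓ U.comap f) = finrank D U + finrank D P := by
  have : Module.Finite D ↥(P ⊓ U.comap f) := Submodule.finiteDimensional_of_le inf_le_left
  have h1 := Submodule.finrank_sup_add_finrank_inf_eq U (P.map f)
  have h2 := dgood_rank0 f P
  have h3 := dgood_rank0 f (P ⊓ U.comap f)
  have e1 : (P ⊓ U.comap f).map f = U ⊓ P.map f := by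
    ext x
    constructor
    · rintro ⟨p, hp, rfl⟩
      exact ⟨hp.2, p, hp.1, rfl⟩
    · rintro ⟨hx, p, hp, rfl⟩
      exact ⟨p, ⟨hp, hx⟩, rfl⟩
  have e2 : LinearMap.ker f ⊓ (P ⊓ U.comap f) = LinearMap.ker f ⊓ P := by
    refine le_antisymm (inf_le_inf_left _ inf_le_left) fun x hx => ⟨hx.1, hx.2, ?_⟩
    change f x ∈ U
    rw [show f x = 0 from hx.1]
    exact U.zero_mem
  rw [e1, e2] at h3
  omega

section ev

variable {K : Type} [Field K] (E : Type) [DivisionRing E] {M : Type} [AddCommGroup M] [Module E M]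
  {ι : Type} (φ : MvPolynomial ι K →+* Module.End E M)

/-- Evaluation of a polynomial over `E` at a vector. -/
noncomputable def dgood_ev (g : M) : PR E ι →ₗ[E] M :=
  Finsupp.linearCombination E (fun μ : ι →₀ ℕ => φ (monomial μ 1) g) ∘ₗ
    (AddMonoidAlgebra.coeffLinearEquiv E).toLinearMap

variable {E}

theorem dgood_ev_single (g : M) (μ : ι →₀ ℕ) (e : E) :
    dgood_ev E φ g (AddMonoidAlgebra.single μ e) = e • φ (monomial μ 1) g := by
  change Finsupp.linearCombination E _ (Finsupp.single μ e) = _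
  rw [Finsupp.linearCombination_single]

theorem dgood_monomial_succ (g : M) (μ : ι →₀ ℕ) (i : ι) :
    φ (monomial (μ + Finsupp.single i 1) 1) g = φ (X i) (φ (monomial μ 1) g) := by
  rw [← Module.End.mul_apply, ← map_mul, X, monomial_mul, add_comm, one_mul]

theorem dgood_ev_tx (g : M) (i : ι) (p : PR E ι) :
    dgood_ev E φ g (tx E i p) = φ (X i) (dgood_ev E φ g p) := by
  induction p using AddMonoidAlgebra.induction_linear with
  | zero => simp
  | add p q hp hq => simp only [map_add, hp, hq]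
  | single μ e => rw [tx_single, dgood_ev_single, dgood_ev_single, map_smul, dgood_monomial_succ]

theorem dgood_ev_map [Algebra K E]
    (hφ : ∀ (k : K) (m : M), φ (MvPolynomial.C k) m = algebraMap K E k • m) (g : M)
    (q : MvPolynomial ι K) :
    dgood_ev E φ g (AddMonoidAlgebra.mapRingHom (ι →₀ ℕ) (algebraMap K E) q) = φ q g := by
  induction q using AddMonoidAlgebra.induction_linear with
  | zero => simp
  | add p q hp hq => simp only [map_add, hp, hq, LinearMap.add_apply]
  | single μ k =>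
    rw [AddMonoidAlgebra.mapRingHom_single, dgood_ev_single, ← hφ, ← Module.End.mul_apply,
      ← map_mul, C_mul_monomial, mul_one]
    rfl

end ev

theorem dgood_monomial_mem [DecidableEq C] {K : Type} [Field K] {E : Type} [DivisionRing E]
    {M : Type} [AddCommGroup M] [Module E M] (φ : MvPolynomial (C × Var n) K →+* Module.End E M)
    {L : Finset C} (B : (C → ℤ) → Submodule E M)
    (hB : ∀ s, ∀ c ∈ L, ∀ v : Var n, ∀ m ∈ B s, φ (X (c, v)) m ∈ B (s + Pi.single c 1))
    (μ : C × Var n →₀ ℕ) (hμ : ∀ c, c ∉ L → mdeg μ c = 0) {s : C → ℤ} {g : M} (hg : g ∈ B s) :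
    φ (monomial μ 1) g ∈ B (mdeg μ + s) := by
  refine dgood_ind (P := fun μ => φ (monomial μ 1) g ∈ B (mdeg μ + s)) ?_ ?_ μ hμ
  · rw [mdeg_zero, zero_add, ← MvPolynomial.one_def, map_one]
    exact hg
  · intro μ c v hc h
    rw [dgood_monomial_succ, mdeg_add, mdeg_single, add_right_comm]
    exact hB _ c hc v _ h

variable {K : Type} [Field K] {Γ : CD K n C} {E : Type} [DivisionRing E] [Algebra K E]
  [Fintype C] [DecidableEq C]

theorem CD1.eqn_homog (γ : CD1 K n) (k : Fin n) : (γ.eqn k).IsHomogeneous (γ.b k) := by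
  exact (isHomogeneous_X_pow _ _).sub (γ.hom k)

theorem eqE_mem_Pc (c : C) (k : Fin n) : eqE Γ E c k ∈ Pc E n (Pi.single c (Γ.b k : ℤ)) := by
  refine AddMonoidAlgebra.mem_supported'.2 fun μ hμ => by_contra fun h => hμ ?_
  rw [eqE, AddMonoidAlgebra.coeff_mapRingHom] at h
  have h1 : coeff μ (rename (Prod.mk c) ((Γ.cv c).eqn k)) ≠ 0 := fun h0 =>
    h ((congrArg (algebraMap K E) h0).trans (map_zero _))
  obtain ⟨u, rfl, hu⟩ := coeff_rename_ne_zero _ _ _ h1
  have h2 : u.degree = Γ.b k := by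
    rw [Finsupp.degree_eq_weight_one]
    exact CD1.eqn_homog (Γ.cv c) k hu
  change mdeg _ = _
  rw [mdeg_mapDomain, h2]

/-- A family is closed under multiplication by monomials in the variables of `L`. -/
theorem Fam.mul_single {L : Finset C} {𝔠 : (C → ℤ) → Submodule E (PR E (C × Var n))}
    (h : Fam Γ E L 𝔠) (ν : C × Var n →₀ ℕ) (hν : ∀ c, c ∉ L → mdeg ν c = 0) {s : C → ℤ}
    {p : PR E (C × Var n)} (hp : p ∈ 𝔠 s) :
    p * AddMonoidAlgebra.single ν 1 ∈ 𝔠 (mdeg ν + s) := by
  refine dgood_ind (P := fun ν => p * AddMonoidAlgebra.single ν 1 ∈ 𝔠 (mdeg ν + s)) ?_ ?_ ν hν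
  · rw [mdeg_zero, zero_add, ← AddMonoidAlgebra.one_def, mul_one]
    exact hp
  · intro μ c v hc hμ
    have h1 := h.mul _ c hc v _ hμ
    have h2 : tx E (c, v) (p * AddMonoidAlgebra.single μ 1) =
        p * AddMonoidAlgebra.single (μ + Finsupp.single (c, v) 1) 1 := by
      change p * AddMonoidAlgebra.single μ 1 *
        AddMonoidAlgebra.single (Finsupp.single (c, v) 1) 1 = _
      rw [mul_assoc, AddMonoidAlgebra.single_mul_single, mul_one]
    rw [h2] at h1
    rw [mdeg_add, mdeg_single, add_right_comm]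
    exact h1

/-- Module form of the integrality invariant: filter `B / A` by cyclic modules. -/
theorem Intg.module {L : Finset C} (h : Intg Γ E L) {M : Type} [AddCommGroup M] [Module E M]
    (φ : MvPolynomial (C × Var n) K →+* Module.End E M)
    (hφ : ∀ (k : K) (m : M), φ (MvPolynomial.C k) m = algebraMap K E k • m)
    (A B : (C → ℤ) → Submodule E M) (hAB : ∀ s, A s ≤ B s) (hfin : ∀ s, Module.Finite E (B s))
    (hA : ∀ s, ∀ c ∈ L, ∀ v : Var n, ∀ m ∈ A s, φ (X (c, v)) m ∈ A (s + Pi.single c 1))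
    (hB : ∀ s, ∀ c ∈ L, ∀ v : Var n, ∀ m ∈ B s, φ (X (c, v)) m ∈ B (s + Pi.single c 1))
    (heq : ∀ s, ∀ c ∈ L, ∀ k, ∀ m ∈ B s,
      φ (rename (Prod.mk c) ((Γ.cv c).eqn k)) m ∈ A (s + Pi.single c (Γ.b k : ℤ)))
    {m : ℕ} (σ : Fin m → C → ℤ) (hσ : ∀ i c, c ∉ L → σ i c = 0) (g : Fin m → M)
    (hg : ∀ i, g i ∈ B (σ i))
    (hgen : ∀ s : C → ℤ, (∀ c, c ∉ L → s c = 0) → B s ≤ A s ⊔ Submodule.span E
      {x | ∃ (i : Fin m) (μ : C × Var n →₀ ℕ), mdeg μ + σ i = s ∧ x = φ (monomial μ 1) (g i)}) :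
    Good Γ.b L fun s => (finrank E (B s) : ℤ) - finrank E (A s) := by
  induction m generalizing A with
  | zero =>
    refine (Good.zero Γ.b L).congr 0 fun s _ hs => ?_
    have h1 : B s ≤ A s := by
      refine (hgen s hs).trans (sup_le le_rfl (Submodule.span_le.2 ?_))
      rintro x ⟨i, -⟩
      exact i.elim0
    rw [le_antisymm h1 (hAB s), sub_self]
  | succ m ih =>
    let S : (C → ℤ) → Set (C × Var n →₀ ℕ) := fun s =>
      {μ | mdeg μ + σ 0 = s ∧ ∀ c, c ∉ L → mdeg μ c = 0}
    let W : (C → ℤ) → Submodule E M := fun s => (mon E (S s)).map (dgood_ev E φ (g 0))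
    have hWB : ∀ s, W s ≤ B s := by
      intro s
      change (AddMonoidAlgebra.supported E E (S s)).map _ ≤ _
      rw [AddMonoidAlgebra.supported_eq_span_single, Submodule.map_span, Submodule.span_le]
      rintro _ ⟨_, ⟨μ, ⟨rfl, hμ⟩, rfl⟩, rfl⟩
      rw [SetLike.mem_coe, dgood_ev_single, one_smul]
      exact dgood_monomial_mem φ B hB μ hμ (hg 0)
    have h1 : Good Γ.b L fun s => (finrank E (B s) : ℤ) - finrank E ↥(A s ⊔ W s) := by
      refine ih (fun s => A s ⊔ W s) (fun s => sup_le (hAB s) (hWB s)) ?_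
        (fun s c hc k x hx => Submodule.mem_sup_left (heq s c hc k x hx))
        (fun i => σ i.succ) (fun i => hσ i.succ) (fun i => g i.succ) (fun i => hg i.succ) ?_
      · intro s c hc v x hx
        obtain ⟨a, ha, w, ⟨p, hp, rfl⟩, rfl⟩ := Submodule.mem_sup.1 hx
        rw [map_add]
        refine Submodule.add_mem_sup (hA s c hc v a ha) ⟨tx E (c, v) p, ?_, dgood_ev_tx _ _ _ _⟩
        refine dgood_tx_mem hp fun μ hμ => ⟨?_, fun c' hc' => ?_⟩
        · rw [mdeg_add, mdeg_single, add_right_comm, hμ.1, Nat.cast_one]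
        · rw [mdeg_add, mdeg_single, Pi.add_apply, hμ.2 c' hc',
            Pi.single_eq_of_ne (ne_of_mem_of_not_mem hc hc').symm, add_zero]
      · intro s hs
        refine (hgen s hs).trans (sup_le (le_sup_left.trans le_sup_left) (Submodule.span_le.2 ?_))
        rintro x ⟨i, μ, hμ, rfl⟩
        refine Fin.cases (fun hμ => ?_) (fun j hμ => ?_) i hμ
        · refine Submodule.mem_sup_left (Submodule.mem_sup_right
            ⟨AddMonoidAlgebra.single μ 1, ?_, by rw [dgood_ev_single, one_smul]⟩)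
          change _ ∈ AddMonoidAlgebra.supported E E (S s)
          rw [AddMonoidAlgebra.supported_eq_span_single]
          refine Submodule.subset_span ⟨μ, ⟨hμ, fun c hc => ?_⟩, rfl⟩
          have := congrFun hμ c
          rwa [Pi.add_apply, hσ 0 c hc, hs c hc, add_zero] at this
        · exact Submodule.mem_sup_right (Submodule.subset_span ⟨j, μ, hμ, rfl⟩)
    have hF : Fam Γ E L fun t => Pc E n t ⊓ (A (t + σ 0)).comap (dgood_ev E φ (g 0)) := by
      refine ⟨fun _ => inf_le_left, fun s c hc v p hp => ⟨?_, ?_⟩, fun c hc k => ⟨?_, ?_⟩⟩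
      · refine dgood_tx_mem hp.1 fun μ hμ => ?_
        change mdeg _ = _
        rw [mdeg_add, mdeg_single, show mdeg μ = s from hμ, Nat.cast_one]
      · change dgood_ev E φ (g 0) (tx E (c, v) p) ∈ A _
        rw [dgood_ev_tx, add_right_comm]
        exact hA _ c hc v _ hp.2
      · exact eqE_mem_Pc c k
      · change dgood_ev E φ (g 0) (eqE Γ E c k) ∈ A _
        rw [eqE, dgood_ev_map φ hφ, add_comm]
        exact heq _ c hc k _ (hg 0)
    have h2 := (h _ hF).shift (σ 0) (hσ 0)
    refine (h1.add h2).congr 0 fun s _ hs => ?_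
    have hS : S s = {μ | mdeg μ = s - σ 0} := by
      ext μ
      refine ⟨fun hμ => eq_sub_of_add_eq hμ.1, fun hμ => ⟨add_eq_of_eq_sub hμ, fun c hc => ?_⟩⟩
      rw [show mdeg μ = s - σ 0 from hμ, Pi.sub_apply, hs c hc, hσ 0 c hc, sub_zero]
    have := hfin s
    have : Module.Finite E (A s) := Submodule.finiteDimensional_of_le (hAB s)
    have : Module.Finite E (Pc E n (s - σ 0)) := mon_finite (mdeg_finite _)
    have h3 := dgood_rank (dgood_ev E φ (g 0)) (Pc E n (s - σ 0)) (A s)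
    have h4 : W s = (Pc E n (s - σ 0)).map (dgood_ev E φ (g 0)) := by
      change (mon E (S s)).map _ = _
      rw [hS]
    rw [h4, sub_add_cancel]
    omega

end Crest.Agent.R181
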