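import Crest.Agent.R181.K1

/-! # Row 181: Hilbert basis theorem over a division ring; evaluation at commuting elements. -/

set_option autoImplicit false

namespace Crest.Agent.R181

open scoped IsMulCommutative in
theorem noeth_monoidHom {R σ : Type} [Monoid R] (g : σ → R) (hg : ∀ i j, Commute (g i) (g j)) :
    ∃ ψ : Multiplicative (σ →₀ ℕ) →* R, (∀ i, ψ (.ofAdd (Finsupp.single i 1)) = g i) ∧
      ∀ r : R, (∀ i, Commute r (g i)) → ∀ μ, Commute r (ψ μ) := by
  have : IsMulCommutative (Submonoid.closure (Set.range g)) :=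
    Submonoid.isMulCommutative_closure R (by
      rintro _ ⟨i, rfl⟩ _ ⟨j, rfl⟩
      exact hg i j)
  let g' : σ → Submonoid.closure (Set.range g) := fun i => ⟨g i, Submonoid.subset_closure ⟨i, rfl⟩⟩
  let ψ : Multiplicative (σ →₀ ℕ) →* Submonoid.closure (Set.range g) :=
    { toFun := fun μ => μ.toAdd.prod fun i n => g' i ^ n
      map_one' := Finsupp.prod_zero_index
      map_mul' := fun μ ν => Finsupp.prod_add_index' (fun _ => pow_zero _) fun _ _ _ => pow_add _ _ _ }
  refine ⟨(Submonoid.subtype _).comp ψ, fun i => ?_, fun r hr μ => ?_⟩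
  · change (((Finsupp.single i 1).prod fun i n => g' i ^ n : Submonoid.closure (Set.range g)) : R)
      = g i
    rw [Finsupp.prod_single_index (h := fun i n => g' i ^ n) (pow_zero _), pow_one]
  · have h : ∀ x ∈ Submonoid.closure (Set.range g), Commute r x := fun x hx => by
      induction hx using Submonoid.closure_induction with
      | mem x hx => obtain ⟨i, rfl⟩ := hx; exact hr i
      | one => exact Commute.one_right r
      | mul x y _ _ hx hy => exact hx.mul_right hy
    exact h _ (ψ μ).2

theorem noeth_ncLift {E R σ : Type} [Semiring E] [Semiring R] (f : E →+* R) (g : σ → R)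
    (hg : ∀ i j, Commute (g i) (g j)) (hfg : ∀ e i, Commute (f e) (g i)) :
    ∃ φ : PR E σ →+* R, (∀ e, φ (cst σ e) = f e) ∧ ∀ i, φ (xv E i) = g i := by
  obtain ⟨ψ, h1, h2⟩ := noeth_monoidHom g hg
  refine ⟨AddMonoidAlgebra.liftNCRingHom f ψ fun e μ => h2 _ (hfg e) μ, fun e => ?_, fun i => ?_⟩
  · rw [cst, AddMonoidAlgebra.liftNCRingHom_single, ofAdd_zero, map_one, mul_one]
  · rw [xv, AddMonoidAlgebra.liftNCRingHom_single, map_one, one_mul, h1]

open AddMonoidAlgebra in
/-- Hilbert's basis theorem for polynomials in finitely many central variables over a division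
ring (Dickson's lemma). -/
theorem isNoetherianRing_PR (E : Type) [DivisionRing E] (σ : Type) [Finite σ] :
    IsNoetherianRing (PR E σ) := by
  classical
  obtain ⟨n, ⟨e⟩⟩ := Finite.exists_equiv_fin σ
  let _ : LinearOrder σ := LinearOrder.lift' e e.injective
  have : WellFoundedGT σ := Finite.to_wellFoundedGT
  let m : MonomialOrder σ := MonomialOrder.lex
  let D : (σ →₀ ℕ) → m.syn := m.toSyn
  have hD : D.Injective := m.toSyn.injective
  have hadd : ∀ a b, D (a + b) = D a + D b := m.toSyn.map_add
  rw [isNoetherianRing_iff_ideal_fg]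
  intro I
  let S : (σ →₀ ℕ) → Prop := fun a => ∃ p ∈ I, p ≠ 0 ∧ supDegree D p = D a
  have hfin : {a | Minimal S a}.Finite :=
    (setOfPred_minimal_antichain S).finite_of_partiallyWellOrderedOn
      (Set.isPWO_of_wellQuasiOrderedLE _)
  choose g hgI hg0 hgd using fun a : {a | Minimal S a} => a.2.prop
  have := hfin.to_subtype
  refine Submodule.fg_def.2 ⟨Set.range g, Set.finite_range g, le_antisymm ?_ ?_⟩
  · rw [Submodule.span_le]
    rintro _ ⟨a, rfl⟩
    exact hgI a
  · have key : ∀ b : m.syn, ∀ p ∈ I, supDegree D p = b →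
        p ∈ Submodule.span (PR E σ) (Set.range g) := by
      intro b
      induction b using WellFoundedLT.induction with
      | ind b ih =>
        intro p hp hb
        by_cases h0 : p = 0
        · rw [h0]; exact Submodule.zero_mem _
        obtain ⟨a, -, ha⟩ := exists_supDegree_mem_support D h0
        obtain ⟨a0, hle, hmin⟩ := exists_minimal_le_of_wellFoundedLT S a ⟨p, hp, h0, ha⟩
        have l1 : leadingCoeff D p ≠ 0 := (leadingCoeff_ne_zero hD).2 h0
        have l2 : leadingCoeff D (g ⟨a0, hmin⟩) ≠ 0 := (leadingCoeff_ne_zero hD).2 (hg0 _)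
        have l3 : leadingCoeff D p * (leadingCoeff D (g ⟨a0, hmin⟩))⁻¹ ≠ 0 :=
          mul_ne_zero l1 (inv_ne_zero l2)
        let c : PR E σ := single (a - a0) (leadingCoeff D p * (leadingCoeff D (g ⟨a0, hmin⟩))⁻¹)
        have hc : leadingCoeff D c = leadingCoeff D p * (leadingCoeff D (g ⟨a0, hmin⟩))⁻¹ :=
          leadingCoeff_single hD _ _
        have hq : c * g ⟨a0, hmin⟩ ∈ Submodule.span (PR E σ) (Set.range g) :=
          Submodule.smul_mem _ c (Submodule.subset_span ⟨_, rfl⟩)
        have h1 : supDegree D p = supDegree D (c * g ⟨a0, hmin⟩) := by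
          rw [supDegree_mul hD hadd (by rw [hc]; exact mul_ne_zero l3 l2)
            (fun h => l3 (single_eq_zero.1 h)) (hg0 _), hgd, supDegree_single_ne_zero _ l3, ← hadd,
            tsub_add_cancel_of_le hle, ha]
        have h2 : leadingCoeff D p = leadingCoeff D (c * g ⟨a0, hmin⟩) := by
          rw [leadingCoeff_mul hD hadd, hc, inv_mul_cancel_right₀ l2]
        rcases supDegree_sub_lt_of_leadingCoeff_eq hD h1 h2 with h | h
        · have := ih _ (hb ▸ h) _ (I.sub_mem hp (I.mul_mem_left c (hgI _))) rfl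
          simpa using Submodule.add_mem _ this hq
        · rw [h]; exact hq
    exact fun p hp => key _ p hp rfl

/-- Evaluation of commutative polynomials at pairwise commuting elements. -/
theorem exists_ncEval {K R σ : Type} [CommSemiring K] [Semiring R] [Algebra K R] (g : σ → R)
    (hg : ∀ i j, Commute (g i) (g j)) :
    ∃ φ : MvPolynomial σ K →ₐ[K] R, ∀ i, φ (MvPolynomial.X i) = g i := by
  obtain ⟨φ, h1, h2⟩ := noeth_ncLift (algebraMap K R) g hg fun k i => Algebra.commutes k (g i)
  exact ⟨⟨φ, h1⟩, h2⟩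

/-- The same with a ring homomorphism on the coefficients. -/
theorem exists_ncEval₂ {K R σ : Type} [CommSemiring K] [Semiring R] (f : K →+* R) (g : σ → R)
    (hg : ∀ i j, Commute (g i) (g j)) (hfg : ∀ k i, Commute (f k) (g i)) :
    ∃ φ : MvPolynomial σ K →+* R, (∀ k, φ (MvPolynomial.C k) = f k) ∧
      ∀ i, φ (MvPolynomial.X i) = g i := by
  exact noeth_ncLift f g hg hfg

/-- The same for non-commutative coefficients. -/
theorem exists_ncLift {E R σ : Type} [Semiring E] [Semiring R] (f : E →+* R) (g : σ → R)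
    (hg : ∀ i j, Commute (g i) (g j)) (hfg : ∀ e i, Commute (f e) (g i)) :
    ∃ φ : PR E σ →+* R, (∀ e, φ (cst σ e) = f e) ∧ ∀ i, φ (xv E i) = g i := by
  exact noeth_ncLift f g hg hfg

end Crest.Agent.R181
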