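import Crest.Agent.R181.D1
import Crest.Agent.R181.Noeth
import Crest.Agent.R181.DGood

/-! # Row 181, D2: Noetherianity, integrality over one curve, and the calculus of `ZZ`. -/

set_option autoImplicit false
set_option linter.unusedSectionVars false
set_option linter.unusedVariables false

namespace Crest.Agent.R181

open Module MvPolynomial

variable {K : Type} [Field K] {n : ℕ} {E : Type} [DivisionRing E] [Algebra K E] {γ : CD1 K n}
  {X Y : Type} [AddCommGroup X] [Module (TT E (PP K n)) X]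
  [AddCommGroup Y] [Module (TT E (PP K n)) Y]

/-- `X` is a finite module over `PR E (Var n)` (via `exists_ncLift`), which is Noetherian, and
`TT`-submodules are `PR`-submodules. -/
theorem Adm.noetherian (h : Adm E γ X) : IsNoetherian (TT E (PP K n)) X := by
  obtain ⟨φ, hφ1, hφ2⟩ := exists_ncLift (σ := Var n)
    ((Module.toAddMonoidEnd (TT E (PP K n)) X).comp MonoidAlgebra.singleOneRingHom)
    (fun v => Module.toAddMonoidEnd (TT E (PP K n)) X (aT E (MvPolynomial.X v : PP K n)))
    (fun i j => AddMonoidHom.ext fun x => by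
      change aT E (MvPolynomial.X i : PP K n) • aT E (MvPolynomial.X j : PP K n) • x =
        aT E (MvPolynomial.X j : PP K n) • aT E (MvPolynomial.X i : PP K n) • x
      rw [← h.1.mul, ← h.1.mul, mul_comm])
    (fun e i => AddMonoidHom.ext fun x => sT_aT e _ x)
  have k1 : ∀ e (x : X), φ (cst _ e) x = sT (PP K n) e • x := fun e x => by rw [hφ1]; rfl
  have k2 : ∀ (μ : Var n →₀ ℕ) (x : X),
      φ (AddMonoidAlgebra.single μ 1) x = aT E (monomial μ (1 : K) : PP K n) • x := by
    intro μ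
    induction μ using Finsupp.induction_linear with
    | zero =>
      intro x
      rw [← AddMonoidAlgebra.one_def, map_one]
      exact (h.1.aT_one x).symm
    | add μ ν h1 h2 =>
      intro x
      have e1 : (AddMonoidAlgebra.single (μ + ν) 1 : PR E (Var n)) =
          AddMonoidAlgebra.single μ 1 * AddMonoidAlgebra.single ν 1 := by
        rw [AddMonoidAlgebra.single_mul_single, one_mul]
      have e2 : (monomial (μ + ν) (1 : K) : PP K n) = monomial μ 1 * monomial ν 1 := by
        rw [monomial_mul, one_mul]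
      rw [e1, e2, map_mul, h.1.mul, ← h2, ← h1]
      rfl
    | single v m =>
      induction m with
      | zero =>
        intro x
        rw [Finsupp.single_zero, ← AddMonoidAlgebra.one_def, map_one]
        exact (h.1.aT_one x).symm
      | succ m ih =>
        intro x
        have e1 : (AddMonoidAlgebra.single (Finsupp.single v (m + 1)) 1 : PR E (Var n)) =
            AddMonoidAlgebra.single (Finsupp.single v m) 1 * xv E v := by
          rw [xv, AddMonoidAlgebra.single_mul_single, one_mul, Finsupp.single_add]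
        have e2 : (monomial (Finsupp.single v (m + 1)) (1 : K) : PP K n) =
            monomial (Finsupp.single v m) 1 * MvPolynomial.X v := by
          rw [MvPolynomial.X, monomial_mul, one_mul, Finsupp.single_add]
        rw [e1, e2, map_mul, h.1.mul, ← ih, hφ2]
        rfl
  let _ : Module (PR E (Var n)) X := Module.compHom X φ
  have k0 : ∀ (r : PR E (Var n)) (x : X), r • x = φ r x := fun _ _ => rfl
  have k3 : ∀ (A : Submodule (TT E (PP K n)) X) (r : PR E (Var n)), ∀ x ∈ A, r • x ∈ A := by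
    intro A r x hx
    induction r using AddMonoidAlgebra.induction_linear with
    | zero => rw [zero_smul]; exact A.zero_mem
    | add r s h1 h2 => rw [add_smul]; exact A.add_mem h1 h2
    | single μ e =>
      have e1 : (AddMonoidAlgebra.single μ e : PR E (Var n)) =
          cst _ e * AddMonoidAlgebra.single μ 1 := by
        rw [cst, AddMonoidAlgebra.single_mul_single, mul_one, zero_add]
      rw [e1, mul_smul, k0, k0, k1, k2]
      exact A.smul_mem _ (A.smul_mem _ hx)
  obtain ⟨m, σ, g, hg, hsp⟩ := h.exists_gens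
  have : Module.Finite (PR E (Var n)) X := by
    refine Module.finite_def.2 (Submodule.fg_def.2 ⟨Set.range g, Set.finite_range g, ?_⟩)
    refine eq_top_iff.2 fun x _ => ?_
    obtain ⟨s, hs⟩ := h.1.fin x
    rw [hs]
    refine Submodule.sum_mem _ fun t _ => ?_
    have h1 : toRes E (PP K n) (πT E (PP K n) t • x) ∈ piece E (PP K n) X t ⊓
        resSub (Submodule.span (TT E (PP K n)) (Set.range g)) :=
      ⟨mem_piece.2 (by rw [h.1.pp, if_pos rfl]), mem_resSub.2 (hsp ▸ Submodule.mem_top)⟩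
    rw [h.1.piece_span σ g hg] at h1
    suffices H : ∀ y : Res E (PP K n) X, y ∈ Submodule.span E
        {x | ∃ (i : Fin m) (μ : Var n →₀ ℕ), (μ.degree : ℤ) + σ i = t ∧
          x = toRes E (PP K n) (aT E (monomial μ (1 : K) : PP K n) • g i)} →
        (toRes E (PP K n)).symm y ∈ Submodule.span (PR E (Var n)) (Set.range g) from H _ h1
    intro y hy
    induction hy using Submodule.span_induction with
    | mem y hy =>
      obtain ⟨i, μ, -, rfl⟩ := hy
      rw [AddEquiv.symm_apply_apply, ← k2, ← k0]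
      exact Submodule.smul_mem _ _ (Submodule.subset_span ⟨i, rfl⟩)
    | zero => exact Submodule.zero_mem _
    | add y z _ _ h1 h2 => exact Submodule.add_mem _ h1 h2
    | smul e y _ h1 =>
      change sT (PP K n) e • (toRes E (PP K n)).symm y ∈ _
      rw [← k1, ← k0]
      exact Submodule.smul_mem _ _ h1
  have := isNoetherianRing_PR E (Var n)
  let F : Submodule (TT E (PP K n)) X ↪o Submodule (PR E (Var n)) X :=
    OrderEmbedding.ofMapLEIff
      (fun A => { A.toAddSubmonoid with smul_mem' := fun r x hx => k3 A r x hx })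
      fun _ _ => Iff.rfl
  exact isNoetherian_mk F.wellFoundedGT

theorem Adm.sub (h : Adm E γ X) (A : Submodule (TT E (PP K n)) X) : Adm E γ A := by
  have := h.noetherian
  exact ⟨h.1.sub A, inferInstance⟩

theorem Adm.of_surjective (h : Adm E γ X) (f : X →ₗ[TT E (PP K n)] Y)
    (hf : Function.Surjective f) : Adm E γ Y := by
  have := h.2
  exact ⟨h.1.of_surjective f hf, Module.Finite.of_surjective f hf⟩

theorem Adm.quot (h : Adm E γ X) (A : Submodule (TT E (PP K n)) X) : Adm E γ (X ⧸ A) :=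
  h.of_surjective A.mkQ A.mkQ_surjective

theorem Adm.range (h : Adm E γ X) (f : X →ₗ[TT E (PP K n)] Y) : Adm E γ (LinearMap.range f) :=
  h.of_surjective f.rangeRestrict f.surjective_rangeRestrict

theorem Adm.prod (hX : Adm E γ X) (hY : Adm E γ Y) : Adm E γ (X × Y) := by
  have := hX.2
  have := hY.2
  exact ⟨hX.1.prod hY.1, inferInstance⟩

theorem Adm.pi (hX : Adm E γ X) (ι : Type) [Finite ι] : Adm E γ (ι → X) := by
  have := hX.2
  exact ⟨hX.1.pi ι, inferInstance⟩

theorem int1_of_intg {C : Type} [Fintype C] [DecidableEq C] {Γ : CD K n C} {c : C}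
    (h : Intg Γ E {c}) : Int1 E (Γ.cv c) := by
  intro X _ _ hX
  obtain ⟨ψ, hψ⟩ := hX.1.exists_act
  obtain ⟨m, σ, g, hg, hsp⟩ := hX.exists_gens
  let θ : MvPolynomial (C × Var n) K →ₐ[K] PP K n :=
    aeval fun cv => if cv.1 = c then MvPolynomial.X cv.2 else 0
  have hθ : ∀ p : PP K n, θ (rename (Prod.mk c) p) = p := fun p => by
    simp only [θ, aeval_rename, Function.comp_def, if_true]
    exact aeval_X_left_apply p
  have hθ' : ∀ v, θ (MvPolynomial.X (c, v)) = MvPolynomial.X v := fun v => by simp [θ]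
  have key := Intg.module h (M := Res E (PP K n) X) (ψ.comp θ.toRingHom) (fun k x => ?_)
    (fun _ => ⊥) (fun s => piece E (PP K n) X (s c)) (fun _ => bot_le)
    (fun s => hX.finite_piece _) (fun s c' _ v x hx => ?_) (fun s c' hc' v x hx => ?_)
    (fun s c' hc' k x hx => ?_) (fun i => Pi.single c (σ i)) (fun i c' hc' => ?_)
    (fun i => toRes E (PP K n) (g i)) (fun i => ?_) (fun s hs => ?_)
  · obtain ⟨c₀, c₁, T, hT⟩ := key.singleton
    refine ⟨(c₀, c₁), T, fun t ht => ?_⟩
    have := hT t ht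
    simp only [finrank_bot, Nat.cast_zero, sub_zero] at this
    rw [Pi.single_eq_same] at this
    exact this
  · obtain ⟨x, rfl⟩ := (toRes E (PP K n)).surjective x
    have : θ (MvPolynomial.C k) = MvPolynomial.C k := θ.commutes k
    change ψ (θ _) _ = _
    rw [this, hψ, hX.1.const, smul_toRes]
  · rw [(Submodule.mem_bot E).1 hx, map_zero]
    exact Submodule.zero_mem _
  · obtain rfl := Finset.mem_singleton.1 hc'
    obtain ⟨x, rfl⟩ := (toRes E (PP K n)).surjective x
    change ψ (θ _) _ ∈ _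
    rw [hθ', hψ, mem_piece, Pi.add_apply, Pi.single_eq_same, hX.1.px, mem_piece.1 hx]
  · obtain rfl := Finset.mem_singleton.1 hc'
    obtain ⟨x, rfl⟩ := (toRes E (PP K n)).surjective x
    change ψ (θ _) _ ∈ _
    rw [hθ, hψ, hX.1.eq, map_zero]
    exact Submodule.zero_mem _
  · exact Pi.single_eq_of_ne (fun e => hc' (Finset.mem_singleton.2 e)) _
  · rw [Pi.single_eq_same]
    exact mem_piece.2 (hg i)
  · have e := hX.1.piece_span σ g hg (s c)
    rw [hsp] at e
    intro x hx
    have hx' : x ∈ piece E (PP K n) X (s c) ⊓ resSub ⊤ := ⟨hx, trivial⟩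
    rw [e] at hx'
    refine Submodule.mem_sup_right (Submodule.span_mono ?_ hx')
    rintro _ ⟨i, μ, h1, rfl⟩
    refine ⟨i, μ.mapDomain (Prod.mk c), ?_, ?_⟩
    · rw [mdeg_mapDomain, ← Pi.single_add, h1]
      funext c'
      by_cases hc : c' = c
      · rw [hc, Pi.single_eq_same]
      · rw [Pi.single_eq_of_ne hc, hs c' (by simpa using hc)]
    · change _ = ψ (θ _) _
      rw [← rename_monomial, hθ, hψ]

theorem HasC.unique {c c' : ℤ × ℤ} (h : HasC E γ X c) (h' : HasC E γ X c') : c = c' := by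
  obtain ⟨T, hT⟩ := h
  obtain ⟨T', hT'⟩ := h'
  have hd := dB_pos γ.hb
  have e1 := (hT _ (le_max_left T T')).symm.trans (hT' _ (le_max_right T T'))
  have e2 := (hT (max T T' + 1) (by linarith [le_max_left T T'])).symm.trans
    (hT' _ (by linarith [le_max_right T T']))
  simp only [hB] at e1 e2
  have e3 : c.1 = c'.1 := mul_right_cancel₀ hd.ne' (by linarith)
  rw [e3] at e1
  exact Prod.ext e3 (mul_right_cancel₀ hd.ne' (by linarith))

theorem HasC.ZZ_eq {c : ℤ × ℤ} (h : HasC E γ X c) : ZZ E γ X = c.1 + c.2 := by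
  have h' : ∃ c, HasC E γ X c := ⟨c, h⟩
  rw [ZZ, dif_pos h', h'.choose_spec.unique h]

theorem HasC.nonneg {c : ℤ × ℤ} (h : HasC E γ X c) : 0 ≤ c.1 := by
  obtain ⟨T, hT⟩ := h
  have hd := dB_pos γ.hb
  by_contra hc
  have h1 := hT (max T (|c.1 * eB γ.b - c.2 * dB γ.b| + 1)) (le_max_left _ _)
  have h2 := le_max_right T (|c.1 * eB γ.b - c.2 * dB γ.b| + 1)
  have h3 := le_abs_self (c.1 * eB γ.b - c.2 * dB γ.b)
  have h4 := abs_nonneg (c.1 * eB γ.b - c.2 * dB γ.b)
  have h5 : (0 : ℤ) ≤ finrank E (piece E (PP K n) X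
    (max T (|c.1 * eB γ.b - c.2 * dB γ.b| + 1))) := Nat.cast_nonneg _
  rw [h1, hB] at h5
  generalize max T (|c.1 * eB γ.b - c.2 * dB γ.b| + 1) = t at *
  have h6 : c.1 * dB γ.b ≤ -1 := by nlinarith
  nlinarith

theorem HasC.nonpos {c : ℤ × ℤ} (h : HasC E γ X c) (h0 : c.1 = 0) : c.2 ≤ 0 := by
  obtain ⟨T, hT⟩ := h
  have hd := dB_pos γ.hb
  have h1 := hT T le_rfl
  have h5 : (0 : ℤ) ≤ finrank E (piece E (PP K n) X T) := Nat.cast_nonneg _
  rw [h1, h0] at h5
  nlinarith

theorem HasC.congr {c : ℤ × ℤ} (h : HasC E γ X c) (e : X ≃ₗ[TT E (PP K n)] Y) :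
    HasC E γ Y c := by
  obtain ⟨T, hT⟩ := h
  exact ⟨T, fun t ht => by rw [← finrank_piece_equiv e, hT t ht]⟩

theorem HasC.quot (hX : Adm E γ X) {A : Submodule (TT E (PP K n)) X} {c c' : ℤ × ℤ}
    (h : HasC E γ X c) (h' : HasC E γ A c') : HasC E γ (X ⧸ A) (c - c') := by
  obtain ⟨T, hT⟩ := h
  obtain ⟨T', hT'⟩ := h'
  refine ⟨max T T', fun t ht => ?_⟩
  have := hX.finite_piece t
  have e := hX.1.finrank_piece_add A.mkQ t
  rw [finrank_piece_equiv (LinearEquiv.ofEq _ _ A.ker_mkQ),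
    finrank_piece_equiv (LinearEquiv.ofTop _ A.range_mkQ)] at e
  have e1 := hT t (le_of_max_le_left ht)
  have e2 := hT' t (le_of_max_le_right ht)
  rw [e] at e1
  push_cast at e1
  simp only [Prod.fst_sub, Prod.snd_sub]
  linarith

theorem ZZ_congr (e : X ≃ₗ[TT E (PP K n)] Y) : ZZ E γ X = ZZ E γ Y := by
  by_cases h : ∃ c, HasC E γ X c
  · obtain ⟨c, h⟩ := h
    rw [h.ZZ_eq, (h.congr e).ZZ_eq]
  · rw [ZZ, ZZ, dif_neg h, dif_neg fun ⟨c, h'⟩ => h ⟨c, h'.congr e.symm⟩]

theorem ZZ_of_subsingleton [Subsingleton X] : ZZ E γ X = 0 := by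
  have : HasC E γ X (0, 0) := ⟨0, fun t _ => by
    have : Subsingleton (Res E (PP K n) X) := ‹Subsingleton X›
    simp [finrank_zero_of_subsingleton]⟩
  simpa using this.ZZ_eq

theorem ZZ_add (hI : Int1 E γ) (hX : Adm E γ X) (f : X →ₗ[TT E (PP K n)] Y) :
    ZZ E γ X = ZZ E γ (LinearMap.ker f) + ZZ E γ (LinearMap.range f) := by
  obtain ⟨c, h⟩ := hI _ hX
  obtain ⟨c', h'⟩ := hI _ (hX.sub (LinearMap.ker f))
  rw [← ZZ_congr f.quotKerEquivRange, (h.quot hX h').ZZ_eq, h.ZZ_eq, h'.ZZ_eq]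
  simp only [Prod.fst_sub, Prod.snd_sub]
  ring

theorem ZZ_quot (hI : Int1 E γ) (hX : Adm E γ X) (A : Submodule (TT E (PP K n)) X) :
    ZZ E γ (X ⧸ A) = ZZ E γ X - ZZ E γ A := by
  obtain ⟨c, h⟩ := hI _ hX
  obtain ⟨c', h'⟩ := hI _ (hX.sub A)
  rw [(h.quot hX h').ZZ_eq, h.ZZ_eq, h'.ZZ_eq]
  simp only [Prod.fst_sub, Prod.snd_sub]
  ring

theorem ZZ_prod (hI : Int1 E γ) (hX : Adm E γ X) (hY : Adm E γ Y) :
    ZZ E γ (X × Y) = ZZ E γ X + ZZ E γ Y := by
  rw [ZZ_add hI (hX.prod hY) (LinearMap.snd _ X Y),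
    ZZ_congr (LinearEquiv.ofTop _ (LinearMap.range_eq_top.2 LinearMap.snd_surjective)),
    ZZ_congr (LinearEquiv.ofEq _ _ (LinearMap.ker_snd _ X Y)),
    ← ZZ_congr (LinearEquiv.ofInjective _ LinearMap.inl_injective)]

theorem ZZ_pi (hI : Int1 E γ) (hX : Adm E γ X) (ι : Type) [Fintype ι] :
    ZZ E γ (ι → X) = Fintype.card ι * ZZ E γ X := by
  have key : ∀ m : ℕ, ZZ E γ (Fin m → X) = m * ZZ E γ X := fun m => by
    induction m with
    | zero => rw [ZZ_of_subsingleton]; simp
    | succ m ih =>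
      rw [← ZZ_congr (Fin.consLinearEquiv (TT E (PP K n)) fun _ : Fin (m + 1) => X),
        ZZ_prod hI hX (hX.pi _), ih]
      push_cast
      ring
  rw [← key, ZZ_congr (LinearEquiv.funCongrLeft _ X (Fintype.equivFin ι))]

/-- `ZZ` of a submodule splits along a linear map on the ambient module. -/
theorem ZZ_sub_add (hI : Int1 E γ) (A : Submodule (TT E (PP K n)) X) (hA : Adm E γ A)
    (f : X →ₗ[TT E (PP K n)] Y) :
    ZZ E γ A = ZZ E γ ↥(A ⊓ LinearMap.ker f) + ZZ E γ (A.map f) := by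
  rw [ZZ_add hI hA (f.domRestrict A),
    ZZ_congr (LinearEquiv.ofEq _ _ (LinearMap.range_domRestrict A f))]
  congr 1
  have e : LinearMap.ker (f.domRestrict A) = (A ⊓ LinearMap.ker f).comap A.subtype := by
    ext x
    simp
  rw [e]
  exact ZZ_congr (X := ↥((A ⊓ LinearMap.ker f).comap A.subtype)) (Y := ↥(A ⊓ LinearMap.ker f))
    (Submodule.comapSubtypeEquivOfLe (inf_le_left : A ⊓ LinearMap.ker f ≤ A))

/-- `ZZ (B / A) = ZZ B - ZZ A` in terms of the Hilbert functions inside an ambient module. -/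
theorem ZZ_sub_eq (hI : Int1 E γ) {A B : Submodule (TT E (PP K n)) X} (hA : Adm E γ A)
    (hB' : Adm E γ B) {c₀ c₁ T : ℤ}
    (h : ∀ t, T ≤ t → (finrank E ↥(piece E (PP K n) X t ⊓ resSub B) : ℤ) -
      finrank E ↥(piece E (PP K n) X t ⊓ resSub A) = c₀ * hB γ.b t - c₁ * dB γ.b) :
    ZZ E γ B - ZZ E γ A = c₀ + c₁ := by
  obtain ⟨c, T', hT⟩ := hI _ hA
  have hc : HasC E γ A c := ⟨T', hT⟩
  have : HasC E γ B (c.1 + c₀, c.2 + c₁) := ⟨max T T', fun t ht => by
    have e1 := h t (le_of_max_le_left ht)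
    have e2 := hT t (le_of_max_le_right ht)
    rw [finrank_piece_sub] at e2 ⊢
    simp only
    linarith⟩
  rw [this.ZZ_eq, hc.ZZ_eq]
  ring

end Crest.Agent.R181
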