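import Crest.Agent.R181.DDefs

/-! # Row 181, D3a: standard monomials are a basis of the coordinate ring of a curve. -/

set_option autoImplicit false

namespace Crest.Agent.R181

open Module MvPolynomial

variable {K : Type} [Field K] {n : ℕ} (γ : CD1 K n)

/-- monomials that are standard in the first `m` variables `w_k` and free of the others -/
def d3a_St (m : ℕ) : Type :=
  {μ : Var n →₀ ℕ // ∀ k : Fin n, μ (Sum.inr k) < if (k : ℕ) < m then γ.b k else 1}

/-- the tower of algebras obtained by adjoining roots of the first `m` equations -/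
theorem d3a_tower (m : ℕ) (hm : m ≤ n) :
    ∃ (S : Type) (_ : CommRing S) (_ : Algebra K S) (φ : PP K n →ₐ[K] S),
      (∀ k : Fin n, (k : ℕ) < m → φ (γ.eqn k) = 0) ∧
      LinearIndependent K fun μ : d3a_St γ m => φ (monomial μ.1 1) := by
  classical
  induction m with
  | zero =>
    refine ⟨PP K n, inferInstance, inferInstance, AlgHom.id K _, fun k hk => absurd hk (by omega), ?_⟩
    have := (basisMonomials (Var n) K).linearIndependent.comp
      (fun μ : d3a_St γ 0 => μ.1) Subtype.val_injective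
    simpa [Function.comp_def] using this
  | succ m ih =>
    obtain ⟨S, _, _, φ, h0, hli⟩ := ih (by omega)
    set j : Fin n := ⟨m, hm⟩ with hj
    have : Nontrivial S := nontrivial_of_ne _ _ (hli.ne_zero ⟨0, fun k => by
      have := γ.hb k
      simp only [Finsupp.coe_zero, Pi.zero_apply]
      split_ifs <;> omega⟩)
    set f : Polynomial S := Polynomial.X ^ γ.b j - Polynomial.C (φ (γ.A j)) with hf
    have hbj : γ.b j ≠ 0 := by have := γ.hb j; omega
    have hmon : f.Monic := Polynomial.monic_X_pow_sub_C _ hbj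
    have hdeg : f.natDegree = γ.b j := Polynomial.natDegree_X_pow_sub_C
    let ι : S →ₐ[K] AdjoinRoot f := IsScalarTower.toAlgHom K S (AdjoinRoot f)
    let ψ : PP K n →ₐ[K] AdjoinRoot f :=
      aeval fun v => if v = Sum.inr j then AdjoinRoot.root f else ι (φ (X v))
    have hψ : ∀ p : PP K n, Sum.inr j ∉ p.vars → ψ p = ι (φ p) := by
      intro p hp
      refine hom_congr_vars (f₁ := (ψ : PP K n →+* AdjoinRoot f))
        (f₂ := ((ι.comp φ : PP K n →ₐ[K] AdjoinRoot f) : PP K n →+* AdjoinRoot f)) ?_ ?_ rfl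
      · ext k
        simp only [RingHom.coe_comp, RingHom.coe_coe, Function.comp_apply]
        exact (ψ.commutes k).trans ((ι.comp φ).commutes k).symm
      · intro v hv _
        have hne : v ≠ Sum.inr j := fun h => hp (h ▸ hv)
        simp [ψ, hne]
    have hroot : ψ (X (Sum.inr j)) = AdjoinRoot.root f := by simp [ψ]
    refine ⟨AdjoinRoot f, inferInstance, inferInstance, ψ, fun k hk => ?_, ?_⟩
    · rcases Nat.lt_succ_iff_lt_or_eq.1 hk with hk' | hk'
      · have hne : (Sum.inr k : Var n) ≠ Sum.inr j := fun h => by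
          have := congrArg Fin.val (Sum.inr_injective h)
          simp only [hj] at this
          omega
        have h1 := h0 k hk'
        unfold CD1.eqn at h1 ⊢
        rw [map_sub, map_pow, hψ _ (γ.supp k j (le_of_lt hk')), hψ _ (by simpa using hne.symm),
          ← map_pow, ← map_sub, ← map_pow, ← map_sub, h1, map_zero]
      · have hkj : k = j := Fin.ext hk'
        subst hkj
        unfold CD1.eqn
        rw [map_sub, map_pow, hroot, hψ _ (γ.supp _ _ le_rfl)]
        have h2 := AdjoinRoot.eval₂_root f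
        rw [hf, Polynomial.eval₂_sub, Polynomial.eval₂_X_pow, Polynomial.eval₂_C] at h2
        exact h2
    · have h3 := linearIndependent_smul hli (AdjoinRoot.powerBasis' hmon).basis.linearIndependent
      let g : d3a_St γ (m + 1) → d3a_St γ m × Fin (AdjoinRoot.powerBasis' hmon).dim := fun μ =>
        (⟨μ.1.erase (Sum.inr j), fun k => by
          by_cases hk : k = j
          · subst hk
            simp [hj]
          · have h4 := μ.2 k
            have h5 : (k : ℕ) ≠ m := fun h => hk (Fin.ext h)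
            rw [Finsupp.erase_ne (by simpa using hk)]
            split_ifs at h4 ⊢ <;> omega⟩,
        ⟨μ.1 (Sum.inr j), by
          have h4 := μ.2 j
          rw [if_pos (by simp [hj])] at h4
          rwa [AdjoinRoot.powerBasis'_dim, hdeg]⟩)
      have hg : Function.Injective g := by
        intro μ ν h
        have h1 : μ.1.erase (Sum.inr j) = ν.1.erase (Sum.inr j) :=
          congrArg (fun x => x.1.1) h
        have h2 : μ.1 (Sum.inr j) = ν.1 (Sum.inr j) := congrArg (fun x => x.2.1) h
        apply Subtype.ext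
        rw [← Finsupp.single_add_erase (Sum.inr j) μ.1, h1, h2, Finsupp.single_add_erase]
      have h6 := h3.comp g hg
      convert h6 using 1
      funext μ
      simp only [Function.comp_apply, g, PowerBasis.coe_basis, AdjoinRoot.powerBasis'_gen]
      have h7 : (monomial μ.1 (1 : K) : PP K n) =
          monomial (μ.1.erase (Sum.inr j)) 1 * X (Sum.inr j) ^ μ.1 (Sum.inr j) := by
        rw [X_pow_eq_monomial, monomial_mul, one_mul, Finsupp.erase_add_single]
      rw [h7, map_mul, map_pow, hroot, hψ, Algebra.smul_def]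
      · rfl
      · rw [vars_monomial one_ne_zero]
        simp

theorem d3a_indep :
    LinearIndependent K fun μ : Std γ =>
      (Ideal.Quotient.mk (Ideal.span (Set.range γ.eqn)) (monomial μ.1 1) :
        PP K n ⧸ Ideal.span (Set.range γ.eqn)) := by
  obtain ⟨S, _, _, φ, h0, hli⟩ := d3a_tower γ n le_rfl
  have hI : ∀ p ∈ Ideal.span (Set.range γ.eqn), φ p = 0 := by
    intro p hp
    have : Ideal.span (Set.range γ.eqn) ≤ RingHom.ker φ :=
      Ideal.span_le.2 (by rintro _ ⟨k, rfl⟩; exact h0 k k.2)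
    exact this hp
  let φ' := Ideal.Quotient.liftₐ (Ideal.span (Set.range γ.eqn)) φ hI
  refine LinearIndependent.of_comp φ'.toLinearMap ?_
  let g : Std γ → d3a_St γ n := fun μ => ⟨μ.1, fun k => by rw [if_pos k.2]; exact μ.2 k⟩
  have hg : Function.Injective g := fun μ ν h => Subtype.ext (congrArg (fun x => x.1) h)
  exact hli.comp g hg

/-- the weight that decreases under the rewriting `w_k ^ b_k → A_k` -/
def d3a_wt (n : ℕ) : Var n → ℕ := Sum.elim (fun _ => 0) fun k => (k : ℕ) + 1

theorem d3a_wt_lt (k : Fin n) {l : Var n →₀ ℕ} (hl : l ∈ (γ.A k).support) :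
    Finsupp.weight (d3a_wt n) l < γ.b k * ((k : ℕ) + 1) := by
  have hd : l.degree = γ.b k := by
    by_contra hc
    exact mem_support_iff.1 hl ((γ.hom k).coeff_eq_zero hc)
  have h1 : Finsupp.weight (d3a_wt n) l ≤ γ.b k * (k : ℕ) := by
    rw [← hd, Finsupp.weight_eq_sum, Finsupp.degree_eq_sum, Finset.sum_mul]
    refine Finset.sum_le_sum fun v _ => ?_
    rw [smul_eq_mul]
    by_cases hv : l v = 0
    · simp [hv]
    · refine Nat.mul_le_mul_left _ ?_
      rcases v with i | j
      · exact Nat.zero_le _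
      · have hj : ¬ k ≤ j := fun h => γ.supp k j h
          ((mem_vars_iff_mem_support _).2 ⟨l, hl, Finsupp.mem_support_iff.2 hv⟩)
        exact not_le.1 hj
  have := γ.hb k
  nlinarith

/-- polynomials congruent to a combination of standard monomials of degree `δ` -/
noncomputable def d3a_N (δ : ℕ) : Submodule K (PP K n) :=
  (Finsupp.supported K K {μ : Std γ | μ.1.degree = δ}).map
      (Finsupp.linearCombination K fun μ : Std γ => (monomial μ.1 1 : PP K n)) ⊔
    (Ideal.span (Set.range γ.eqn)).restrictScalars K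

theorem d3a_monomial_mem (μ : Var n →₀ ℕ) : (monomial μ 1 : PP K n) ∈ d3a_N γ μ.degree := by
  classical
  induction hw : Finsupp.weight (d3a_wt n) μ using Nat.strong_induction_on generalizing μ with
  | _ w ih =>
    by_cases hs : ∀ k, μ (Sum.inr k) < γ.b k
    · refine Submodule.mem_sup_left
        ⟨Finsupp.single ⟨μ, hs⟩ 1, Finsupp.single_mem_supported K 1 rfl, ?_⟩
      exact (Finsupp.linearCombination_single K (1 : K) (⟨μ, hs⟩ : Std γ)).trans (one_smul _ _)
    · obtain ⟨k, hk⟩ := not_forall.1 hs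
      obtain ⟨ν, rfl⟩ : ∃ ν, μ = ν + Finsupp.single (Sum.inr k) (γ.b k) :=
        ⟨μ - Finsupp.single (Sum.inr k) (γ.b k),
          (tsub_add_cancel_of_le (Finsupp.single_le_iff.2 (not_lt.1 hk))).symm⟩
      have h1 : (monomial (ν + Finsupp.single (Sum.inr k) (γ.b k)) 1 : PP K n) =
          monomial ν 1 * γ.eqn k + ∑ l ∈ (γ.A k).support, coeff l (γ.A k) • monomial (ν + l) 1 := by
        have h2 : ∑ l ∈ (γ.A k).support, coeff l (γ.A k) • (monomial (ν + l) 1 : PP K n) =
            monomial ν 1 * γ.A k := by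
          conv_rhs => rw [(γ.A k).as_sum, Finset.mul_sum]
          refine Finset.sum_congr rfl fun l _ => ?_
          rw [monomial_mul, smul_monomial, one_mul, smul_eq_mul, mul_one]
        rw [h2, CD1.eqn, mul_sub, sub_add_cancel, X_pow_eq_monomial, monomial_mul, one_mul]
      rw [h1]
      refine Submodule.add_mem _ (Submodule.mem_sup_right ?_)
        (Submodule.sum_mem _ fun l hl => Submodule.smul_mem _ _ ?_)
      · exact Ideal.mul_mem_left _ _ (Ideal.subset_span ⟨k, rfl⟩)
      · have hd : l.degree = γ.b k := by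
          by_contra hc
          exact mem_support_iff.1 hl ((γ.hom k).coeff_eq_zero hc)
        have h3 := ih _ (by
          rw [← hw, map_add, map_add, Finsupp.weight_single]
          exact Nat.add_lt_add_left (d3a_wt_lt γ k hl) _) (ν + l) rfl
        rwa [map_add, hd, ← Finsupp.degree_single (Sum.inr k : Var n) (γ.b k), ← map_add] at h3

theorem exists_std_basis :
    ∃ B : Basis (Std γ) K (PP K n ⧸ Ideal.span (Set.range γ.eqn)),
      ∀ μ : Std γ, B μ = Ideal.Quotient.mk _ (monomial μ.1 1) := by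
  refine ⟨Basis.mk (d3a_indep γ) ?_, fun μ => Basis.mk_apply _ _ μ⟩
  rintro x -
  obtain ⟨p, rfl⟩ := Ideal.Quotient.mk_surjective x
  change Ideal.Quotient.mkₐ K _ p ∈ _
  rw [p.as_sum, map_sum]
  refine Submodule.sum_mem _ fun μ _ => ?_
  rw [show (monomial μ (coeff μ p) : PP K n) = coeff μ p • monomial μ 1 by
    rw [smul_monomial, smul_eq_mul, mul_one], map_smul]
  refine Submodule.smul_mem _ _ ?_
  obtain ⟨_, ⟨c, -, rfl⟩, q, hq, h⟩ := Submodule.mem_sup.1 (d3a_monomial_mem γ μ)
  have hq0 : Ideal.Quotient.mkₐ K (Ideal.span (Set.range γ.eqn)) q = 0 :=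
    Ideal.Quotient.eq_zero_iff_mem.2 hq
  rw [← h, map_add, hq0, add_zero, Finsupp.linearCombination_apply, Finsupp.sum, map_sum]
  refine Submodule.sum_mem _ fun ν _ => ?_
  rw [map_smul]
  exact Submodule.smul_mem _ _ (Submodule.subset_span ⟨ν, rfl⟩)

/-- Reduction to normal form preserves the degree. -/
theorem exists_std_normal {p : PP K n} {δ : ℕ} (hp : p.IsHomogeneous δ) :
    ∃ c : Std γ →₀ K, (∀ μ ∈ c.support, μ.1.degree = δ) ∧
      p - c.sum (fun μ k => monomial μ.1 k) ∈ Ideal.span (Set.range γ.eqn) := by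
  have h1 : p ∈ d3a_N γ δ := by
    rw [p.as_sum]
    refine Submodule.sum_mem _ fun μ hμ => ?_
    have hd : μ.degree = δ := by
      by_contra hc
      exact mem_support_iff.1 hμ (hp.coeff_eq_zero hc)
    rw [show (monomial μ (coeff μ p) : PP K n) = coeff μ p • monomial μ 1 by
      rw [smul_monomial, smul_eq_mul, mul_one]]
    exact Submodule.smul_mem _ _ (hd ▸ d3a_monomial_mem γ μ)
  obtain ⟨_, ⟨c, hc, rfl⟩, q, hq, h⟩ := Submodule.mem_sup.1 h1
  refine ⟨c, fun μ hμ => (Finsupp.mem_supported K c).1 hc hμ, ?_⟩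
  have h2 : c.sum (fun μ k => (monomial μ.1 k : PP K n)) =
      Finsupp.linearCombination K (fun μ : Std γ => (monomial μ.1 1 : PP K n)) c := by
    rw [Finsupp.linearCombination_apply]
    refine Finsupp.sum_congr fun μ _ => ?_
    rw [smul_monomial, smul_eq_mul, mul_one]
  rw [h2, ← h, add_sub_cancel_left]
  exact hq

theorem d3a_degree (μ : Var n →₀ ℕ) :
    μ.degree = μ (Sum.inl 0) + μ (Sum.inl 1) + ∑ k, μ (Sum.inr k) := by
  rw [Finsupp.degree_eq_sum, Fintype.sum_sum_type, Fin.sum_univ_two]

/-- The number of standard monomials of large degree. -/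
theorem ncard_std : ∃ T : ℕ, ∀ t : ℕ, T ≤ t →
    (({μ : Std γ | μ.1.degree = t}.ncard : ℕ) : ℤ) = hB γ.b t := by
  classical
  refine ⟨∑ k, γ.b k, fun t ht => ?_⟩
  have hβ : ∀ β : (∀ k, Fin (γ.b k)), ∑ k, (β k : ℕ) ≤ t := fun β =>
    (Finset.sum_le_sum fun k _ => (β k).2.le).trans ht
  let S : Finset (Σ _ : (∀ k, Fin (γ.b k)), ℕ) :=
    Finset.univ.sigma fun β => Finset.range (t - ∑ k, (β k : ℕ) + 1)
  have h1 : {μ : Std γ | μ.1.degree = t}.ncard = (S : Set (Σ _ : (∀ k, Fin (γ.b k)), ℕ)).ncard := by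
    refine Set.ncard_congr
      (fun μ _ => ⟨fun k => ⟨μ.1 (Sum.inr k), μ.2 k⟩, μ.1 (Sum.inl 0)⟩) ?_ ?_ ?_
    · intro μ hμ
      have h2 : μ.1.degree = t := hμ
      rw [d3a_degree] at h2
      simp only [S, Finset.coe_sigma, Finset.coe_univ, Set.mem_sigma_iff, Set.mem_univ, true_and,
        Finset.coe_range, Set.mem_Iio]
      omega
    · intro μ ν hμ hν h
      have h2 : μ.1.degree = t := hμ
      have h3 : ν.1.degree = t := hν
      rw [d3a_degree] at h2 h3
      have h4 : ∀ k, μ.1 (Sum.inr k) = ν.1 (Sum.inr k) := fun k =>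
        congrArg (fun x => ((x.1 k : Fin (γ.b k)) : ℕ)) h
      have h5 : μ.1 (Sum.inl 0) = ν.1 (Sum.inl 0) := congrArg (fun x => (x.2 : ℕ)) h
      have h6 : ∑ k, μ.1 (Sum.inr k) = ∑ k, ν.1 (Sum.inr k) := Finset.sum_congr rfl fun k _ => h4 k
      apply Subtype.ext
      ext v
      rcases v with i | k
      · fin_cases i
        · exact h5
        · change μ.1 (Sum.inl 1) = ν.1 (Sum.inl 1)
          omega
      · exact h4 k
    · rintro ⟨β, i⟩ hb
      simp only [S, Finset.coe_sigma, Finset.coe_univ, Set.mem_sigma_iff, Set.mem_univ, true_and,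
        Finset.coe_range, Set.mem_Iio] at hb
      refine ⟨⟨Finsupp.equivFunOnFinite.symm
        (Sum.elim ![i, t - ∑ k, (β k : ℕ) - i] fun k => (β k : ℕ)), fun k => (β k).2⟩, ?_, rfl⟩
      have := hβ β
      change Finsupp.degree _ = t
      rw [d3a_degree]
      change i + (t - ∑ k, (β k : ℕ) - i) + ∑ k, (β k : ℕ) = t
      omega
  rw [h1, Set.ncard_coe_finset, Finset.card_sigma]
  unfold hB dB eB
  have h7 : (∏ k, (γ.b k : ℤ)) * t = ∑ _β : (∀ k, Fin (γ.b k)), (t : ℤ) := by
    simp
  rw [h7, ← Finset.sum_add_distrib, Nat.cast_sum]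
  refine Finset.sum_congr rfl fun β _ => ?_
  rw [Finset.card_range, Nat.cast_add, Nat.cast_sub (hβ β)]
  push_cast
  ring

theorem finite_std (t : ℕ) : {μ : Std γ | μ.1.degree = t}.Finite :=
  (Finsupp.finite_of_degree_eq t).preimage (f := fun μ : Std γ => μ.1)
    Subtype.val_injective.injOn

end Crest.Agent.R181
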