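import Crest.Agent.R181.D1
import Crest.Agent.R181.D3a

/-! # Row 181, D3b: a model of the free graded module of rank one. -/

set_option autoImplicit false

namespace Crest.Agent.R181

open Module MvPolynomial

variable {K : Type} [Field K] {n : ℕ} (E : Type) [DivisionRing E] [Algebra K E] (γ : CD1 K n)

section D3bAux

open TensorProduct

/-- The action of the free monoid algebra attached to a family of linear operators. -/
noncomputable def d3bHom {E : Type} [Ring E] {P M : Type} [AddCommGroup M] [Module E M]
    (op : P ⊕ ℤ → Module.End E M) : TT E P →+* AddMonoid.End M :=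
  MonoidAlgebra.liftNCRingHom (Module.toAddMonoidEnd E M)
    (FreeMonoid.lift fun s => ((op s).toAddMonoidHom : AddMonoid.End M)) (by
      intro e y
      induction y using FreeMonoid.inductionOn with
      | one => simp
      | of s => exact AddMonoidHom.ext fun x => ((op s).map_smul e x).symm
      | mul a b ha hb =>
        rw [map_mul]
        exact ha.mul_right hb)

theorem d3bHom_sT {E : Type} [Ring E] {P M : Type} [AddCommGroup M] [Module E M]
    (op : P ⊕ ℤ → Module.End E M) (e : E) (x : M) : d3bHom op (sT P e) x = e • x := by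
  rw [d3bHom, sT, MonoidAlgebra.liftNCRingHom_single, map_one, mul_one]
  rfl

theorem d3bHom_of {E : Type} [Ring E] {P M : Type} [AddCommGroup M] [Module E M]
    (op : P ⊕ ℤ → Module.End E M) (s : P ⊕ ℤ) (x : M) :
    d3bHom op (MonoidAlgebra.single (FreeMonoid.of s) 1) x = op s x := by
  rw [d3bHom, MonoidAlgebra.liftNCRingHom_single, map_one, one_mul]
  rfl

/-- The model from a module with a basis of standard monomials. -/
theorem d3b_of_basis (j : ℤ) (M : Type) [AddCommGroup M] [Module E M] (B : Basis (Std γ) E M)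
    (a : PP K n → Module.End E M) (g : M) (hadd : ∀ p q, a (p + q) = a p + a q)
    (hmul : ∀ p q, a (p * q) = a p * a q)
    (hC : ∀ (k : K) (x : M), a (MvPolynomial.C k) x = algebraMap K E k • x)
    (heq : ∀ k, a (γ.eqn k) = 0) (hB : ∀ μ : Std γ, B μ = a (monomial μ.1 1) g)
    (hX : ∀ (v : Var n) (μ : Std γ), a (MvPolynomial.X v) (B μ) ∈
      Submodule.span E (B '' {ν | ν.1.degree = μ.1.degree + 1})) :
    Nonempty (OPre E γ j) := by
  classical
  let π : ℤ → Module.End E M := fun t =>
    B.constr ℕ fun μ => if (μ.1.degree : ℤ) + j = t then B μ else 0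
  have hπ : ∀ t μ, π t (B μ) = if (μ.1.degree : ℤ) + j = t then B μ else 0 := fun t μ =>
    B.constr_basis ℕ _ μ
  have hπs : ∀ (t : ℤ) (δ : ℕ), ∀ x ∈ Submodule.span E (B '' {ν | ν.1.degree = δ}),
      π t x = if (δ : ℤ) + j = t then x else 0 := by
    intro t δ x hx
    induction hx using Submodule.span_induction with
    | mem x hx =>
      obtain ⟨ν, hν, rfl⟩ := hx
      rw [hπ, show ν.1.degree = δ from hν]
    | zero => simp
    | add x y _ _ hx hy => rw [map_add, hx, hy]; split_ifs <;> simp
    | smul e x _ hx => rw [map_smul, hx]; split_ifs <;> simp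
  let _ : Module (TT E (PP K n)) M := Module.compHom M (d3bHom (Sum.elim a π))
  have hs : ∀ (e : E) (x : M), sT (PP K n) e • x = e • x := fun e x => d3bHom_sT _ e x
  have ha : ∀ (p : PP K n) (x : M), aT E p • x = a p x := fun p x =>
    d3bHom_of (Sum.elim a π) (Sum.inl p) x
  have hp : ∀ (t : ℤ) (x : M), πT E (PP K n) t • x = π t x := fun t x =>
    d3bHom_of (Sum.elim a π) (Sum.inr t) x
  let e : M ≃ₗ[E] Res E (PP K n) M :=
    { toRes E (PP K n) with
      map_smul' := fun c x => congrArg (toRes E (PP K n)) (hs c x).symm }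
  let μ0 : Std γ := ⟨0, fun k => γ.hb k⟩
  have hg : B μ0 = g := by
    rw [hB]
    change a (MvPolynomial.C 1) g = g
    rw [hC, map_one, one_smul]
  refine ⟨{ X := M, gm := ⟨?_, ?_, ?_, ?_, ?_, ?_, ?_⟩, g := g, hg := ?_, B := B.map e, hB := ?_ }⟩
  · intro p q x
    rw [ha, ha, ha, hadd, LinearMap.add_apply]
  · intro p q x
    rw [ha, ha, ha, hmul, Module.End.mul_apply]
  · intro k x
    rw [ha, hs, hC]
  · intro t t' x
    have : π t ∘ₗ π t' = if t = t' then π t else 0 := by
      refine B.ext fun μ => ?_
      rw [LinearMap.comp_apply, hπ]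
      by_cases h : t = t'
      · subst h
        rw [if_pos rfl, hπ]
        split_ifs with h'
        · rw [hπ, if_pos h']
        · rw [map_zero]
      · rw [if_neg h, LinearMap.zero_apply]
        split_ifs with h'
        · rw [hπ, if_neg fun h'' => h (h''.symm.trans h')]
        · rw [map_zero]
    have h2 := LinearMap.congr_fun this x
    rw [hp, hp, hp]
    rw [LinearMap.comp_apply] at h2
    rw [h2]
    split_ifs <;> rfl
  · intro v t x
    have : π (t + 1) ∘ₗ a (MvPolynomial.X v) = a (MvPolynomial.X v) ∘ₗ π t := by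
      refine B.ext fun μ => ?_
      rw [LinearMap.comp_apply, LinearMap.comp_apply, hπs _ _ _ (hX v μ), hπ]
      by_cases h : (μ.1.degree : ℤ) + j = t
      · rw [if_pos h, if_pos (by push_cast; omega)]
      · rw [if_neg h, if_neg (by push_cast; omega), map_zero]
    rw [ha, ha, hp, hp]
    exact LinearMap.congr_fun this x
  · intro x
    refine ⟨(B.repr x).support.image fun μ => (μ.1.degree : ℤ) + j, ?_⟩
    simp only [hp]
    set s := (B.repr x).support.image fun μ => (μ.1.degree : ℤ) + j with hs'
    have h1 : x = ∑ μ ∈ (B.repr x).support, B.repr x μ • B μ := by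
      conv_lhs => rw [← B.linearCombination_repr x]
      rfl
    calc x = ∑ μ ∈ (B.repr x).support, B.repr x μ • B μ := h1
      _ = ∑ μ ∈ (B.repr x).support, ∑ t ∈ s, π t (B.repr x μ • B μ) := by
          refine Finset.sum_congr rfl fun μ hμ => ?_
          simp only [map_smul, hπ]
          rw [← Finset.smul_sum, Finset.sum_ite_eq,
            if_pos (Finset.mem_image_of_mem (fun μ : Std γ => (μ.1.degree : ℤ) + j) hμ)]
      _ = ∑ t ∈ s, π t x := by
          rw [Finset.sum_comm]
          refine Finset.sum_congr rfl fun t _ => ?_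
          rw [← map_sum, ← h1]
  · intro k x
    rw [ha, heq, LinearMap.zero_apply]
  · rw [hp, ← hg, hπ, if_pos (by simp [μ0])]
  · intro μ
    rw [Basis.map_apply, ha, hB]
    rfl

end D3bAux

/-- Take `E ⊗[K] R`, `R = PP K n ⧸ (eqn)`, (or `Std γ →₀ E`) with the action of `TT` given by
`MonoidAlgebra.liftNCRingHom`. -/
theorem exists_OPre (j : ℤ) : Nonempty (OPre E γ j) := by
  obtain ⟨B, hB⟩ := exists_std_basis γ
  let I := Ideal.span (Set.range γ.eqn)
  refine d3b_of_basis E γ j (TensorProduct K E (PP K n ⧸ I)) (Algebra.TensorProduct.basis E B)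
    (fun p => (LinearMap.mul K (PP K n ⧸ I) (Ideal.Quotient.mk I p)).baseChange E)
    (TensorProduct.tmul K 1 1) ?_ ?_ ?_ ?_ ?_ ?_
  · intro p q
    rw [map_add, map_add, LinearMap.baseChange_add]
  · intro p q
    rw [← LinearMap.baseChange_mul]
    congr 1
    refine LinearMap.ext fun x => ?_
    simp [mul_assoc]
  · intro k x
    have : LinearMap.mul K (PP K n ⧸ I) (Ideal.Quotient.mk I (MvPolynomial.C k)) =
        k • LinearMap.id := by
      refine LinearMap.ext fun x => ?_
      rw [LinearMap.smul_apply, LinearMap.id_apply, LinearMap.mul_apply']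
      exact (Algebra.smul_def k x).symm
    rw [this, LinearMap.baseChange_smul, LinearMap.baseChange_id, LinearMap.smul_apply,
      LinearMap.id_apply, algebraMap_smul]
  · intro k
    have : Ideal.Quotient.mk I (γ.eqn k) = 0 :=
      Ideal.Quotient.eq_zero_iff_mem.2 (Ideal.subset_span ⟨k, rfl⟩)
    rw [this, map_zero, LinearMap.baseChange_zero]
  · intro μ
    rw [Algebra.TensorProduct.basis_apply, LinearMap.baseChange_tmul, hB, LinearMap.mul_apply',
      mul_one]
  · intro v μ
    have hh : (MvPolynomial.X v * monomial μ.1 (1 : K) : PP K n).IsHomogeneous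
        (μ.1.degree + 1) := by
      rw [add_comm]
      exact (isHomogeneous_X K v).mul (isHomogeneous_monomial 1 rfl)
    obtain ⟨c, hc, hc'⟩ := exists_std_normal γ hh
    have h1 : Ideal.Quotient.mk I (MvPolynomial.X v) * B μ = ∑ ν ∈ c.support, c ν • B ν := by
      rw [hB, ← map_mul, Ideal.Quotient.eq.2 hc', Finsupp.sum, map_sum]
      refine Finset.sum_congr rfl fun ν _ => ?_
      rw [hB, ← Ideal.Quotient.mkₐ_eq_mk K, ← map_smul, smul_monomial, smul_eq_mul, mul_one]
    rw [Algebra.TensorProduct.basis_apply, LinearMap.baseChange_tmul, LinearMap.mul_apply', h1,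
      TensorProduct.tmul_sum]
    refine Submodule.sum_mem _ fun ν hν => ?_
    rw [TensorProduct.tmul_smul, ← algebraMap_smul E, ← Algebra.TensorProduct.basis_apply]
    exact Submodule.smul_mem _ _ (Submodule.subset_span ⟨ν, hc ν hν, rfl⟩)

/-- The chosen model. -/
noncomputable def OO (j : ℤ) : OPre E γ j := Classical.choice (exists_OPre E γ j)

end Crest.Agent.R181
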