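import Crest.Agent.R181.D2
import Crest.Agent.R181.D3a

/-! # Row 181, D3c: properties of the free modules of rank one. -/

set_option autoImplicit false

namespace Crest.Agent.R181

open Module MvPolynomial

variable {K : Type} [Field K] {n : ℕ} {E : Type} [DivisionRing E] [Algebra K E] {γ : CD1 K n}

section Aux

variable {P X : Type} [AddCommGroup X] [Module (TT E P) X]

/-- action of a polynomial as an `E`-linear map -/
noncomputable def d3cA (E : Type) [DivisionRing E] {P : Type} (X : Type) [AddCommGroup X]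
    [Module (TT E P) X] (p : P) : Res E P X →ₗ[E] Res E P X where
  toFun x := toRes E P (aT E p • (toRes E P).symm x)
  map_add' := fun x y => smul_add (aT E p) ((toRes E P).symm x) ((toRes E P).symm y)
  map_smul' := fun e x => (sT_aT e p ((toRes E P).symm x)).symm

/-- projection on a piece as an `E`-linear map -/
noncomputable def d3cP (E : Type) [DivisionRing E] (P : Type) (X : Type) [AddCommGroup X]
    [Module (TT E P) X] (t : ℤ) : Res E P X →ₗ[E] Res E P X where
  toFun x := toRes E P (πT E P t • (toRes E P).symm x)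
  map_add' := fun x y => smul_add (πT E P t) ((toRes E P).symm x) ((toRes E P).symm y)
  map_smul' := fun e x => (sT_πT e t ((toRes E P).symm x)).symm

theorem d3cA_apply (p : P) (x : X) :
    d3cA E X p (toRes E P x) = toRes E P (aT E p • x) := rfl

theorem d3cP_apply (t : ℤ) (x : X) :
    d3cP E P X t (toRes E P x) = toRes E P (πT E P t • x) := rfl

theorem d3c_tri {M : Type} [AddCommGroup M] [Module E M] {m : ℕ} (v : Fin m → M)
    (φ : Fin m → M →ₗ[E] E) (h0 : ∀ i, φ i (v i) ≠ 0) (h1 : ∀ i i', i' < i → φ i (v i') = 0) :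
    LinearIndependent E v := by
  classical
  rw [Fintype.linearIndependent_iff]
  intro g hg
  by_contra h
  push Not at h
  obtain ⟨i, hi, hmax⟩ := Finset.exists_max_image (Finset.univ.filter fun i => g i ≠ 0) id
    (by obtain ⟨i, hi⟩ := h; exact ⟨i, by simpa using hi⟩)
  have h2 := congrArg (φ i) hg
  rw [map_sum, map_zero, Finset.sum_eq_single i] at h2
  · rw [map_smul, smul_eq_mul] at h2
    exact mul_ne_zero (by simpa using hi) (h0 i) h2
  · intro i' _ hi'
    rw [map_smul, smul_eq_mul]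
    rcases lt_or_gt_of_ne hi' with h3 | h3
    · rw [h1 i i' h3, mul_zero]
    · have : g i' = 0 := by
        by_contra h4
        exact absurd (hmax i' (by simpa using h4)) (not_le.2 h3)
      rw [this, zero_mul]
  · simp

end Aux

theorem d3c_nf (γ : CD1 K n) (p : PP K n) : ∃ c : Std γ →₀ K,
    p - ∑ μ ∈ c.support, monomial μ.1 (c μ) ∈ Ideal.span (Set.range γ.eqn) := by
  obtain ⟨B, hB⟩ := exists_std_basis γ
  refine ⟨B.repr (Ideal.Quotient.mk _ p), Ideal.Quotient.eq.1 ?_⟩
  conv_lhs => rw [← B.linearCombination_repr (Ideal.Quotient.mk _ p)]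
  rw [Finsupp.linearCombination_apply, Finsupp.sum, map_sum]
  refine Finset.sum_congr rfl fun μ _ => ?_
  rw [hB, ← Ideal.Quotient.mkₐ_eq_mk K, ← map_smul, smul_monomial, smul_eq_mul, mul_one]

theorem d3c_act {Y : Type} [AddCommGroup Y] [Module (TT E (PP K n)) Y] (hY : IsGM E γ Y) (y : Y)
    {p : PP K n} {c : Std γ →₀ K}
    (h : p - ∑ μ ∈ c.support, monomial μ.1 (c μ) ∈ Ideal.span (Set.range γ.eqn)) :
    toRes E (PP K n) (aT E p • y) = ∑ μ ∈ c.support, algebraMap K E (c μ) •
      toRes E (PP K n) (aT E (monomial μ.1 (1 : K) : PP K n) • y) := by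
  have h1 : aT E p • y = aT E (∑ μ ∈ c.support, monomial μ.1 (c μ) : PP K n) • y := by
    conv_lhs => rw [← sub_add_cancel p (∑ μ ∈ c.support, monomial μ.1 (c μ))]
    rw [hY.add, hY.aT_ideal h, zero_add]
  rw [h1, hY.aT_sum, map_sum]
  refine Finset.sum_congr rfl fun μ _ => ?_
  rw [smul_toRes, ← hY.const, ← hY.mul, C_mul_monomial, mul_one]

theorem d3c_pi_mon {Y : Type} [AddCommGroup Y] [Module (TT E (PP K n)) Y] (hY : IsGM E γ Y)
    {y : Y} {j : ℤ} (hy : πT E (PP K n) j • y = y) (μ : Var n →₀ ℕ) (t : ℤ) :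
    πT E (PP K n) t • aT E (monomial μ (1 : K) : PP K n) • y =
      if (μ.degree : ℤ) + j = t then aT E (monomial μ (1 : K) : PP K n) • y else 0 := by
  have h1 := hY.πT_aT (isHomogeneous_monomial (d := μ) (1 : K) rfl) (t - μ.degree) y
  rw [sub_add_cancel] at h1
  have h2 := hY.pp (t - μ.degree) j y
  rw [hy] at h2
  rw [h1]
  split_ifs with h
  · rw [show t - μ.degree = j by omega, hy]
  · rw [h2, if_neg (by omega), smul_zero]

/-- the trivial standard monomial -/
def d3cZero (γ : CD1 K n) : Std γ := ⟨0, fun k => γ.hb k⟩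

theorem OPre.d3c_B0 {j : ℤ} (O : OPre E γ j) : O.B (d3cZero γ) = toRes E (PP K n) O.g := by
  rw [O.hB]
  exact congrArg _ (O.gm.aT_one O.g)

theorem OPre.span_g {j : ℤ} (O : OPre E γ j) :
    Submodule.span (TT E (PP K n)) {O.g} = ⊤ := by
  rw [eq_top_iff]
  intro x _
  have h : (⊤ : Submodule E (Res E (PP K n) O.X)) ≤
      resSub (Submodule.span (TT E (PP K n)) {O.g}) := by
    rw [← O.B.span_eq, Submodule.span_le]
    rintro _ ⟨μ, rfl⟩
    rw [O.hB]
    exact mem_resSub.2 (Submodule.smul_mem _ _ (Submodule.mem_span_singleton_self _))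
  exact mem_resSub.1 (h Submodule.mem_top)

theorem OPre.g_ne {j : ℤ} (O : OPre E γ j) : O.g ≠ 0 := by
  intro h
  have h1 := O.B.ne_zero (d3cZero γ)
  rw [O.d3c_B0, h, map_zero] at h1
  exact h1 rfl

theorem OPre.adm {j : ℤ} (O : OPre E γ j) : Adm E γ O.X := by
  exact ⟨O.gm, ⟨⟨{O.g}, by simpa using O.span_g⟩⟩⟩

/-- Universal property. -/
theorem OPre.univ {j : ℤ} (O : OPre E γ j) {Y : Type} [AddCommGroup Y]
    [Module (TT E (PP K n)) Y] (hY : IsGM E γ Y) (y : Y) (hy : πT E (PP K n) j • y = y) :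
    ∃ f : O.X →ₗ[TT E (PP K n)] Y, f O.g = y := by
  let F : Res E (PP K n) O.X →ₗ[E] Res E (PP K n) Y := O.B.constr ℕ fun μ =>
    toRes E (PP K n) (aT E (monomial μ.1 (1 : K) : PP K n) • y)
  have hF : ∀ μ : Std γ, F (toRes E (PP K n) (aT E (monomial μ.1 (1 : K) : PP K n) • O.g)) =
      toRes E (PP K n) (aT E (monomial μ.1 (1 : K) : PP K n) • y) := fun μ => by
    rw [← O.hB]
    exact O.B.constr_basis ℕ _ μ
  have h1 : ∀ p : PP K n, F (toRes E (PP K n) (aT E p • O.g)) =
      toRes E (PP K n) (aT E p • y) := fun p => by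
    obtain ⟨c, hc⟩ := d3c_nf γ p
    rw [d3c_act O.gm O.g hc, d3c_act hY y hc, map_sum]
    exact Finset.sum_congr rfl fun μ _ => by rw [map_smul, hF]
  have h2 : ∀ p : PP K n, F ∘ₗ d3cA E O.X p = d3cA E Y p ∘ₗ F := fun p => O.B.ext fun μ => by
    rw [LinearMap.comp_apply, LinearMap.comp_apply, O.hB, h1, d3cA_apply, d3cA_apply, ← O.gm.mul,
      h1, hY.mul]
  have h3 : ∀ t : ℤ, F ∘ₗ d3cP E (PP K n) O.X t = d3cP E (PP K n) Y t ∘ₗ F := fun t =>
    O.B.ext fun μ => by
      rw [LinearMap.comp_apply, LinearMap.comp_apply, O.hB, h1, d3cP_apply, d3cP_apply,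
        d3c_pi_mon O.gm O.hg, d3c_pi_mon hY hy]
      split_ifs
      · exact h1 _
      · rw [map_zero, map_zero, map_zero]
  let f : O.X →+ Y := ((toRes E (PP K n)).symm.toAddMonoidHom.comp F.toAddMonoidHom).comp
    (toRes E (PP K n)).toAddMonoidHom
  refine ⟨{ f with
    map_smul' := fun r x => map_smul_of_gens f (fun e x => F.map_smul e (toRes E (PP K n) x))
      (fun p x => LinearMap.congr_fun (h2 p) (toRes E (PP K n) x))
      (fun t x => LinearMap.congr_fun (h3 t) (toRes E (PP K n) x)) r x }, ?_⟩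
  have h4 := h1 1
  rw [O.gm.aT_one, hY.aT_one] at h4
  exact h4

theorem OPre.hasC {j : ℤ} (O : OPre E γ j) : HasC E γ O.X (1, j) := by
  obtain ⟨T, hT⟩ := ncard_std γ
  refine ⟨T + j, fun t ht => ?_⟩
  set S : Set (Std γ) := {μ | μ.1.degree = (t - j).toNat} with hS
  have hmem : ∀ μ : Std γ, μ ∈ S ↔ (μ.1.degree : ℤ) + j = t := fun μ => by
    rw [hS, Set.mem_ofPred_eq]
    omega
  have h1 : piece E (PP K n) O.X t = Submodule.span E (Set.range fun μ : S => O.B μ) := by
    refine le_antisymm (fun x hx => ?_) (Submodule.span_le.2 ?_)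
    · have h2 : (⊤ : Submodule E (Res E (PP K n) O.X)) ≤
          (Submodule.span E (Set.range fun μ : S => O.B μ)).comap (d3cP E (PP K n) O.X t) := by
        rw [← O.B.span_eq, Submodule.span_le]
        rintro _ ⟨μ, rfl⟩
        rw [SetLike.mem_coe, Submodule.mem_comap, O.hB, d3cP_apply, d3c_pi_mon O.gm O.hg]
        split_ifs with h
        · rw [← O.hB]
          exact Submodule.subset_span ⟨⟨μ, (hmem μ).2 h⟩, rfl⟩
        · rw [map_zero]
          exact Submodule.zero_mem _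
      have h3 : d3cP E (PP K n) O.X t x = x := hx
      rw [← h3]
      exact h2 Submodule.mem_top
    · rintro _ ⟨μ, rfl⟩
      show O.B μ ∈ piece E (PP K n) O.X t
      rw [O.hB, mem_piece, d3c_pi_mon O.gm O.hg, if_pos ((hmem μ).1 μ.2)]
  have : Fintype S := (finite_std γ _).fintype
  have h2 : LinearIndependent E fun μ : S => O.B μ :=
    O.B.linearIndependent.comp _ Subtype.val_injective
  rw [h1, finrank_span_eq_card h2, ← Nat.card_eq_fintype_card, Nat.card_coe_set_eq,
    hT _ (by omega)]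
  have h3 : (((t - j).toNat : ℕ) : ℤ) = t - j := by omega
  rw [h3]
  simp only [Crest.Agent.R181.hB]
  ring

theorem OPre.ZZ_eq {j : ℤ} (O : OPre E γ j) : ZZ E γ O.X = 1 + j := O.hasC.ZZ_eq

/-- `u ^ i v ^ (s - i)` -/
noncomputable def d3cNu (n s i : ℕ) : Var n →₀ ℕ :=
  Finsupp.single (Sum.inl 0) i + Finsupp.single (Sum.inl 1) (s - i)

/-- shift of a standard monomial -/
noncomputable def d3cSh (s i : ℕ) (μ : Std γ) : Std γ :=
  ⟨d3cNu n s i + μ.1, fun k => by simpa [d3cNu] using μ.2 k⟩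

theorem OPre.d3c_shift {j : ℤ} (O : OPre E γ j) (s i : ℕ) (μ : Std γ) :
    d3cA E O.X (monomial (d3cNu n s i) (1 : K) : PP K n) (O.B μ) = O.B (d3cSh s i μ) := by
  rw [O.hB, O.hB, d3cA_apply, ← O.gm.mul, monomial_mul, mul_one]
  rfl

theorem OPre.d3c_indep {j : ℤ} (O : OPre E γ j) {x : O.X} (hx : x ≠ 0) (s : ℕ) :
    LinearIndependent E fun i : Fin (s + 1) =>
      toRes E (PP K n) (aT E (monomial (d3cNu n s i) (1 : K) : PP K n) • x) := by
  classical
  set c := O.B.repr (toRes E (PP K n) x) with hc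
  have hc0 : c.support.Nonempty := by
    rw [Finsupp.support_nonempty_iff]
    intro h
    exact hx ((toRes E (PP K n)).map_eq_zero_iff.1 (O.B.repr.map_eq_zero_iff.1 h))
  obtain ⟨μ0, hμ0, hmax⟩ := Finset.exists_max_image c.support (fun μ => μ.1 (Sum.inl 0)) hc0
  have h1 : ∀ i : ℕ, toRes E (PP K n) (aT E (monomial (d3cNu n s i) (1 : K) : PP K n) • x) =
      ∑ μ ∈ c.support, c μ • O.B (d3cSh s i μ) := fun i => by
    rw [← d3cA_apply]
    conv_lhs => rw [← O.B.linearCombination_repr (toRes E (PP K n) x)]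
    rw [Finsupp.linearCombination_apply, Finsupp.sum, map_sum]
    exact Finset.sum_congr rfl fun μ _ => by rw [map_smul, O.d3c_shift]
  refine d3c_tri _ (fun i => O.B.coord (d3cSh s i μ0)) (fun i => ?_) fun i i' hi => ?_
  · rw [h1, map_sum, Finset.sum_eq_single μ0]
    · simpa using hμ0
    · intro μ _ hμ
      have : d3cSh s i μ ≠ d3cSh s i μ0 := fun h =>
        hμ (Subtype.ext (add_left_cancel (congrArg Subtype.val h)))
      simp [Finsupp.single_eq_of_ne this.symm]
    · exact fun h => absurd hμ0 h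
  · rw [h1, map_sum]
    refine Finset.sum_eq_zero fun μ hμ => ?_
    have : d3cSh s i' μ ≠ d3cSh s i μ0 := fun h => by
      have h2 := DFunLike.congr_fun (congrArg Subtype.val h) (Sum.inl 0)
      have h3 := hmax μ hμ
      have h4 : (i' : ℕ) < i := hi
      simp [d3cSh, d3cNu] at h2
      omega
    simp [Finsupp.single_eq_of_ne this.symm]

theorem OPre.d3c_grow {j : ℤ} (O : OPre E γ j) {A : Submodule (TT E (PP K n)) O.X} {x : O.X}
    (hxA : x ∈ A) (hx : x ≠ 0) {t : ℤ} (ht : πT E (PP K n) t • x = x) (s : ℕ) :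
    s + 1 ≤ finrank E (piece E (PP K n) A (s + t)) := by
  rw [finrank_piece_sub]
  have := O.adm.finite_piece (s + t)
  let v : Fin (s + 1) → ↥(piece E (PP K n) O.X (s + t) ⊓ resSub A) := fun i =>
    ⟨toRes E (PP K n) (aT E (monomial (d3cNu n s i) (1 : K) : PP K n) • x), by
      refine ⟨mem_piece.2 ?_, mem_resSub.2 (A.smul_mem _ hxA)⟩
      rw [d3c_pi_mon O.gm ht, if_pos]
      have h1 := i.2
      have h2 : (d3cNu n s i).degree = s := by
        rw [d3cNu, map_add, Finsupp.degree_single, Finsupp.degree_single]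
        omega
      rw [h2]⟩
  have hv : LinearIndependent E v :=
    LinearIndependent.of_comp (Submodule.subtype _) (O.d3c_indep hx s)
  simpa using hv.fintype_card_le_finrank

/-- Purity: for `x ≠ 0` homogeneous the elements `u^i v^{t-i} x` are independent, so a non-zero
submodule has `c₀ ≥ 1`; hence proper quotients have `c₀ = 0` and `Z ≤ 0`. -/
theorem OPre.ZZ_quot_le (hI : Int1 E γ) {j : ℤ} (O : OPre E γ j)
    {A : Submodule (TT E (PP K n)) O.X} (hA : A ≠ ⊥) : ZZ E γ (O.X ⧸ A) ≤ 0 := by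
  obtain ⟨c, hc⟩ := hI A (O.adm.sub A)
  have hq := HasC.quot O.adm O.hasC hc
  obtain ⟨t, x, hxA, hx, ht⟩ := O.gm.exists_homog hA
  have h1 : c.1 ≠ 0 := fun h0 => by
    obtain ⟨T, hT⟩ := hc
    have h2 := O.d3c_grow hxA hx ht ((T - t).toNat + (-(c.2 * dB γ.b)).toNat)
    have h3 := hT (((T - t).toNat + (-(c.2 * dB γ.b)).toNat : ℕ) + t) (by omega)
    rw [h0, zero_mul] at h3
    omega
  have h2 := hc.nonneg
  have h3 := hq.nonneg
  have h4 : ((1, j) - c).1 = 0 := by
    simp only [Prod.fst_sub] at h3 ⊢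
    omega
  have h5 := hq.nonpos h4
  rw [hq.ZZ_eq]
  omega

theorem OPre.dle (hI : Int1 E γ) {j : ℤ} (hj : -1 ≤ j) (O : OPre E γ j) :
    DLe E γ O.X (1 + j) := by
  intro A
  by_cases hA : A = ⊥
  · rw [ZZ_congr (A.quotEquivOfEqBot hA), O.ZZ_eq]
  · have := O.ZZ_quot_le hI hA
    omega

theorem OPre.good (hI : Int1 E γ) (O : OPre E γ 0) : GoodM E γ O.X := by
  refine ⟨O.adm, by rw [O.ZZ_eq]; rfl, fun A hA => ?_⟩
  have h1 := O.ZZ_quot_le hI hA
  rw [ZZ_quot hI O.adm, O.ZZ_eq] at h1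
  omega

end Crest.Agent.R181
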