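import Crest.Agent.R181.D2

/-! # Row 181, D4: the rank function, stable modules and amalgamation. -/

set_option autoImplicit false

namespace Crest.Agent.R181

open Module MvPolynomial

variable {K : Type} [Field K] {n : ℕ} {E : Type} [DivisionRing E] [Algebra K E] {γ : CD1 K n}
  {X X' Y Y' : Type} [AddCommGroup X] [Module (TT E (PP K n)) X]
  [AddCommGroup X'] [Module (TT E (PP K n)) X']
  [AddCommGroup Y] [Module (TT E (PP K n)) Y] [AddCommGroup Y'] [Module (TT E (PP K n)) Y']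

theorem DLe.ZZ_le_of_surjective {r : ℤ} (h : DLe E γ X r) (f : X →ₗ[TT E (PP K n)] Y)
    (hf : Function.Surjective f) : ZZ E γ Y ≤ r := by
  rw [← ZZ_congr (f.quotKerEquivOfSurjective hf)]
  exact h _

theorem DLe.ZZ_le {r : ℤ} (h : DLe E γ X r) : ZZ E γ X ≤ r :=
  h.ZZ_le_of_surjective LinearMap.id Function.surjective_id

theorem DLe.nonneg {r : ℤ} (h : DLe E γ X r) : 0 ≤ r := by
  have := h ⊤
  rwa [ZZ_of_subsingleton] at this

theorem DLe.of_surjective {r : ℤ} (h : DLe E γ X r) (f : X →ₗ[TT E (PP K n)] Y)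
    (hf : Function.Surjective f) : DLe E γ Y r := by
  intro A
  exact h.ZZ_le_of_surjective (A.mkQ ∘ₗ f) (A.mkQ_surjective.comp hf)

theorem DLe.of_exact (hI : Int1 E γ) (hY : Adm E γ Y) {r r' : ℤ} (f : X →ₗ[TT E (PP K n)] Y)
    (h : DLe E γ X r) (h' : DLe E γ (Y ⧸ LinearMap.range f) r') : DLe E γ Y (r + r') := by
  intro A
  have h1 := ZZ_quot hI (hY.quot A) (LinearMap.range (A.mkQ ∘ₗ f))
  have h2 := h.ZZ_le_of_surjective _ (A.mkQ ∘ₗ f).surjective_rangeRestrict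
  have h3 := h'.ZZ_le_of_surjective ((LinearMap.range f).liftQ
    ((LinearMap.range (A.mkQ ∘ₗ f)).mkQ ∘ₗ A.mkQ) (by
      rintro _ ⟨x, rfl⟩
      exact (Submodule.Quotient.mk_eq_zero _).2 ⟨x, rfl⟩)) (by
      intro z
      obtain ⟨w, rfl⟩ := Submodule.mkQ_surjective _ z
      obtain ⟨y, rfl⟩ := A.mkQ_surjective w
      exact ⟨Submodule.Quotient.mk y, rfl⟩)
  omega

theorem DLe.prod (hI : Int1 E γ) (hX : Adm E γ X) (hY : Adm E γ Y) {r r' : ℤ} (h : DLe E γ X r)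
    (h' : DLe E γ Y r') : DLe E γ (X × Y) (r + r') := by
  refine DLe.of_exact hI (hX.prod hY) (LinearMap.inl _ X Y) h
    (h'.of_surjective ((LinearMap.range (LinearMap.inl _ X Y)).mkQ ∘ₗ LinearMap.inr _ X Y) ?_)
  intro z
  obtain ⟨⟨x, y⟩, rfl⟩ := Submodule.mkQ_surjective _ z
  refine ⟨y, (Submodule.Quotient.eq _).2 ⟨-x, ?_⟩⟩
  simp

theorem DLe.pi_zero (hI : Int1 E γ) (hX : Adm E γ X) (h : DLe E γ X 0) (ι : Type) [Finite ι] :
    DLe E γ (ι → X) 0 := by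
  obtain ⟨m, ⟨e⟩⟩ := Finite.exists_equiv_fin ι
  have key : ∀ m : ℕ, DLe E γ (Fin m → X) 0 := by
    intro m
    induction m with
    | zero =>
      intro A
      have : Subsingleton ((Fin 0 → X) ⧸ A) := A.mkQ_surjective.subsingleton
      exact ZZ_of_subsingleton.le
    | succ m ih =>
      have := DLe.prod hI hX (hX.pi (Fin m)) h ih
      rw [add_zero] at this
      exact this.of_surjective
        (Fin.consLinearEquiv (TT E (PP K n)) (fun _ : Fin (m + 1) => X)).toLinearMap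
        (LinearEquiv.surjective _)
  exact (key m).of_surjective (LinearEquiv.funCongrLeft (TT E (PP K n)) X e).toLinearMap
    (LinearEquiv.surjective _)

/-- If all submodules have `Z ≥ 0` then `DLe X (ZZ X)`. -/
theorem dle_of_nonneg (hI : Int1 E γ) (hX : Adm E γ X)
    (h : ∀ A : Submodule (TT E (PP K n)) X, 0 ≤ ZZ E γ A) : DLe E γ X (ZZ E γ X) := by
  intro A
  have := h A
  rw [ZZ_quot hI hX A]
  omega

theorem GoodM.congr (h : GoodM E γ Y) (e : Y ≃ₗ[TT E (PP K n)] Y') : GoodM E γ Y' := by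
  refine ⟨h.1.of_surjective e.toLinearMap e.surjective, (ZZ_congr e).symm.trans h.2.1,
    fun A hA => ?_⟩
  rw [ZZ_congr (e.symm.submoduleMap A)]
  refine h.2.2 _ fun h0 => hA ?_
  refine eq_bot_iff.2 fun x hx => ?_
  have h1 : e.symm x ∈ (⊥ : Submodule (TT E (PP K n)) Y) := h0 ▸ Submodule.mem_map_of_mem hx
  exact e.symm.map_eq_zero_iff.1 h1

theorem GoodM.dle (hI : Int1 E γ) (h : GoodM E γ Y) : DLe E γ Y 1 := by
  rw [← h.2.1]
  refine dle_of_nonneg hI h.1 fun A => ?_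
  by_cases hA : A = ⊥
  · subst hA
    exact ZZ_of_subsingleton.ge
  · exact zero_le_one.trans (h.2.2 A hA)

theorem GoodM.dle_quot (hI : Int1 E γ) (h : GoodM E γ Y) {A : Submodule (TT E (PP K n)) Y}
    (hA : A ≠ ⊥) : DLe E γ (Y ⧸ A) 0 := by
  intro B
  have h1 := ZZ_quot hI h.1 (LinearMap.ker (B.mkQ ∘ₗ A.mkQ))
  rw [ZZ_congr ((B.mkQ ∘ₗ A.mkQ).quotKerEquivOfSurjective
    (B.mkQ_surjective.comp A.mkQ_surjective)), h.2.1] at h1
  have h2 := h.2.2 (LinearMap.ker (B.mkQ ∘ₗ A.mkQ)) fun h0 => hA (by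
    refine eq_bot_iff.2 (h0 ▸ fun x hx => ?_)
    rw [LinearMap.mem_ker, LinearMap.comp_apply, Submodule.mkQ_apply A,
      (Submodule.Quotient.mk_eq_zero A).2 hx, map_zero])
  omega

theorem GoodM.eq_zero_of_dle (hY : GoodM E γ Y) (h : DLe E γ X 0)
    (f : X →ₗ[TT E (PP K n)] Y) : f = 0 := by
  by_contra hf
  have h1 := hY.2.2 _ fun h0 => hf (LinearMap.range_eq_bot.1 h0)
  have h2 := h.ZZ_le_of_surjective _ f.surjective_rangeRestrict
  omega

theorem GoodM.injective (hI : Int1 E γ) (h : GoodM E γ Y) (h' : GoodM E γ Y')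
    (f : Y →ₗ[TT E (PP K n)] Y') (hf : f ≠ 0) : Function.Injective f := by
  rw [← LinearMap.ker_eq_bot]
  by_contra h0
  have h1 := h.2.2 _ h0
  have h2 := h'.2.2 _ fun h0 => hf (LinearMap.range_eq_bot.1 h0)
  have h3 := ZZ_add hI h.1 f
  rw [h.2.1] at h3
  omega

/-- Divide by a maximal submodule with `Z = 0`. -/
theorem exists_good_quot (hI : Int1 E γ) (hX : Adm E γ X) (h : DLe E γ X 1) (h1 : 1 ≤ ZZ E γ X) :
    ∃ A : Submodule (TT E (PP K n)) X, GoodM E γ (X ⧸ A) := by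
  have hZ : ZZ E γ X = 1 := le_antisymm h.ZZ_le h1
  have hnn : ∀ A : Submodule (TT E (PP K n)) X, 0 ≤ ZZ E γ A := fun A => by
    have h2 := h A
    rw [ZZ_quot hI hX A] at h2
    omega
  obtain ⟨A, hA, hmax⟩ := set_has_maximal_iff_noetherian.2 hX.noetherian
    {A : Submodule (TT E (PP K n)) X | ZZ E γ A = 0} ⟨⊥, ZZ_of_subsingleton⟩
  have hA0 : ZZ E γ A = 0 := hA
  refine ⟨A, hX.quot A, by rw [ZZ_quot hI hX A, hZ, hA0, sub_zero], fun B hB => ?_⟩
  have hle : A ≤ B.comap A.mkQ := Submodule.le_comap_mkQ A B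
  have h2 := ZZ_sub_add hI (B.comap A.mkQ) (hX.sub _) A.mkQ
  rw [Submodule.ker_mkQ, inf_eq_right.2 hle,
    Submodule.map_comap_eq_of_surjective A.mkQ_surjective, hA0, zero_add] at h2
  have h3 : A < B.comap A.mkQ := lt_of_le_of_ne hle fun e => hB (by
    rw [← Submodule.map_comap_eq_of_surjective A.mkQ_surjective B, ← e, Submodule.mkQ_map_self])
  have h4 : ZZ E γ (B.comap A.mkQ) ≠ 0 := fun h0 => hmax _ h0 h3
  have h5 := hnn (B.comap A.mkQ)
  omega

/-- Amalgamation: a stable quotient of the pushout. -/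
theorem amalg (hI : Int1 E γ) (hX' : Adm E γ X') (hY : GoodM E γ Y)
    (f : X →ₗ[TT E (PP K n)] X') (φ : X →ₗ[TT E (PP K n)] Y) (h1 : DLe E γ X (ZZ E γ X'))
    (h2 : DLe E γ (X' ⧸ LinearMap.range f) 0) :
    ∃ (Q : Type) (_ : AddCommGroup Q) (_ : Module (TT E (PP K n)) Q), GoodM E γ Q ∧
      ∃ (i : Y →ₗ[TT E (PP K n)] Q) (ψ : X' →ₗ[TT E (PP K n)] Q),
        Function.Injective i ∧ ∀ x, ψ (f x) = i (φ x) := by
  set R := LinearMap.range (f.prod (-φ)) with hR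
  have hP := hX'.prod hY.1
  have hQ := hP.quot R
  have key : ∀ x, R.mkQ (f x, 0) = R.mkQ (0, φ x) := fun x =>
    (Submodule.Quotient.eq _).2 ⟨x, by simp⟩
  have split : ∀ (a : X') (b : Y), R.mkQ (a, b) = R.mkQ (a, 0) + R.mkQ (0, b) := fun a b => by
    rw [← map_add]; simp
  have h3 : 1 ≤ ZZ E γ ((X' × Y) ⧸ R) := by
    have h4 : ZZ E γ R ≤ ZZ E γ X' :=
      h1.ZZ_le_of_surjective _ (f.prod (-φ)).surjective_rangeRestrict
    rw [ZZ_quot hI hP R, ZZ_prod hI hX' hY.1, hY.2.1]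
    omega
  have gen : ∀ (Z : Type) [AddCommGroup Z] [Module (TT E (PP K n)) Z]
      (g : ((X' × Y) ⧸ R) →ₗ[TT E (PP K n)] Z), Function.Surjective g →
      (∀ y, g (R.mkQ (0, y)) = 0) → DLe E γ Z 0 := by
    intro Z _ _ g hg hg0
    refine h2.of_surjective ((LinearMap.range f).liftQ
      (g ∘ₗ R.mkQ ∘ₗ LinearMap.inl _ X' Y) ?_) ?_
    · rintro _ ⟨x, rfl⟩
      show g (R.mkQ (f x, 0)) = 0
      rw [key, hg0]
    · intro z
      obtain ⟨w, rfl⟩ := hg z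
      obtain ⟨⟨a, b⟩, rfl⟩ := R.mkQ_surjective w
      refine ⟨Submodule.Quotient.mk a, ?_⟩
      show g (R.mkQ (a, 0)) = g (R.mkQ (a, b))
      rw [split a b, map_add, hg0, add_zero]
  have h4 : DLe E γ ((X' × Y) ⧸ R) 1 := by
    have := DLe.of_exact hI hQ (R.mkQ ∘ₗ LinearMap.inr _ X' Y) (hY.dle hI)
      (gen _ (Submodule.mkQ _) (Submodule.mkQ_surjective _)
        fun y => (Submodule.Quotient.mk_eq_zero _).2 ⟨y, rfl⟩)
    rwa [add_zero] at this
  obtain ⟨A, hA⟩ := exists_good_quot hI hQ h4 h3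
  refine ⟨((X' × Y) ⧸ R) ⧸ A, inferInstance, inferInstance, hA,
    A.mkQ ∘ₗ R.mkQ ∘ₗ LinearMap.inr _ X' Y, A.mkQ ∘ₗ R.mkQ ∘ₗ LinearMap.inl _ X' Y,
    hY.injective hI hA _ fun h0 => ?_, fun x => congrArg A.mkQ (key x)⟩
  have h5 := (gen _ A.mkQ A.mkQ_surjective fun y => LinearMap.congr_fun h0 y).ZZ_le
  rw [hA.2.1] at h5
  omega

end Crest.Agent.R181
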