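import Crest.Agent.R181.D3c
import Crest.Agent.R181.D4

/-! # Row 181, D3d: the Koszul cokernel. -/

set_option autoImplicit false

namespace Crest.Agent.R181

open Module MvPolynomial

variable {K : Type} [Field K] {n : ℕ} {E : Type} [DivisionRing E] [Algebra K E] {γ : CD1 K n}

/-- Multiplication of a standard monomial by a power of `u` or `v`. -/
noncomputable def koszulSh (γ : CD1 K n) (i : Fin 2) (m : ℕ) (μ : Std γ) : Std γ :=
  ⟨μ.1 + Finsupp.single (Sum.inl i) m, fun k => by simpa using μ.2 k⟩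

theorem koszulSh_injective (i : Fin 2) (m : ℕ) : Function.Injective (koszulSh γ i m) := by
  intro μ ν h
  exact Subtype.ext (add_right_cancel (congrArg Subtype.val h))

theorem koszulSh_comm (i i' : Fin 2) (m m' : ℕ) :
    koszulSh γ i m ∘ koszulSh γ i' m' = koszulSh γ i' m' ∘ koszulSh γ i m := by
  funext μ
  exact Subtype.ext (add_right_comm _ _ _)

omit [Algebra K E] in
theorem koszul_comb (m : ℕ) (a b : Std γ →₀ E)
    (h : Finsupp.mapDomain (koszulSh γ 1 m) a = Finsupp.mapDomain (koszulSh γ 0 1) b) :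
    ∃ c : Std γ →₀ E, Finsupp.mapDomain (koszulSh γ 0 1) c = a ∧
      Finsupp.mapDomain (koszulSh γ 1 m) c = b := by
  classical
  have hsub : (↑a.support : Set (Std γ)) ⊆ Set.range (koszulSh γ 0 1) := by
    intro μ hμ
    have h1 : Finsupp.mapDomain (koszulSh γ 1 m) a (koszulSh γ 1 m μ) ≠ 0 := by
      rw [Finsupp.mapDomain_apply (koszulSh_injective 1 m)]
      exact Finsupp.mem_support_iff.1 hμ
    rw [h] at h1
    have h2 : koszulSh γ 1 m μ ∈ Set.range (koszulSh γ 0 1) := by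
      by_contra h3
      exact h1 (Finsupp.mapDomain_of_notMem_range _ _ h3)
    obtain ⟨ν, hν⟩ := h2
    have h3 : ν.1 (Sum.inl 0) + 1 = μ.1 (Sum.inl 0) := by
      have := congrArg (fun x : Std γ => x.1 (Sum.inl 0)) hν
      simpa [koszulSh] using this
    refine ⟨⟨μ.1 - Finsupp.single (Sum.inl 0) 1, fun k => by simpa using μ.2 k⟩, ?_⟩
    refine Subtype.ext ?_
    change μ.1 - Finsupp.single (Sum.inl 0) 1 + Finsupp.single (Sum.inl 0) 1 = μ.1
    refine tsub_add_cancel_of_le ?_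
    rw [Finsupp.single_le_iff]
    omega
  refine ⟨_, Finsupp.mapDomain_comapDomain _ (koszulSh_injective 0 1) a hsub, ?_⟩
  refine Finsupp.mapDomain_injective (koszulSh_injective (γ := γ) 0 1) ?_
  rw [← h, ← Finsupp.mapDomain_comp, koszulSh_comm, Finsupp.mapDomain_comp,
    Finsupp.mapDomain_comapDomain _ (koszulSh_injective 0 1) a hsub]

/-- Coordinates. -/
noncomputable def OPre.koszulCo {j : ℤ} (O : OPre E γ j) : O.X ≃+ (Std γ →₀ E) :=
  (toRes E (PP K n)).trans O.B.repr.toAddEquiv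

theorem koszulCo_map {j j' : ℤ} (O : OPre E γ j) (O' : OPre E γ j')
    (φ : O.X →ₗ[TT E (PP K n)] O'.X) (i : Fin 2) (m : ℕ)
    (hφ : φ O.g = aT E (X (Sum.inl i) ^ m : PP K n) • O'.g) (x : O.X) :
    O'.koszulCo (φ x) = Finsupp.mapDomain (koszulSh γ i m) (O.koszulCo x) := by
  have h : O'.B.repr.toLinearMap ∘ₗ resMap φ =
      Finsupp.lmapDomain E E (koszulSh γ i m) ∘ₗ O.B.repr.toLinearMap := by
    refine O.B.ext fun μ => ?_
    simp only [LinearMap.comp_apply, LinearEquiv.coe_coe, Basis.repr_self,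
      Finsupp.lmapDomain_apply, Finsupp.mapDomain_single]
    rw [← O'.B.repr_self, O.hB, O'.hB, resMap_toRes, map_smul, hφ, ← O'.gm.mul]
    congr 4
    rw [X_pow_eq_monomial, monomial_mul, mul_one]
    rfl
  exact LinearMap.congr_fun h (toRes E (PP K n) x)

/-- The cokernel of `O(-s-1) → O(-s) ⊕ O`, `1 ↦ (u, v^{s+1})`, embeds in `O(1)` by
`(α, β) ↦ v^{s+1} α - u β` and has `Z = 0`; so all its quotients have `Z ≤ 0`.
(`O₃` is only used in the proof.) -/
theorem dle_koszul (hI : Int1 E γ) (s : ℕ) (O₀ : OPre E γ 0) (O₁ : OPre E γ s)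
    (O₂ : OPre E γ (s + 1)) (O₃ : OPre E γ (-1)) (f : O₂.X →ₗ[TT E (PP K n)] O₁.X × O₀.X)
    (hf : f O₂.g = (aT E (X (Sum.inl 0) : PP K n) • O₁.g,
      aT E (X (Sum.inl 1) ^ (s + 1) : PP K n) • O₀.g)) :
    DLe E γ ((O₁.X × O₀.X) ⧸ LinearMap.range f) 0 := by
  have hu : (X (Sum.inl 0) : PP K n) = X (Sum.inl 0) ^ 1 := (pow_one _).symm
  obtain ⟨κ₁, hκ₁⟩ := O₁.univ O₃.gm (aT E (X (Sum.inl 1) ^ (s + 1) : PP K n) • O₃.g) (by
    have h := O₃.gm.πT_aT (isHomogeneous_X_pow (R := K) (Sum.inl 1 : Var n) (s + 1)) (-1) O₃.g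
    rw [O₃.hg] at h
    have e : (-1 : ℤ) + ((s + 1 : ℕ) : ℤ) = s := by push_cast; ring
    rwa [e] at h)
  obtain ⟨κ₀, hκ₀⟩ := O₀.univ O₃.gm (aT E (X (Sum.inl 0) ^ 1 : PP K n) • O₃.g) (by
    have h := O₃.gm.πT_aT (isHomogeneous_X_pow (R := K) (Sum.inl 0 : Var n) 1) (-1) O₃.g
    rw [O₃.hg] at h
    have e : (-1 : ℤ) + ((1 : ℕ) : ℤ) = 0 := by norm_num
    rwa [e] at h)
  have c1 := koszulCo_map O₁ O₃ κ₁ 1 (s + 1) hκ₁
  have c0 := koszulCo_map O₀ O₃ κ₀ 0 1 hκ₀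
  have f1 : ∀ x, O₁.koszulCo (f x).1 = Finsupp.mapDomain (koszulSh γ 0 1) (O₂.koszulCo x) :=
    koszulCo_map O₂ O₁ (LinearMap.fst _ _ _ ∘ₗ f) 0 1 (by
      rw [LinearMap.comp_apply, hf, ← hu]; rfl)
  have f0 : ∀ x, O₀.koszulCo (f x).2 = Finsupp.mapDomain (koszulSh γ 1 (s + 1)) (O₂.koszulCo x) :=
    koszulCo_map O₂ O₀ (LinearMap.snd _ _ _ ∘ₗ f) 1 (s + 1) (by
      rw [LinearMap.comp_apply, hf]; rfl)
  set κ : (O₁.X × O₀.X) →ₗ[TT E (PP K n)] O₃.X := LinearMap.coprod κ₁ (-κ₀) with hκ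
  have hker : ∀ y : O₁.X × O₀.X, κ y = 0 ↔
      Finsupp.mapDomain (koszulSh γ 1 (s + 1)) (O₁.koszulCo y.1) =
        Finsupp.mapDomain (koszulSh γ 0 1) (O₀.koszulCo y.2) := by
    intro y
    rw [hκ, LinearMap.coprod_apply, LinearMap.neg_apply, ← sub_eq_add_neg, sub_eq_zero, ← c1, ← c0,
      O₃.koszulCo.injective.eq_iff]
  have hle : LinearMap.range f ≤ LinearMap.ker κ := by
    rintro _ ⟨x, rfl⟩
    rw [LinearMap.mem_ker, hker, f1, f0, ← Finsupp.mapDomain_comp, koszulSh_comm,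
      Finsupp.mapDomain_comp]
  have hge : LinearMap.ker κ ≤ LinearMap.range f := by
    intro y hy
    obtain ⟨c, h1, h2⟩ := koszul_comb _ _ _ ((hker y).1 hy)
    refine ⟨O₂.koszulCo.symm c, Prod.ext (O₁.koszulCo.injective ?_) (O₀.koszulCo.injective ?_)⟩
    · rw [f1, AddEquiv.apply_symm_apply, h1]
    · rw [f0, AddEquiv.apply_symm_apply, h2]
  have hinj : Function.Injective f := by
    intro x y h
    apply O₂.koszulCo.injective
    apply Finsupp.mapDomain_injective (koszulSh_injective (γ := γ) 0 1)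
    rw [← f1, ← f1, h]
  have hP : Adm E γ (O₁.X × O₀.X) := O₁.adm.prod O₀.adm
  have hZ : ZZ E γ ((O₁.X × O₀.X) ⧸ LinearMap.range f) = 0 := by
    rw [ZZ_quot hI hP, ZZ_prod hI O₁.adm O₀.adm, ← ZZ_congr (LinearEquiv.ofInjective f hinj),
      O₁.ZZ_eq, O₀.ZZ_eq, O₂.ZZ_eq]
    ring
  have hinj' : Function.Injective ((LinearMap.range f).liftQ κ hle) :=
    LinearMap.ker_eq_bot.1 (Submodule.ker_liftQ_eq_bot _ _ hle hge)
  have h := dle_of_nonneg hI (hP.quot (LinearMap.range f)) (fun A => by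
    rw [ZZ_congr (Submodule.equivMapOfInjective _ hinj' A)]
    by_cases hA : A.map ((LinearMap.range f).liftQ κ hle) = ⊥
    · rw [hA, ZZ_of_subsingleton]
    · have h1 := O₃.ZZ_quot_le hI hA
      rw [ZZ_quot hI O₃.adm, O₃.ZZ_eq] at h1
      linarith)
  rwa [hZ] at h

end Crest.Agent.R181
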