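import Crest.Agent.R181.D3b
import Crest.Agent.R181.D3c
import Crest.Agent.R181.D4

/-! # Row 181, D4U: existence of the generic module. -/

set_option autoImplicit false

namespace Crest.Agent.R181

open Module MvPolynomial

variable {K : Type} [Field K] {n : ℕ} {E : Type} [DivisionRing E] [Algebra K E] {γ : CD1 K n}

variable (E γ) in
/-- Pointed stable modules presented as quotients of finite free modules. -/
structure D4UIdx where
  k : ℕ
  N : Submodule (TT E (PP K n)) (Fin k → TT E (PP K n))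
  o : (Fin k → TT E (PP K n)) ⧸ N
  good : GoodM E γ ((Fin k → TT E (PP K n)) ⧸ N)
  ho : πT E (PP K n) 0 • o = o
  ne : o ≠ 0

/-- The underlying module of an index. -/
abbrev D4UIdx.M (i : D4UIdx E γ) : Type := (Fin i.k → TT E (PP K n)) ⧸ i.N

instance : Preorder (D4UIdx E γ) where
  le i j := ∃ f : i.M →ₗ[TT E (PP K n)] j.M, f i.o = j.o
  le_refl _ := ⟨LinearMap.id, rfl⟩
  le_trans _ _ _ := fun ⟨f, hf⟩ ⟨g, hg⟩ => ⟨g ∘ₗ f, by rw [LinearMap.comp_apply, hf, hg]⟩

theorem d4u_le_iff {i j : D4UIdx E γ} :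
    i ≤ j ↔ ∃ f : i.M →ₗ[TT E (PP K n)] j.M, f i.o = j.o := Iff.rfl

/-- The transition maps. -/
noncomputable def d4uMap (i j : D4UIdx E γ) (h : i ≤ j) : i.M →ₗ[TT E (PP K n)] j.M :=
  (d4u_le_iff.1 h).choose

theorem d4uMap_o (i j : D4UIdx E γ) (h : i ≤ j) : d4uMap i j h i.o = j.o :=
  (d4u_le_iff.1 h).choose_spec

theorem d4u_uniq (hI : Int1 E γ) {Y Y' : Type} [AddCommGroup Y] [Module (TT E (PP K n)) Y]
    [AddCommGroup Y'] [Module (TT E (PP K n)) Y'] (h : GoodM E γ Y) (h' : GoodM E γ Y')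
    {f g : Y →ₗ[TT E (PP K n)] Y'} {y : Y} (hy : y ≠ 0) (hfg : f y = g y) : f = g := by
  by_contra hne
  have hinj := h.injective hI h' (f - g) (sub_ne_zero.2 hne)
  apply hy
  apply hinj
  rw [LinearMap.sub_apply, hfg, sub_self, map_zero]

theorem d4uMap_inj (hI : Int1 E γ) (i j : D4UIdx E γ) (h : i ≤ j) :
    Function.Injective (d4uMap i j h) := by
  refine i.good.injective hI j.good _ fun h0 => j.ne ?_
  rw [← d4uMap_o i j h, h0, LinearMap.zero_apply]

theorem d4u_sys (hI : Int1 E γ) :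
    DirectedSystem (fun i : D4UIdx E γ => i.M) (fun i j h => d4uMap i j h) where
  map_self i x := by
    have : d4uMap i i le_rfl = LinearMap.id := d4u_uniq hI i.good i.good i.ne (d4uMap_o i i _)
    rw [this]; rfl
  map_map k j i hij hjk x := by
    have : d4uMap j k hjk ∘ₗ d4uMap i j hij = d4uMap i k (hij.trans hjk) :=
      d4u_uniq hI i.good k.good i.ne (by
        rw [LinearMap.comp_apply, d4uMap_o, d4uMap_o, d4uMap_o])
    rw [← this]; rfl

theorem d4u_idx {Y : Type} [AddCommGroup Y] [Module (TT E (PP K n)) Y] (h : GoodM E γ Y) (y : Y)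
    (hy : πT E (PP K n) 0 • y = y) (hne : y ≠ 0) :
    ∃ (i : D4UIdx E γ) (e : Y ≃ₗ[TT E (PP K n)] i.M), e y = i.o := by
  have := h.1.2
  obtain ⟨k, p, hp⟩ := Module.Finite.exists_fin' (TT E (PP K n)) Y
  let e := (p.quotKerEquivOfSurjective hp).symm
  refine ⟨⟨k, LinearMap.ker p, e y, h.congr e, ?_, ?_⟩, e, rfl⟩
  · rw [← map_smul, hy]
  · exact fun h0 => hne (e.injective (h0.trans (map_zero e).symm))

theorem d4u_directed (hI : Int1 E γ) : IsDirectedOrder (D4UIdx E γ) := by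
  refine ⟨fun i j => ?_⟩
  let O := OO E γ 0
  obtain ⟨f, hf⟩ := O.univ i.good.1.1 i.o i.ho
  obtain ⟨φ, hφ⟩ := O.univ j.good.1.1 j.o j.ho
  have h1 : DLe E γ O.X (ZZ E γ i.M) := by
    rw [i.good.2.1]
    simpa using O.dle hI (by norm_num)
  have h2 : DLe E γ (i.M ⧸ LinearMap.range f) 0 := by
    refine i.good.dle_quot hI fun h0 => i.ne ?_
    have : i.o ∈ LinearMap.range f := ⟨O.g, hf⟩
    rwa [h0, Submodule.mem_bot] at this
  obtain ⟨Q, _, _, hQ, ι, ψ, hι, hψ⟩ := amalg hI i.good.1 j.good f φ h1 h2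
  have hq : ψ i.o = ι j.o := by rw [← hf, hψ, hφ]
  obtain ⟨k, e, he⟩ := d4u_idx hQ (ι j.o) (by rw [← map_smul, j.ho])
    fun h0 => j.ne (hι (h0.trans (map_zero ι).symm))
  exact ⟨k, ⟨e.toLinearMap ∘ₗ ψ, by rw [LinearMap.comp_apply, hq]; exact he⟩,
    ⟨e.toLinearMap ∘ₗ ι, he⟩⟩

open Classical in
variable (E γ) in
/-- The direct limit. -/
def D4UU : Type := Module.DirectLimit (fun i : D4UIdx E γ => i.M) d4uMap

open Classical in
noncomputable instance : AddCommGroup (D4UU E γ) :=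
  Module.DirectLimit.addCommGroup (fun i : D4UIdx E γ => i.M) d4uMap

open Classical in
noncomputable instance : Module (TT E (PP K n)) (D4UU E γ) :=
  Module.DirectLimit.module (fun i : D4UIdx E γ => i.M) d4uMap

open Classical in
/-- The canonical maps. -/
noncomputable def d4uOf (i : D4UIdx E γ) : i.M →ₗ[TT E (PP K n)] D4UU E γ :=
  Module.DirectLimit.of (TT E (PP K n)) (D4UIdx E γ) (fun i : D4UIdx E γ => i.M) d4uMap i

/-- `Module.DirectLimit` over the preorder of pointed stable modules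
`((Fin k → TT) ⧸ N, o)`, `i ≤ j` iff there is a (unique, injective) linear map `o_i ↦ o_j`. -/
theorem exists_UM (hI : Int1 E γ) : Nonempty (UM E γ) := by
  classical
  have hsys := d4u_sys hI
  have hdir := d4u_directed hI
  obtain ⟨i₀, -, -⟩ := d4u_idx ((OO E γ 0).good hI) (OO E γ 0).g (OO E γ 0).hg (OO E γ 0).g_ne
  have hne : Nonempty (D4UIdx E γ) := ⟨i₀⟩
  let U := D4UU E γ
  let ι : ∀ i : D4UIdx E γ, i.M →ₗ[TT E (PP K n)] U := d4uOf
  have hι : ∀ i, Function.Injective (ι i) := fun i => by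
    refine (injective_iff_map_eq_zero _).2 fun x hx => ?_
    obtain ⟨j, hij, hj⟩ := Module.DirectLimit.of.zero_exact hx
    exact d4uMap_inj hI i j hij (hj.trans (map_zero _).symm)
  have hf : ∀ i j (h : i ≤ j) x, ι j (d4uMap i j h x) = ι i x := fun i j h x =>
    Module.DirectLimit.of_f
  have hex : ∀ z : U, ∃ i x, ι i x = z := fun z => Module.DirectLimit.exists_of z
  have ho : ∀ i, ι i i.o = ι i₀ i₀.o := fun i => by
    obtain ⟨k, h1, h2⟩ := exists_ge_ge i i₀
    rw [← hf i k h1, ← hf i₀ k h2, d4uMap_o, d4uMap_o]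
  have hgood : ∀ i, GoodM E γ (LinearMap.range (ι i)) := fun i =>
    i.good.congr (LinearEquiv.ofInjective (ι i) (hι i))
  refine ⟨{ X := U, gm := IsGM.of_cover fun z => ?_, o := ι i₀ i₀.o, ho := ?_, o_ne := ?_,
            loc := fun S => ?_, emb := fun Y _ _ hY y hy hne => ?_ }⟩
  · obtain ⟨i, x, rfl⟩ := hex z
    exact ⟨LinearMap.range (ι i), (hgood i).1.1, x, rfl⟩
  · rw [← map_smul, i₀.ho]
  · exact fun h0 => i₀.ne (hι i₀ (h0.trans (map_zero _).symm))
  · have : ∃ i, ∀ x ∈ S, x ∈ LinearMap.range (ι i) := by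
      induction S using Finset.induction_on with
      | empty => exact ⟨i₀, by simp⟩
      | insert z S _ ih =>
        obtain ⟨i, hi⟩ := ih
        obtain ⟨j, x, rfl⟩ := hex z
        obtain ⟨k, h1, h2⟩ := exists_ge_ge i j
        refine ⟨k, fun w hw => ?_⟩
        rcases Finset.mem_insert.1 hw with rfl | hw
        · exact ⟨_, hf j k h2 x⟩
        · obtain ⟨x', rfl⟩ := hi w hw
          exact ⟨_, hf i k h1 x'⟩
    obtain ⟨i, hi⟩ := this
    exact ⟨LinearMap.range (ι i), hgood i, ⟨i.o, ho i⟩, hi⟩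
  · obtain ⟨i, e, he⟩ := d4u_idx hY y hy hne
    exact ⟨ι i ∘ₗ e.toLinearMap, by
      rw [LinearMap.comp_apply, LinearEquiv.coe_coe, he, ho]⟩

end Crest.Agent.R181
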