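import Crest.Agent.R181.D3b
import Crest.Agent.R181.D3d

/-! # Row 181, D5a: properties of the generic module. -/

set_option autoImplicit false

namespace Crest.Agent.R181

open Module MvPolynomial

variable {K : Type} [Field K] {n : ℕ} {E : Type} [DivisionRing E] [Algebra K E] {γ : CD1 K n}
  {X X' : Type} [AddCommGroup X] [Module (TT E (PP K n)) X]
  [AddCommGroup X'] [Module (TT E (PP K n)) X']

theorem UM.exists_good_range (U : UM E γ) [Module.Finite (TT E (PP K n)) X]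
    (φ : X →ₗ[TT E (PP K n)] U.X) :
    ∃ Y : Submodule (TT E (PP K n)) U.X, GoodM E γ Y ∧ U.o ∈ Y ∧ ∀ x, φ x ∈ Y := by
  classical
  obtain ⟨S, hS⟩ := Module.Finite.fg_top (R := TT E (PP K n)) (M := X)
  obtain ⟨Y, hY, ho, hS'⟩ := U.loc (S.image φ)
  refine ⟨Y, hY, ho, fun x => ?_⟩
  have : Submodule.span (TT E (PP K n)) (S : Set X) ≤ Y.comap φ :=
    Submodule.span_le.2 fun s hs => hS' _ (Finset.mem_image_of_mem φ hs)
  rw [hS] at this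
  exact this Submodule.mem_top

theorem UM.eq_zero_of_dle (U : UM E γ) (hX : Adm E γ X) (h : DLe E γ X 0)
    (φ : X →ₗ[TT E (PP K n)] U.X) : φ = 0 := by
  have := hX.2
  obtain ⟨Y, hY, -, hφ⟩ := U.exists_good_range φ
  have h0 := hY.eq_zero_of_dle h (φ.codRestrict Y hφ)
  ext x
  exact congrArg Subtype.val (LinearMap.congr_fun h0 x)

theorem UM.injective_of_good (hI : Int1 E γ) (U : UM E γ) (hX : GoodM E γ X)
    (φ : X →ₗ[TT E (PP K n)] U.X) (h : φ ≠ 0) : Function.Injective φ := by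
  have := hX.1.2
  obtain ⟨Y, hY, -, hφ⟩ := U.exists_good_range φ
  have h0 : φ.codRestrict Y hφ ≠ 0 := fun h0 => h (by
    ext x
    exact congrArg Subtype.val (LinearMap.congr_fun h0 x))
  have h1 := hX.injective hI hY _ h0
  intro a b hab
  exact h1 (Subtype.ext hab)

theorem UM.d5a_eq_zero (hI : Int1 E γ) (U : UM E γ) (hX : GoodM E γ X)
    (φ : X →ₗ[TT E (PP K n)] U.X) {x : X} (hx : x ≠ 0) (h : φ x = 0) : φ = 0 := by
  by_contra hne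
  exact hx (U.injective_of_good hI hX φ hne (h.trans φ.map_zero.symm))

/-- Extension along maps that become invertible. -/
theorem UM.extend (hI : Int1 E γ) (U : UM E γ) (hX : Adm E γ X) (hX' : Adm E γ X')
    (f : X →ₗ[TT E (PP K n)] X') (h1 : DLe E γ X (ZZ E γ X'))
    (h2 : DLe E γ (X' ⧸ LinearMap.range f) 0) (φ : X →ₗ[TT E (PP K n)] U.X) :
    ∃ ψ : X' →ₗ[TT E (PP K n)] U.X, ∀ x, ψ (f x) = φ x := by
  have := hX.2
  obtain ⟨Y, hY, ho, hφ⟩ := U.exists_good_range φ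
  obtain ⟨Q, _, _, hQ, i, ψ, hi, hψ⟩ := amalg hI hX' hY f (φ.codRestrict Y hφ) h1 h2
  have ho0 : (⟨U.o, ho⟩ : Y) ≠ 0 := fun h => U.o_ne (congrArg Subtype.val h)
  have ho1 : πT E (PP K n) 0 • (⟨U.o, ho⟩ : Y) = ⟨U.o, ho⟩ := Subtype.ext U.ho
  obtain ⟨j, hj⟩ := U.emb Q hQ (i ⟨U.o, ho⟩) (by rw [← i.map_smul, ho1])
    (fun h => ho0 (hi (h.trans i.map_zero.symm)))
  have h0 : j ∘ₗ i - Y.subtype = 0 :=
    U.d5a_eq_zero hI hY _ ho0 (by simp [hj])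
  refine ⟨j ∘ₗ ψ, fun x => ?_⟩
  have h3 := LinearMap.congr_fun h0 (φ.codRestrict Y hφ x)
  rw [LinearMap.sub_apply, LinearMap.zero_apply, sub_eq_zero] at h3
  rw [LinearMap.comp_apply, hψ]
  exact h3

theorem UM.end_eq_zero (hI : Int1 E γ) (U : UM E γ) (φ : Module.End (TT E (PP K n)) U.X)
    {y : U.X} (hy : y ≠ 0) (h : φ y = 0) : φ = 0 := by
  classical
  ext u
  obtain ⟨Y, hY, -, hS⟩ := U.loc {y, u}
  have hy' : y ∈ Y := hS y (by simp)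
  have hu' : u ∈ Y := hS u (by simp)
  have h0 : φ ∘ₗ Y.subtype = 0 :=
    U.d5a_eq_zero hI hY _ (x := ⟨y, hy'⟩) (fun h => hy (congrArg Subtype.val h)) h
  exact LinearMap.congr_fun h0 ⟨u, hu'⟩

theorem UM.exists_end (hI : Int1 E γ) (U : UM E γ) {y z : U.X} (hy0 : y ≠ 0)
    (hy : πT E (PP K n) 0 • y = y) (hz : πT E (PP K n) 0 • z = z) :
    ∃ φ : Module.End (TT E (PP K n)) U.X, φ y = z := by
  classical
  have hex : ∀ (Y : Submodule (TT E (PP K n)) U.X), GoodM E γ Y → ∀ hyY : y ∈ Y,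
      ∃ f : Y →ₗ[TT E (PP K n)] U.X, f ⟨y, hyY⟩ = z := by
    intro Y hY hyY
    obtain ⟨f, hf⟩ := (OO E γ 0).univ hY.1.1 (⟨y, hyY⟩ : Y) (Subtype.ext hy)
    obtain ⟨φ, hφ⟩ := (OO E γ 0).univ U.gm z hz
    have h1 : DLe E γ (OO E γ 0).X (ZZ E γ Y) := by
      rw [hY.2.1]
      exact ((OO E γ 0).good hI).dle hI
    have h2 : LinearMap.range f ≠ ⊥ := by
      intro h
      have : (⟨y, hyY⟩ : Y) ∈ LinearMap.range f := ⟨_, hf⟩
      rw [h, Submodule.mem_bot] at this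
      exact hy0 (congrArg Subtype.val this)
    obtain ⟨ψ, hψ⟩ := U.extend hI (OO E γ 0).adm hY.1 f h1 (hY.dle_quot hI h2) φ
    exact ⟨ψ, by rw [← hf, hψ, hφ]⟩
  choose F hF using hex
  have hle : ∀ (Y Y' : Submodule (TT E (PP K n)) U.X) (hY : GoodM E γ Y) (hY' : GoodM E γ Y')
      (hyY : y ∈ Y) (h : Y ≤ Y') (u : U.X) (hu : u ∈ Y),
      F Y hY hyY ⟨u, hu⟩ = F Y' hY' (h hyY) ⟨u, h hu⟩ := by
    intro Y Y' hY hY' hyY h u hu
    have h0 : F Y hY hyY - F Y' hY' (h hyY) ∘ₗ Submodule.inclusion h = 0 := by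
      refine U.d5a_eq_zero hI hY _ (x := ⟨y, hyY⟩) (fun h => hy0 (congrArg Subtype.val h)) ?_
      rw [LinearMap.sub_apply, sub_eq_zero, hF]
      exact (hF Y' hY' (h hyY)).symm
    have h3 := LinearMap.congr_fun h0 ⟨u, hu⟩
    rw [LinearMap.sub_apply, LinearMap.zero_apply, sub_eq_zero] at h3
    exact h3
  have hcomp : ∀ (Y Y' : Submodule (TT E (PP K n)) U.X) (hY : GoodM E γ Y) (hY' : GoodM E γ Y')
      (hyY : y ∈ Y) (hyY' : y ∈ Y') (u : U.X) (hu : u ∈ Y) (hu' : u ∈ Y'),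
      F Y hY hyY ⟨u, hu⟩ = F Y' hY' hyY' ⟨u, hu'⟩ := by
    intro Y Y' hY hY' hyY hyY' u hu hu'
    have := hY.1.2
    have := hY'.1.2
    obtain ⟨Z, hZ, -, hφ⟩ := U.exists_good_range (Y.subtype.coprod Y'.subtype)
    have h1 : Y ≤ Z := fun x hx => by simpa using hφ (⟨x, hx⟩, 0)
    have h2 : Y' ≤ Z := fun x hx => by simpa using hφ (0, ⟨x, hx⟩)
    rw [hle Y Z hY hZ hyY h1 u hu, hle Y' Z hY' hZ hyY' h2 u hu']
  have hloc : ∀ u : U.X, ∃ Y : Submodule (TT E (PP K n)) U.X, GoodM E γ Y ∧ y ∈ Y ∧ u ∈ Y := by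
    intro u
    obtain ⟨Y, hY, -, hS⟩ := U.loc {y, u}
    exact ⟨Y, hY, hS y (by simp), hS u (by simp)⟩
  choose Y hY hyY huY using hloc
  refine ⟨⟨⟨fun u => F (Y u) (hY u) (hyY u) ⟨u, huY u⟩, fun u v => ?_⟩, fun r u => ?_⟩, ?_⟩
  · obtain ⟨Z, hZ, -, hS⟩ := U.loc {y, u, v}
    have hy' : y ∈ Z := hS y (by simp)
    have hu' : u ∈ Z := hS u (by simp)
    have hv' : v ∈ Z := hS v (by simp)
    rw [hcomp _ Z _ hZ _ hy' (u + v) _ (Z.add_mem hu' hv'), hcomp _ Z _ hZ _ hy' u _ hu',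
      hcomp _ Z _ hZ _ hy' v _ hv', ← map_add]
    rfl
  · simp only [RingHom.id_apply]
    rw [hcomp _ (Y u) _ (hY u) _ (hyY u) (r • u) _ ((Y u).smul_mem r (huY u)), ← map_smul]
    rfl
  · exact hF _ _ _

theorem UM.isUnit_or_eq_zero (hI : Int1 E γ) (U : UM E γ)
    (φ : Module.End (TT E (PP K n)) U.X) : IsUnit φ ∨ φ = 0 := by
  by_cases h : φ = 0
  · exact Or.inr h
  left
  have h1 : φ U.o ≠ 0 := fun h1 => h (U.end_eq_zero hI φ U.o_ne h1)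
  obtain ⟨ψ, hψ⟩ := U.exists_end hI h1 (by rw [← map_smul, U.ho]) U.ho
  have h2 : ψ * φ - 1 = 0 := U.end_eq_zero hI _ U.o_ne (by simp [hψ])
  have h3 : φ * ψ - 1 = 0 := U.end_eq_zero hI _ h1 (by simp [hψ])
  exact ⟨⟨φ, ψ, sub_eq_zero.1 h3, sub_eq_zero.1 h2⟩, rfl⟩

theorem d5a_koszul (s : ℕ) (O₀ : OPre E γ 0) (O₁ : OPre E γ s) (O₂ : OPre E γ (s + 1)) :
    ∃ f : O₂.X →ₗ[TT E (PP K n)] O₁.X × O₀.X,
      f O₂.g = (aT E (MvPolynomial.X (Sum.inl 0) : PP K n) • O₁.g,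
        aT E (MvPolynomial.X (Sum.inl 1) ^ (s + 1) : PP K n) • O₀.g) := by
  refine O₂.univ (O₁.gm.prod O₀.gm) _ (Prod.ext ?_ ?_)
  · change πT E (PP K n) (s + 1) • aT E (MvPolynomial.X (Sum.inl 0) : PP K n) • O₁.g = _
    rw [O₁.gm.px, O₁.hg]
  · change πT E (PP K n) (s + 1) •
      aT E (MvPolynomial.X (Sum.inl 1) ^ (s + 1) : PP K n) • O₀.g = _
    have hp : (MvPolynomial.X (Sum.inl 1) ^ (s + 1) : PP K n).IsHomogeneous (s + 1) := by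
      simpa using (isHomogeneous_X K (Sum.inl 1 : Var n)).pow (s + 1)
    have := O₀.gm.πT_aT hp 0 O₀.g
    rw [O₀.hg, zero_add] at this
    exact_mod_cast this

/-- `U_1 = u U_0 + v U_0`. -/
theorem UM.exists_uv (hI : Int1 E γ) (U : UM E γ) {z : U.X} (hz : πT E (PP K n) 1 • z = z) :
    ∃ z₀ z₁ : U.X, πT E (PP K n) 0 • z₀ = z₀ ∧ πT E (PP K n) 0 • z₁ = z₁ ∧
      z = aT E (MvPolynomial.X (Sum.inl 0) : PP K n) • z₀ +
        aT E (MvPolynomial.X (Sum.inl 1) : PP K n) • z₁ := by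
  obtain ⟨f, hf⟩ := d5a_koszul 0 (OO E γ 0) (OO E γ (0 : ℕ)) (OO E γ ((0 : ℕ) + 1))
  have h2 := dle_koszul hI 0 (OO E γ 0) (OO E γ (0 : ℕ)) (OO E γ ((0 : ℕ) + 1)) (OO E γ (-1)) f hf
  obtain ⟨φ, hφ⟩ := (OO E γ ((0 : ℕ) + 1)).univ U.gm z (by simpa using hz)
  have h1 : DLe E γ (OO E γ ((0 : ℕ) + 1)).X
      (ZZ E γ ((OO E γ (0 : ℕ)).X × (OO E γ 0).X)) := by
    rw [ZZ_prod hI (OPre.adm _) (OPre.adm _), OPre.ZZ_eq, OPre.ZZ_eq]
    exact (OO E γ ((0 : ℕ) + 1)).dle hI (by norm_num)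
  obtain ⟨ψ, hψ⟩ := U.extend hI (OPre.adm _) ((OPre.adm _).prod (OPre.adm _)) f h1 h2 φ
  refine ⟨ψ ((OO E γ (0 : ℕ)).g, 0), ψ (0, (OO E γ 0).g), ?_, ?_, ?_⟩
  · rw [← map_smul, Prod.smul_mk, smul_zero]
    exact congrArg (fun x => ψ (x, 0)) (OO E γ (0 : ℕ)).hg
  · rw [← map_smul, Prod.smul_mk, smul_zero, (OO E γ 0).hg]
  · rw [← hφ, ← hψ, hf, ← map_smul, ← map_smul, ← map_add]
    simp

/-- `u U_s ∩ v^{s+1} U_0 = 0` and both multiplications are injective. -/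
theorem UM.uv_indep (hI : Int1 E γ) (U : UM E γ) (s : ℕ) {z₀ z₁ : U.X}
    (h₀ : πT E (PP K n) s • z₀ = z₀) (h₁ : πT E (PP K n) 0 • z₁ = z₁)
    (h : aT E (MvPolynomial.X (Sum.inl 0) : PP K n) • z₀ +
      aT E (MvPolynomial.X (Sum.inl 1) ^ (s + 1) : PP K n) • z₁ = 0) : z₀ = 0 ∧ z₁ = 0 := by
  obtain ⟨f, hf⟩ := d5a_koszul s (OO E γ 0) (OO E γ s) (OO E γ (s + 1))
  have h2 := dle_koszul hI s (OO E γ 0) (OO E γ s) (OO E γ (s + 1)) (OO E γ (-1)) f hf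
  obtain ⟨φ₁, hφ₁⟩ := (OO E γ s).univ U.gm z₀ h₀
  obtain ⟨φ₀, hφ₀⟩ := (OO E γ 0).univ U.gm z₁ h₁
  have h3 : φ₁.coprod φ₀ ∘ₗ f = 0 := by
    refine LinearMap.ext_on (OO E γ (s + 1)).span_g fun x hx => ?_
    rw [Set.mem_singleton_iff.1 hx, LinearMap.comp_apply, hf, LinearMap.coprod_apply, map_smul,
      map_smul, hφ₁, hφ₀]
    exact h
  have h4 : LinearMap.range f ≤ LinearMap.ker (φ₁.coprod φ₀) := LinearMap.range_le_ker_iff.2 h3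
  have h5 := U.eq_zero_of_dle (((OPre.adm _).prod (OPre.adm _)).quot _) h2
    ((LinearMap.range f).liftQ (φ₁.coprod φ₀) h4)
  have h6 : ∀ x, φ₁.coprod φ₀ x = 0 := fun x => LinearMap.congr_fun h5 (Submodule.Quotient.mk x)
  constructor
  · simpa [hφ₁] using h6 ((OO E γ s).g, 0)
  · simpa [hφ₀] using h6 (0, (OO E γ 0).g)

end Crest.Agent.R181
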