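import Crest.Agent.R181.D5a

/-! # Row 181, D5b: the new division ring and the linear forms. -/

set_option autoImplicit false

namespace Crest.Agent.R181

open Module MvPolynomial

variable {K : Type} [Field K] {n : ℕ} {E : Type} [DivisionRing E] [Algebra K E] {γ : CD1 K n}

/-- The monomial `u ^ a * v ^ b`. -/
noncomputable def d5bMon (K : Type) [Field K] (n : ℕ) (a b : ℕ) : PP K n :=
  X (Sum.inl 0) ^ a * X (Sum.inl 1) ^ b

theorem d5b_isHom (a b : ℕ) : (d5bMon K n a b).IsHomogeneous (a + b) :=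
  (isHomogeneous_X_pow _ _).mul (isHomogeneous_X_pow _ _)

theorem d5b_sT_mul (P : Type) (a b : E) : sT P (a * b) = sT P a * sT P b :=
  (MonoidAlgebra.singleOneRingHom : E →+* TT E P).map_mul a b

theorem d5b_sT_add (P : Type) (a b : E) : sT P (a + b) = sT P a + sT P b :=
  (MonoidAlgebra.singleOneRingHom : E →+* TT E P).map_add a b

theorem d5b_indep (hI : Int1 E γ) (U : UM E γ) (t : ℕ) : ∀ z : ℕ → U.X,
    (∀ j, πT E (PP K n) 0 • z j = z j) →
    ∑ j ∈ Finset.range (t + 1), aT E (d5bMon K n j (t - j)) • z j = 0 → ∀ j ≤ t, z j = 0 := by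
  induction t with
  | zero =>
    intro z _ h j hj
    obtain rfl : j = 0 := by omega
    simpa [d5bMon, U.gm.aT_one] using h
  | succ t ih =>
    intro z hz h j hj
    rw [Finset.sum_range_succ'] at h
    have e1 : ∑ i ∈ Finset.range (t + 1), aT E (d5bMon K n (i + 1) (t + 1 - (i + 1))) • z (i + 1) =
        aT E (X (Sum.inl 0) : PP K n) •
          ∑ i ∈ Finset.range (t + 1), aT E (d5bMon K n i (t - i)) • z (i + 1) := by
      rw [Finset.smul_sum]
      refine Finset.sum_congr rfl fun i _ => ?_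
      rw [← U.gm.mul, Nat.add_sub_add_right, d5bMon, d5bMon, pow_succ', mul_assoc]
    have e2 : d5bMon K n 0 (t + 1 - 0) = X (Sum.inl 1) ^ (t + 1) := by simp [d5bMon]
    rw [e1, e2] at h
    obtain ⟨h1, h2⟩ := U.uv_indep hI t (by
      rw [Finset.smul_sum]
      refine Finset.sum_congr rfl fun i hi => ?_
      have h3 := U.gm.πT_aT (d5b_isHom (K := K) (n := n) i (t - i)) 0 (z (i + 1))
      rwa [hz, zero_add, Nat.add_sub_cancel' (by simpa [Nat.lt_succ_iff] using hi)] at h3) (hz 0) h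
    rcases j with _ | j
    · exact h2
    · exact ih (fun i => z (i + 1)) (fun i => hz _) h1 j (by omega)

theorem d5b_core (hI : Int1 E γ) (U : UM E γ) {E' : Type} [Ring E'] [Algebra K E']
    (r : E'ᵐᵒᵖ →+* Module.End (TT E (PP K n)) U.X) (hr : Function.Bijective r)
    (hk : ∀ (k : K) (x : U.X),
      r (MulOpposite.op (algebraMap K E' k)) x = sT (PP K n) (algebraMap K E k) • x) :
    ∃ (ι : E →ₐ[K] E') (θ : Fin n → Fin 2 → E'),
      (∀ e k i, Commute (ι e) (θ k i)) ∧ Sat γ θ := by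
  -- evaluation at the base point
  obtain ⟨ev, hev⟩ : ∃ ev : E' →+ U.X, ∀ e, ev e = r (MulOpposite.op e) U.o :=
    ⟨⟨⟨fun e => r (MulOpposite.op e) U.o, by simp⟩, fun a b => by simp⟩, fun _ => rfl⟩
  have ev_mul : ∀ a b, ev (a * b) = r (MulOpposite.op b) (ev a) := fun a b => by
    rw [hev, hev, MulOpposite.op_mul, map_mul, Module.End.mul_apply]
  have ev_one : ev 1 = U.o := by simp [hev]
  have ev_inj : Function.Injective ev := (injective_iff_map_eq_zero ev).2 fun a ha => by
    rw [hev] at ha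
    have h1 := U.end_eq_zero hI _ U.o_ne ha
    exact MulOpposite.op_injective (hr.1 (h1.trans (map_zero r).symm))
  have ev_deg : ∀ e, πT E (PP K n) 0 • ev e = ev e := fun e => by
    rw [hev, ← map_smul, U.ho]
  have ev_surj : ∀ z, πT E (PP K n) 0 • z = z → ∃ e, ev e = z := fun z hz => by
    obtain ⟨φ, hφ⟩ := U.exists_end hI U.o_ne U.ho hz
    obtain ⟨a, rfl⟩ := hr.2 φ
    exact ⟨a.unop, by rw [hev, MulOpposite.op_unop, hφ]⟩
  -- the embedding
  choose ι₀ hι₀ using fun e : E => ev_surj (sT (PP K n) e • U.o) (by rw [← sT_πT, U.ho])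
  obtain ⟨ι, hι⟩ : ∃ ι : E →ₐ[K] E', ∀ e, ev (ι e) = sT (PP K n) e • U.o := by
    refine ⟨⟨⟨⟨⟨ι₀, ev_inj ?_⟩, fun a b => ev_inj ?_⟩, ev_inj ?_, fun a b => ev_inj ?_⟩,
      fun k => ev_inj ?_⟩, hι₀⟩
    · rw [hι₀, ev_one]
      exact one_smul _ _
    · change ev (ι₀ (a * b)) = ev (ι₀ a * ι₀ b)
      rw [ev_mul, hι₀, hι₀, map_smul, ← hev, hι₀, d5b_sT_mul, mul_smul]
    · simp [hι₀, sT]
    · simp only [map_add, hι₀, d5b_sT_add, add_smul]
    · simp only [hι₀]
      rw [hev, hk]
  -- the linear forms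
  have hθ : ∀ k : Fin n, ∃ θ : Fin 2 → E', aT E (X (Sum.inr k) : PP K n) • U.o =
      ∑ i, aT E (X (Sum.inl i) : PP K n) • ev (θ i) := fun k => by
    obtain ⟨z₀, z₁, h₀, h₁, h⟩ := U.exists_uv hI (z := aT E (X (Sum.inr k) : PP K n) • U.o) (by
      have := U.gm.px (Sum.inr k) 0 U.o
      rwa [zero_add, U.ho] at this)
    obtain ⟨a, rfl⟩ := ev_surj z₀ h₀
    obtain ⟨b, rfl⟩ := ev_surj z₁ h₁
    exact ⟨![a, b], by rw [h, Fin.sum_univ_two]; rfl⟩
  choose θ hθ using hθ
  -- the map `Ψ`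
  obtain ⟨Ψ, hΨ⟩ : ∃ Ψ : PR E' (Fin 2) →+ U.X, ∀ μ e, Ψ (AddMonoidAlgebra.single μ e) =
      aT E (d5bMon K n (μ 0) (μ 1)) • ev e :=
    ⟨(Finsupp.liftAddHom fun μ : Fin 2 →₀ ℕ =>
        (DistribSMul.toAddMonoidHom U.X (aT E (d5bMon K n (μ 0) (μ 1)))).comp ev).comp
      AddMonoidAlgebra.coeffAddEquiv.toAddMonoidHom, fun μ e => by simp⟩
  have Ψ_cst : ∀ e, Ψ (cst (Fin 2) e) = ev e := fun e => by
    rw [cst, hΨ]
    simp [d5bMon, U.gm.aT_one]
  have Ψ_single : ∀ (i : Fin 2) e, Ψ (AddMonoidAlgebra.single (Finsupp.single i 1) e) =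
      aT E (X (Sum.inl i) : PP K n) • ev e := fun i e => by
    rw [hΨ]
    fin_cases i <;> simp [d5bMon]
  have Ψ_mul : ∀ p μ e, Ψ (p * AddMonoidAlgebra.single μ e) =
      aT E (d5bMon K n (μ 0) (μ 1)) • r (MulOpposite.op e) (Ψ p) := fun p μ e => by
    induction p using AddMonoidAlgebra.induction_linear with
    | zero => simp
    | add p q hp hq => rw [add_mul, map_add, hp, hq, map_add, map_add, smul_add]
    | single ν e' =>
      rw [AddMonoidAlgebra.single_mul_single, hΨ, hΨ, map_smul, ev_mul, ← U.gm.mul]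
      congr 2
      simp only [d5bMon, Finsupp.add_apply]
      ring
  have Ψ_comm : ∀ (T : TT E (PP K n)) (a : PR E' (Fin 2)),
      (∀ (p : PP K n) (x : U.X), T • aT E p • x = aT E p • T • x) → Ψ a = T • U.o →
      ∀ q, Ψ (a * q) = T • Ψ q := fun T a hT ha q => by
    induction q using AddMonoidAlgebra.induction_linear with
    | zero => simp
    | add p q hp hq => rw [mul_add, map_add, hp, hq, map_add, smul_add]
    | single μ e => rw [Ψ_mul, ha, map_smul, ← hev, hΨ, hT]
  have aT_comm : ∀ (p q : PP K n) (x : U.X), aT E p • aT E q • x = aT E q • aT E p • x :=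
    fun p q x => by rw [← U.gm.mul, ← U.gm.mul, mul_comm]
  have Ψ_deg : ∀ (t : ℕ) (p : PR E' (Fin 2)), πT E (PP K n) t • Ψ p =
      ∑ j ∈ Finset.range (t + 1), aT E (d5bMon K n j (t - j)) •
        ev (p.coeff (Finsupp.single 0 j + Finsupp.single 1 (t - j))) := fun t p => by
    induction p using AddMonoidAlgebra.induction_linear with
    | zero => simp
    | add p q hp hq =>
      rw [map_add, smul_add, hp, hq, ← Finset.sum_add_distrib]
      refine Finset.sum_congr rfl fun j _ => ?_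
      rw [AddMonoidAlgebra.coeff_add, Finsupp.add_apply, map_add ev, smul_add]
    | single μ e =>
      have h1 := U.gm.πT_aT (d5b_isHom (K := K) (n := n) (μ 0) (μ 1)) 0 (ev e)
      rw [ev_deg, zero_add] at h1
      rw [hΨ, ← h1, U.gm.pp, AddMonoidAlgebra.coeff_single]
      have h2 : ∀ j, j ≤ t → (μ 0 ≠ j ∨ t ≠ μ 0 + μ 1) → aT E (d5bMon K n j (t - j)) •
          ev (Finsupp.single μ e (Finsupp.single 0 j + Finsupp.single 1 (t - j))) = 0 :=
        fun j hj h => by
          rw [Finsupp.single_eq_of_ne', map_zero, smul_zero]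
          rintro rfl
          simp at h
          omega
      split_ifs with h
      · have h3 : t = μ 0 + μ 1 := by exact_mod_cast h
        rw [h, h1, Finset.sum_eq_single (μ 0) (fun j hj hne => h2 j
          (by simpa [Nat.lt_succ_iff] using hj) (Or.inl hne.symm)) (by simp; omega)]
        have h4 : t - μ 0 = μ 1 := by omega
        have h5 : Finsupp.single (0 : Fin 2) (μ 0) + Finsupp.single 1 (μ 1) = μ := by
          ext i
          fin_cases i <;> simp
        rw [h4, h5, Finsupp.single_eq_same]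
      · refine (Finset.sum_eq_zero fun j hj => h2 j (by simpa [Nat.lt_succ_iff] using hj)
          (Or.inr fun h3 => h ?_)).symm
        exact_mod_cast h3
  have Ψ_inj : Function.Injective Ψ := (injective_iff_map_eq_zero Ψ).2 fun p hp => by
    refine AddMonoidAlgebra.coeff_injective (Finsupp.ext fun μ => ev_inj ?_)
    have h1 := Ψ_deg (μ 0 + μ 1) p
    rw [hp, smul_zero] at h1
    have h2 := d5b_indep hI U _ _ (fun j => ev_deg _) h1.symm (μ 0) (Nat.le_add_right _ _)
    have h5 : Finsupp.single (0 : Fin 2) (μ 0) + Finsupp.single 1 (μ 1) = μ := by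
      ext i
      fin_cases i <;> simp
    rw [Nat.add_sub_cancel_left, h5] at h2
    simpa using h2
  -- the evaluation
  obtain ⟨g, hg1, hg2⟩ : ∃ g : Var n → PR E' (Fin 2), (∀ i, g (Sum.inl i) = xv E' i) ∧
      ∀ k, g (Sum.inr k) = ∑ i, cst (Fin 2) (θ k i) * xv E' i :=
    ⟨Sum.elim (xv E') fun k => ∑ i, cst (Fin 2) (θ k i) * xv E' i, fun _ => rfl, fun _ => rfl⟩
  have hg3 : ∀ k, g (Sum.inr k) =
      ∑ i, AddMonoidAlgebra.single (Finsupp.single i 1) (θ k i) := fun k => by
    simp only [hg2, cst, xv, AddMonoidAlgebra.single_mul_single, zero_add, mul_one]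
  have hg : ∀ v, Ψ (g v) = aT E (X v : PP K n) • U.o := by
    rintro (i | k)
    · rw [hg1, xv, Ψ_single, ev_one]
    · rw [hg3, map_sum, hθ]
      exact Finset.sum_congr rfl fun i _ => Ψ_single i _
  have hg' : ∀ v q, Ψ (g v * q) = aT E (X v : PP K n) • Ψ q := fun v =>
    Ψ_comm _ _ (aT_comm _) (hg v)
  obtain ⟨ρ, hρ⟩ := exists_ncEval (K := K) g fun v v' => Ψ_inj (by rw [hg', hg', hg, hg, aT_comm])
  have hρ' : ∀ p, Ψ (ρ p) = aT E p • U.o := fun p => by
    induction p using MvPolynomial.induction_on with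
    | C k =>
      rw [U.gm.const, ← hk, ← hev, ← Ψ_cst, algHom_C]
      rfl
    | add p q hp hq => rw [map_add, map_add, hp, hq, U.gm.add]
    | mul_X p v hp => rw [mul_comm p, map_mul, hρ, hg', hp, U.gm.mul]
  refine ⟨ι, θ, fun e k i => ?_, ρ, fun i => (hρ _).trans (hg1 i), fun k => (hρ _).trans (hg2 k),
    fun k => Ψ_inj (by rw [hρ', U.gm.eq, map_zero])⟩
  have h1 : cst (Fin 2) (ι e) * g (Sum.inr k) = g (Sum.inr k) * cst (Fin 2) (ι e) := Ψ_inj (by
    rw [Ψ_comm _ _ (sT_aT e) ((Ψ_cst _).trans (hι e)), hg', hg, Ψ_cst, hι, sT_aT])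
  have h2 : (g (Sum.inr k)).coeff (Finsupp.single i 1) = θ k i := by
    rw [hg3, AddMonoidAlgebra.coeff_sum, Finsupp.finset_sum_apply, Finset.sum_eq_single i]
    · simp
    · intro j _ hj
      rw [AddMonoidAlgebra.coeff_single, Finsupp.single_eq_of_ne']
      exact fun h => hj (Finsupp.single_left_injective one_ne_zero h)
    · simp
  have h3 := congrArg (fun p : PR E' (Fin 2) => p.coeff (Finsupp.single i 1)) h1
  simp only [cst, AddMonoidAlgebra.coeff_single_zero_mul, AddMonoidAlgebra.coeff_mul_single_zero,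
    h2] at h3
  exact h3

/-- `E' = (End U)ᵐᵒᵖ`. -/
theorem UM.exists_ext (hI : Int1 E γ) (U : UM E γ) :
    ∃ (E' : Type) (_ : DivisionRing E') (_ : Algebra K E')
      (r : E'ᵐᵒᵖ →+* Module.End (TT E (PP K n)) U.X) (ι : E →ₐ[K] E') (θ : Fin n → Fin 2 → E'),
      (∀ (k : K) (x : U.X),
        r (MulOpposite.op (algebraMap K E' k)) x = sT (PP K n) (algebraMap K E k) • x) ∧
      (∀ e k i, Commute (ι e) (θ k i)) ∧ Sat γ θ := by
  have hc : ∀ (k : K) (T : TT E (PP K n)),
      algebraMap K (TT E (PP K n)) k * T = T * algebraMap K (TT E (PP K n)) k := Algebra.commutes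
  let κ₀ : K → Module.End (TT E (PP K n)) U.X := fun k =>
    { toFun := fun x => algebraMap K (TT E (PP K n)) k • x
      map_add' := smul_add _
      map_smul' := fun T x => by rw [← mul_smul, hc, mul_smul]; rfl }
  have hκ : ∀ k x, κ₀ k x = algebraMap K (TT E (PP K n)) k • x := fun _ _ => rfl
  let κ : K →+* (Module.End (TT E (PP K n)) U.X)ᵐᵒᵖ :=
    { toFun := fun k => MulOpposite.op (κ₀ k)
      map_one' := MulOpposite.unop_injective (LinearMap.ext fun x => by
        change algebraMap K (TT E (PP K n)) 1 • x = x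
        rw [map_one, one_smul])
      map_mul' := fun a b => MulOpposite.unop_injective (LinearMap.ext fun x => by
        change algebraMap K (TT E (PP K n)) (a * b) • x =
          algebraMap K (TT E (PP K n)) b • algebraMap K (TT E (PP K n)) a • x
        rw [mul_comm a b, map_mul, mul_smul])
      map_zero' := MulOpposite.unop_injective (LinearMap.ext fun x => by simp [hκ])
      map_add' := fun a b => MulOpposite.unop_injective (LinearMap.ext fun x => by
        simp [hκ, add_smul]) }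
  haveI : Nontrivial (Module.End (TT E (PP K n)) U.X) :=
    ⟨⟨1, 0, fun h => U.o_ne (LinearMap.congr_fun h U.o)⟩⟩
  letI alg : Algebra K (Module.End (TT E (PP K n)) U.X)ᵐᵒᵖ := κ.toAlgebra' fun k φ =>
    MulOpposite.unop_injective (LinearMap.ext fun x => φ.unop.map_smul _ x)
  obtain ⟨ι, θ, h⟩ := d5b_core hI U (E' := (Module.End (TT E (PP K n)) U.X)ᵐᵒᵖ)
    (RingEquiv.opOp (Module.End (TT E (PP K n)) U.X)).symm.toRingHom
    (RingEquiv.opOp _).symm.bijective fun _ _ => rfl
  exact ⟨(Module.End (TT E (PP K n)) U.X)ᵐᵒᵖ, DivisionRing.ofIsUnitOrEqZero fun φ =>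
    (U.isUnit_or_eq_zero hI φ.unop).imp (fun h => isUnit_unop.1 h)
      fun h => (MulOpposite.unop_eq_zero_iff φ).1 h,
    alg, (RingEquiv.opOp (Module.End (TT E (PP K n)) U.X)).symm.toRingHom, ι, θ,
    fun _ _ => rfl, h⟩

end Crest.Agent.R181
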