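import Crest.Agent.R181.D6a

/-! # Row 181, D6: integrality passes to the new division ring. -/

set_option autoImplicit false

namespace Crest.Agent.R181

open Module MvPolynomial

variable {K : Type} [Field K] {n : ℕ} {C : Type} [Fintype C] [DecidableEq C] {Γ : CD K n C}

theorem d6_coeff_mul_single {E σ : Type} [Semiring E] (p : PR E σ) (ν : σ →₀ ℕ) :
    (p * AddMonoidAlgebra.single ν 1).coeff = Finsupp.mapDomain (· + ν) p.coeff := by
  induction p using AddMonoidAlgebra.induction_linear with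
  | zero => simp
  | add p q hp hq => rw [add_mul, AddMonoidAlgebra.coeff_add, hp, hq,
      AddMonoidAlgebra.coeff_add, Finsupp.mapDomain_add]
  | single μ e => rw [AddMonoidAlgebra.single_mul_single, mul_one, AddMonoidAlgebra.coeff_single,
      AddMonoidAlgebra.coeff_single, Finsupp.mapDomain_single]

theorem d6_mapDomain_cases {σ Z : Type} [AddCommMonoid Z] (F : (σ →₀ ℕ) →₀ Z) (ν i : σ →₀ ℕ) :
    (∃ μ, i = μ + ν ∧ Finsupp.mapDomain (· + ν) F i = F μ) ∨
      Finsupp.mapDomain (· + ν) F i = 0 := by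
  by_cases h : ∃ μ, μ + ν = i
  · obtain ⟨μ, rfl⟩ := h
    exact Or.inl ⟨μ, rfl, Finsupp.mapDomain_apply (add_left_injective ν) F μ⟩
  · exact Or.inr (Finsupp.mapDomain_of_notMem_range F i h)

omit [Fintype C] [DecidableEq C] in
theorem d6_Pc_mul_single {E : Type} [Semiring E] {s : C → ℤ} {p : PR E (C × Var n)}
    (hp : p ∈ Pc E n s) (ν : C × Var n →₀ ℕ) :
    p * AddMonoidAlgebra.single ν 1 ∈ Pc E n (mdeg ν + s) := by
  refine AddMonoidAlgebra.mem_supported'.2 fun i hi => ?_
  rw [d6_coeff_mul_single]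
  rcases d6_mapDomain_cases p.coeff ν i with ⟨μ, rfl, h⟩ | h
  · rw [h]
    refine AddMonoidAlgebra.mem_supported'.1 hp μ fun hμ => hi ?_
    change mdeg (μ + ν) = mdeg ν + s
    rw [mdeg_add, show mdeg μ = s from hμ, add_comm]
  · exact h

open Classical in
/-- The part of multidegree `s`. -/
noncomputable def d6_pr (E : Type) [Semiring E] (n : ℕ) {C : Type} (s : C → ℤ) :
    PR E (C × Var n) →ₗ[E] PR E (C × Var n) where
  toFun p := AddMonoidAlgebra.ofCoeff (p.coeff.filter fun μ => mdeg μ = s)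
  map_add' p q := by
    refine AddMonoidAlgebra.coeff_injective ?_
    simp [Finsupp.filter_add]
  map_smul' e p := by
    refine AddMonoidAlgebra.coeff_injective ?_
    simp [Finsupp.filter_smul]

omit [Fintype C] [DecidableEq C] in
theorem d6_pr_of_mem {E : Type} [Semiring E] {s : C → ℤ} {p : PR E (C × Var n)}
    (hp : p ∈ Pc E n s) : d6_pr E n s p = p := by
  classical
  refine AddMonoidAlgebra.coeff_injective (Finsupp.ext fun μ => ?_)
  change (p.coeff.filter _) μ = _
  rw [Finsupp.filter_apply]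
  split_ifs with h
  · rfl
  · exact (AddMonoidAlgebra.mem_supported'.1 hp μ h).symm

omit [Fintype C] [DecidableEq C] in
theorem d6_pr_of_ne {E : Type} [Semiring E] {s s' : C → ℤ} {p : PR E (C × Var n)}
    (hp : p ∈ Pc E n s') (h : s' ≠ s) : d6_pr E n s p = 0 := by
  classical
  refine AddMonoidAlgebra.coeff_injective (Finsupp.ext fun μ => ?_)
  change (p.coeff.filter _) μ = _
  rw [Finsupp.filter_apply]
  split_ifs with h1
  · exact AddMonoidAlgebra.mem_supported'.1 hp μ fun h2 => h (h2.symm.trans h1)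
  · rfl

/-- Finite generation of a family (Noetherianity). -/
theorem Fam.exists_gens {E : Type} [DivisionRing E] [Algebra K E] {L : Finset C}
    {𝔠 : (C → ℤ) → Submodule E (PR E (C × Var n))} (h : Fam Γ E L 𝔠) :
    ∃ (m : ℕ) (σ : Fin m → C → ℤ) (g : Fin m → PR E (C × Var n)),
      (∀ i c, c ∉ L → σ i c = 0) ∧ (∀ i, g i ∈ 𝔠 (σ i)) ∧
      ∀ s : C → ℤ, (∀ c, c ∉ L → s c = 0) → 𝔠 s ≤ Submodule.span E
        {p | ∃ (i : Fin m) (ν : C × Var n →₀ ℕ), mdeg ν + σ i = s ∧
          p = g i * AddMonoidAlgebra.single ν 1} := by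
  classical
  have hN := isNoetherianRing_PR E (C × Var n)
  set S : Set (PR E (C × Var n)) := {p | ∃ s : C → ℤ, (∀ c, c ∉ L → s c = 0) ∧ p ∈ 𝔠 s} with hS
  have hfg : (Submodule.span (PR E (C × Var n)) S).FG := IsNoetherian.noetherian _
  obtain ⟨T, hT, hTS⟩ := (Submodule.fg_span_iff_fg_span_finset_subset S).1 hfg
  let g : Fin T.card → PR E (C × Var n) := fun i => (T.equivFin.symm i).1
  have hg : ∀ i, g i ∈ S := fun i => hT (T.equivFin.symm i).2
  choose σ hσ hgσ using hg
  have hrange : Set.range g = (T : Set _) := by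
    ext p
    constructor
    · rintro ⟨i, rfl⟩; exact (T.equivFin.symm i).2
    · intro hp; exact ⟨T.equivFin ⟨p, hp⟩, by simp [g]⟩
  refine ⟨T.card, σ, g, hσ, hgσ, fun s hs p hp => ?_⟩
  have h1 : p ∈ Submodule.span (PR E (C × Var n)) (Set.range g) := by
    rw [hrange, ← hTS]
    exact Submodule.subset_span ⟨s, hs, hp⟩
  obtain ⟨a, ha⟩ := (Submodule.mem_span_range_iff_exists_fun _).1 h1
  rw [← d6_pr_of_mem (h.le s hp), ← ha, map_sum]
  refine Submodule.sum_mem _ fun i _ => ?_
  rw [smul_eq_mul]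
  induction a i using AddMonoidAlgebra.induction_linear with
  | zero => simp
  | add p q hp hq => rw [add_mul, map_add]; exact Submodule.add_mem _ hp hq
  | single ν e =>
    have h2 : AddMonoidAlgebra.single ν e * g i = e • (g i * AddMonoidAlgebra.single ν 1) := by
      rw [← (AddMonoidAlgebra.single_commute (fun m => add_comm _ m) Commute.one_left (g i)).eq,
        ← smul_mul_assoc, AddMonoidAlgebra.smul_single, smul_eq_mul, mul_one]
    rw [h2, map_smul]
    refine Submodule.smul_mem _ _ ?_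
    have h3 := d6_Pc_mul_single (h.le _ (hgσ i)) ν
    by_cases h4 : mdeg ν + σ i = s
    · rw [h4] at h3
      rw [d6_pr_of_mem h3]
      exact Submodule.subset_span ⟨i, ν, h4, rfl⟩
    · rw [d6_pr_of_ne h3 h4]
      exact Submodule.zero_mem _

theorem d6_exists_q {D V : Type} [DivisionRing D] [AddCommGroup V] [Module D V]
    (W : Submodule D V) : ∃ q : V →ₗ[D] V, LinearMap.ker q = W ∧ ∀ x, x - q x ∈ W := by
  obtain ⟨g, hg⟩ := W.mkQ.exists_rightInverse_of_surjective W.range_mkQ
  have h1 : ∀ z, W.mkQ (g z) = z := fun z => LinearMap.congr_fun hg z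
  refine ⟨g ∘ₗ W.mkQ, ?_, fun x => ?_⟩
  · ext x
    rw [LinearMap.mem_ker, LinearMap.comp_apply]
    constructor
    · intro hx
      have h2 := h1 (W.mkQ x)
      rw [hx, map_zero] at h2
      exact (Submodule.Quotient.mk_eq_zero W).1 h2.symm
    · intro hx
      rw [show W.mkQ x = 0 from (Submodule.Quotient.mk_eq_zero W).2 hx, map_zero]
  · refine (Submodule.Quotient.mk_eq_zero W).1 ?_
    change W.mkQ (x - g (W.mkQ x)) = 0
    rw [map_sub, h1, sub_self]

section Act

variable {E : Type} [DivisionRing E] [Algebra K E] {c : C} {X : Type} [AddCommGroup X]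
  [Module (TT E (PP K n)) X]

/-- The shift of monomials on `I →₀ X`. -/
noncomputable abbrev d6_sh (T X : Type) [Ring T] [AddCommGroup X] [Module T X] {σ : Type}
    (ν : σ →₀ ℕ) : ((σ →₀ ℕ) →₀ X) →ₗ[T] ((σ →₀ ℕ) →₀ X) :=
  Finsupp.lmapDomain X T (· + ν)

omit [Fintype C] in
theorem d6_exists_act {γ : CD1 K n} (hX : IsGM E γ X) (c : C) :
    ∃ φ : MvPolynomial (C × Var n) K →+*
        Module.End E (Res E (PP K n) ((C × Var n →₀ ℕ) →₀ X)),
      (∀ (p : PP K n) F, φ (rename (Prod.mk c) p) (toRes E (PP K n) F) =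
        toRes E (PP K n) (aT E p • F)) ∧
      ∀ c', c' ≠ c → ∀ v F, φ (MvPolynomial.X (c', v)) (toRes E (PP K n) F) =
        toRes E (PP K n) (d6_sh (TT E (PP K n)) X (Finsupp.single (c', v) 1) F) := by
  obtain ⟨ψ, hψ⟩ := (hX.finsupp (C × Var n →₀ ℕ)).exists_act
  have hcomm : ∀ (p : PP K n) (G : ((C × Var n →₀ ℕ) →₀ X) →ₗ[TT E (PP K n)]
      ((C × Var n →₀ ℕ) →₀ X)), Commute (ψ p) (resMap G) := by
    intro p G
    refine LinearMap.ext fun x => ?_
    obtain ⟨F, rfl⟩ := (toRes E (PP K n)).surjective x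
    rw [Module.End.mul_apply, Module.End.mul_apply, resMap_toRes, hψ, hψ, resMap_toRes,
      G.map_smul]
  let g : C × Var n → Module.End E (Res E (PP K n) ((C × Var n →₀ ℕ) →₀ X)) := fun i =>
    if i.1 = c then ψ (MvPolynomial.X i.2)
    else resMap (d6_sh (TT E (PP K n)) X (Finsupp.single i 1))
  obtain ⟨φ, h1, h2⟩ := exists_ncEval₂ (ψ.comp MvPolynomial.C) g
    (by
      intro i j
      simp only [g]
      split_ifs
      · exact (Commute.all _ _).map ψ
      · exact hcomm _ _
      · exact (hcomm _ _).symm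
      · refine LinearMap.ext fun x => ?_
        obtain ⟨F, rfl⟩ := (toRes E (PP K n)).surjective x
        simp only [Module.End.mul_apply, resMap_toRes, Finsupp.lmapDomain_apply,
          ← Finsupp.mapDomain_comp]
        congr 2
        funext μ
        exact add_right_comm _ _ _)
    (by
      intro k i
      simp only [g]
      split_ifs
      · exact (Commute.all _ _).map ψ
      · exact hcomm _ _)
  refine ⟨φ, fun p F => ?_, fun c' hc' v F => ?_⟩
  · have h3 : φ.comp (rename (Prod.mk c) : PP K n →ₐ[K] _).toRingHom = ψ := by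
      refine MvPolynomial.ringHom_ext (fun k => ?_) fun v => ?_
      · simp [h1]
      · simp [h2, g]
    rw [← hψ, ← h3]
    rfl
  · rw [h2]
    simp only [g, if_neg hc', resMap_toRes]

omit [Fintype C] [DecidableEq C] [Algebra K E] in
theorem d6_act_monomial
    (φ : MvPolynomial (C × Var n) K →+* Module.End E (Res E (PP K n) ((C × Var n →₀ ℕ) →₀ X)))
    (h2 : ∀ c', c' ≠ c → ∀ v F, φ (MvPolynomial.X (c', v)) (toRes E (PP K n) F) =
        toRes E (PP K n) (d6_sh (TT E (PP K n)) X (Finsupp.single (c', v) 1) F))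
    (ν : C × Var n →₀ ℕ) (hν : ∀ v, ν (c, v) = 0) (μ : C × Var n →₀ ℕ) (y : X) :
    φ (monomial ν 1) (toRes E (PP K n) (Finsupp.single μ y)) =
      toRes E (PP K n) (Finsupp.single (μ + ν) y) := by
  classical
  induction ν using Finsupp.induction_linear generalizing μ with
  | zero => simp
  | add a b ha hb =>
    have h3 : ∀ v, a (c, v) = 0 ∧ b (c, v) = 0 := fun v => by simpa using hν v
    rw [← one_mul (1 : K), ← monomial_mul, map_mul, Module.End.mul_apply, hb fun v => (h3 v).2,
      ha fun v => (h3 v).1, add_assoc, add_comm b a]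
  | single i k =>
    obtain ⟨c', v⟩ := i
    by_cases hc' : c' = c
    · subst hc'
      have : k = 0 := by simpa using hν v
      subst this
      simp
    · clear hν
      induction k generalizing μ with
      | zero => simp
      | succ k ih =>
        rw [Finsupp.single_add, ← one_mul (1 : K), ← monomial_mul, map_mul, Module.End.mul_apply]
        have h4 := h2 c' hc' v (Finsupp.single μ y)
        rw [MvPolynomial.X] at h4
        rw [h4, Finsupp.lmapDomain_apply, Finsupp.mapDomain_single, ih, add_assoc,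
          add_comm (Finsupp.single (c', v) 1)]

omit [Fintype C] [DecidableEq C] in
theorem d6_act_poly {γ : CD1 K n} (hX : IsGM E γ X) {E' : Type} [DivisionRing E'] [Algebra K E']
    (r : E'ᵐᵒᵖ →+* Module.End (TT E (PP K n)) X)
    (hK : ∀ (k : K) (x : X),
      r (MulOpposite.op (algebraMap K E' k)) x = sT (PP K n) (algebraMap K E k) • x)
    (φ : MvPolynomial (C × Var n) K →+* Module.End E (Res E (PP K n) ((C × Var n →₀ ℕ) →₀ X)))
    (h1 : ∀ (p : PP K n) F, φ (rename (Prod.mk c) p) (toRes E (PP K n) F) =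
        toRes E (PP K n) (aT E p • F))
    (h2 : ∀ c', c' ≠ c → ∀ v F, φ (MvPolynomial.X (c', v)) (toRes E (PP K n) F) =
        toRes E (PP K n) (d6_sh (TT E (PP K n)) X (Finsupp.single (c', v) 1) F))
    {c' : C} (hc' : c' ≠ c) (p : PP K n) (ν : C × Var n →₀ ℕ) (y : X) :
    φ (rename (Prod.mk c') p) (toRes E (PP K n) (Finsupp.single ν y)) =
      toRes E (PP K n) (prU r (AddMonoidAlgebra.mapRingHom (C × Var n →₀ ℕ) (algebraMap K E')
        (rename (Prod.mk c') p) * AddMonoidAlgebra.single ν 1).coeff y) := by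
  induction p using MvPolynomial.induction_on generalizing ν with
  | C k =>
    have h3 := h1 (MvPolynomial.C k) (Finsupp.single ν y)
    rw [rename_C] at h3
    rw [rename_C, h3, Finsupp.smul_single, hX.const, ← hK]
    congr 1
    have h4 : (AddMonoidAlgebra.mapRingHom (C × Var n →₀ ℕ) (algebraMap K E')
        (MvPolynomial.C k : MvPolynomial (C × Var n) K) * AddMonoidAlgebra.single ν 1).coeff =
        algebraMap K E' k • Finsupp.single ν 1 := by
      have : (MvPolynomial.C k : MvPolynomial (C × Var n) K) = AddMonoidAlgebra.single 0 k := rfl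
      rw [this, AddMonoidAlgebra.mapRingHom_single, AddMonoidAlgebra.single_mul_single,
        zero_add, AddMonoidAlgebra.coeff_single, Finsupp.smul_single, smul_eq_mul]
    rw [h4, prU_smul, prU_single_one]
  | add p q hp hq =>
    rw [map_add, map_add, LinearMap.add_apply, hp, hq, map_add, add_mul,
      AddMonoidAlgebra.coeff_add, prU_add, map_add]
  | mul_X p v hp =>
    rw [map_mul, map_mul, Module.End.mul_apply, rename_X, h2 c' hc', Finsupp.lmapDomain_apply,
      Finsupp.mapDomain_single, hp, map_mul, mul_assoc]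
    have : (MvPolynomial.X (c', v) : MvPolynomial (C × Var n) K) =
        AddMonoidAlgebra.single (Finsupp.single (c', v) 1) 1 := rfl
    rw [this, AddMonoidAlgebra.mapRingHom_single, AddMonoidAlgebra.single_mul_single, map_one,
      one_mul, add_comm ν]

end Act

theorem d6_mem_inf {E P X : Type} [DivisionRing E] [AddCommGroup X] [Module (TT E P) X] {t : ℤ}
    {A : Submodule (TT E P) X} {x : X} :
    toRes E P x ∈ piece E P X t ⊓ resSub A ↔ πT E P t • x = x ∧ x ∈ A := by
  rw [Submodule.mem_inf, mem_piece, mem_resSub]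

theorem d6_finite_piece {E : Type} [DivisionRing E] [Algebra K E] {γ : CD1 K n} {X : Type}
    [AddCommGroup X] [Module (TT E (PP K n)) X] {A : Submodule (TT E (PP K n)) X}
    (hA : Adm E γ A) (t : ℤ) : Module.Finite E ↥(piece E (PP K n) X t ⊓ resSub A) := by
  have h1 := hA.1.map_piece A.subtype t
  rw [Submodule.range_subtype] at h1
  rw [← h1]
  have := hA.finite_piece t
  infer_instance

theorem d6_adm_inf {E : Type} [DivisionRing E] [Algebra K E] {γ : CD1 K n} {X : Type}
    [AddCommGroup X] [Module (TT E (PP K n)) X] {A : Submodule (TT E (PP K n)) X}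
    (hA : Adm E γ A) (B : Submodule (TT E (PP K n)) X) : Adm E γ ↥(A ⊓ B) :=
  (hA.sub ((A ⊓ B).comap A.subtype)).of_surjective
    (Submodule.comapSubtypeEquivOfLe (inf_le_left : A ⊓ B ≤ A)).toLinearMap
    (Submodule.comapSubtypeEquivOfLe (inf_le_left : A ⊓ B ≤ A)).surjective

omit [Fintype C] in
theorem d6_upd_self (c : C) (s : C → ℤ) (a : ℤ) :
    Function.update (s + Pi.single c a) c 0 = Function.update s c 0 := by
  funext x
  by_cases h : x = c
  · subst h; simp
  · simp [h]

omit [Fintype C] in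
theorem d6_upd_ne {c c' : C} (h' : c' ≠ c) (s : C → ℤ) (a : ℤ) :
    Function.update (s + Pi.single c' a) c 0 = Function.update s c 0 + Pi.single c' a := by
  funext x
  by_cases h : x = c
  · subst h; simp [h'.symm]
  · simp [h]

omit [Fintype C] [DecidableEq C] in
theorem d6_sh_supU {T X : Type} [Ring T] [AddCommGroup X] [Module T X] {Y : Submodule T X}
    {s : C → ℤ} {F : (C × Var n →₀ ℕ) →₀ X} (hF : F ∈ supU {μ | mdeg μ = s} Y)
    (ν : C × Var n →₀ ℕ) : d6_sh T X ν F ∈ supU {μ | mdeg μ = s + mdeg ν} Y := by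
  refine ⟨fun i => ?_, fun i hi => ?_⟩
  · rw [Finsupp.lmapDomain_apply]
    rcases d6_mapDomain_cases F ν i with ⟨μ, -, h⟩ | h
    · rw [h]; exact hF.1 μ
    · rw [h]; exact Y.zero_mem
  · rw [Finsupp.lmapDomain_apply]
    rcases d6_mapDomain_cases F ν i with ⟨μ, rfl, h⟩ | h
    · rw [h]
      refine hF.2 μ fun hμ => hi ?_
      change mdeg (μ + ν) = _
      rw [mdeg_add, show mdeg μ = s from hμ]
    · exact h

theorem intg_step {E : Type} [DivisionRing E] [Algebra K E] {L : Finset C} {c : C} (hc : c ∉ L)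
    (hI : Int1 E (Γ.cv c)) (h : Intg Γ E (insert c L)) (U : UM E (Γ.cv c))
    {E' : Type} [DivisionRing E'] [Algebra K E']
    (r : E'ᵐᵒᵖ →+* Module.End (TT E (PP K n)) U.X)
    (hK : ∀ (k : K) (x : U.X),
      r (MulOpposite.op (algebraMap K E' k)) x = sT (PP K n) (algebraMap K E k) • x) :
    Intg Γ E' L := by
  classical
  intro 𝔠 h𝔠
  have hne : ∀ c' ∈ L, c' ≠ c := fun c' h' h'' => hc (h'' ▸ h')
  -- the modified family
  let 𝔡 : (C → ℤ) → Submodule E' (PR E' (C × Var n)) := fun s =>
    if ∀ c', c' ∉ L → s c' = 0 then 𝔠 s else Pc E' n s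
  have hsupp : ∀ (s : C → ℤ), ∀ c' ∈ L, ∀ a : ℤ,
      (∀ x, x ∉ L → (s + Pi.single c' a : C → ℤ) x = 0) ↔ ∀ x, x ∉ L → s x = 0 := by
    intro s c' hc' a
    refine forall₂_congr fun x hx => ?_
    rw [Pi.add_apply, Pi.single_eq_of_ne (by rintro rfl; exact hx hc'), add_zero]
  have h𝔡mul : ∀ s, ∀ c' ∈ L, ∀ v : Var n, ∀ p ∈ 𝔡 s,
      p * AddMonoidAlgebra.single (Finsupp.single (c', v) 1) 1 ∈ 𝔡 (s + Pi.single c' 1) := by
    intro s c' hc' v p hp
    by_cases hs : ∀ x, x ∉ L → s x = 0
    · simp only [𝔡, if_pos hs, if_pos ((hsupp s c' hc' 1).2 hs)] at hp ⊢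
      exact h𝔠.mul s c' hc' v p hp
    · simp only [𝔡, if_neg hs, if_neg (mt (hsupp s c' hc' 1).1 hs)] at hp ⊢
      have := d6_Pc_mul_single hp (Finsupp.single (c', v) 1)
      rwa [mdeg_single, add_comm, Nat.cast_one] at this
  have h𝔡eq : ∀ c' ∈ L, ∀ k, ∀ ν : C × Var n →₀ ℕ,
      eqE Γ E' c' k * AddMonoidAlgebra.single ν 1 ∈ 𝔡 (mdeg ν + Pi.single c' (Γ.b k : ℤ)) := by
    intro c' hc' k ν
    by_cases hs : ∀ x, x ∉ L → mdeg ν x = 0
    · simp only [𝔡, if_pos ((hsupp _ c' hc' _).2 hs)]
      exact h𝔠.mul_single ν hs (h𝔠.eq c' hc' k)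
    · simp only [𝔡, if_neg (mt (hsupp _ c' hc' _).1 hs)]
      exact d6_Pc_mul_single (eqE_mem_Pc c' k) ν
  let W : (C → ℤ) → Submodule E' ((C × Var n →₀ ℕ) →₀ E') := fun s =>
    (𝔡 s).map (AddMonoidAlgebra.coeffLinearEquiv E').toLinearMap
  have hWmem : ∀ s, ∀ p ∈ 𝔡 s, p.coeff ∈ W s := fun s p hp => ⟨p, hp, rfl⟩
  choose q hq hq' using fun s => d6_exists_q (W s)
  -- the stable module `Y`
  obtain ⟨m, σ, g, hσ, hg, hgen⟩ := h𝔠.exists_gens
  obtain ⟨Y, hY, hoY, hgY⟩ := U.loc (Finset.univ.biUnion fun i =>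
    (g i).coeff.support.image fun μ => r (MulOpposite.op ((g i).coeff μ)) U.o)
  have hgY' : ∀ i μ, r (MulOpposite.op ((g i).coeff μ)) U.o ∈ Y := by
    intro i μ
    by_cases hμ : μ ∈ (g i).coeff.support
    · exact hgY _ (Finset.mem_biUnion.2 ⟨i, Finset.mem_univ _, Finset.mem_image.2 ⟨μ, hμ, rfl⟩⟩)
    · rw [Finsupp.notMem_support_iff.1 hμ]; simp
  obtain ⟨m', τ, y, hy, hyspan⟩ := hY.1.exists_gens
  have hyspan' : Submodule.span (TT E (PP K n)) (Set.range fun i => (y i : U.X)) = Y := by
    have := congrArg (Submodule.map Y.subtype) hyspan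
    rwa [Submodule.map_span, Submodule.map_top, Submodule.range_subtype, ← Set.range_comp] at this
  have hy' : ∀ i, πT E (PP K n) (τ i) • (y i : U.X) = y i := fun i => congrArg Subtype.val (hy i)
  obtain ⟨φ, hφ1, hφ2⟩ := d6_exists_act (C := C) U.gm c
  have hM := U.gm.finsupp (C × Var n →₀ ℕ)
  let SB : (C → ℤ) → Submodule (TT E (PP K n)) ((C × Var n →₀ ℕ) →₀ U.X) := fun s =>
    supU {μ | mdeg μ = s} Y
  let SA : (C → ℤ) → Submodule (TT E (PP K n)) ((C × Var n →₀ ℕ) →₀ U.X) := fun s =>
    SB s ⊓ LinearMap.ker (extU r (q s))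
  have hSB : ∀ s, Adm E (Γ.cv c) (SB s) := fun s => adm_supU (mdeg_finite s) hY.1
  have hSA : ∀ s, Adm E (Γ.cv c) (SA s) := fun s => d6_adm_inf (hSB s) _
  have hshB : ∀ s c' (v : Var n), ∀ F ∈ SB s,
      d6_sh (TT E (PP K n)) U.X (Finsupp.single (c', v) 1) F ∈ SB (s + Pi.single c' 1) := by
    intro s c' v F hF
    have := d6_sh_supU hF (Finsupp.single (c', v) 1)
    rwa [mdeg_single, Nat.cast_one] at this
  have hshA : ∀ s, ∀ c' ∈ L, ∀ (v : Var n), ∀ F ∈ SA s,
      d6_sh (TT E (PP K n)) U.X (Finsupp.single (c', v) 1) F ∈ SA (s + Pi.single c' 1) := by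
    intro s c' hc' v F hF
    refine ⟨hshB s c' v F hF.1, ?_⟩
    have h1 : q (s + Pi.single c' 1) ∘ₗ d6_sh E' E' (Finsupp.single (c', v) 1) =
        (q (s + Pi.single c' 1) ∘ₗ d6_sh E' E' (Finsupp.single (c', v) 1)) ∘ₗ q s := by
      refine LinearMap.ext fun x => ?_
      obtain ⟨p, hp, hp'⟩ := hq' s x
      have h2 := hWmem _ _ (h𝔡mul s c' hc' v p hp)
      rw [d6_coeff_mul_single, ← hq, LinearMap.mem_ker] at h2
      have h3 : p.coeff = x - q s x := hp'
      rw [h3] at h2
      rw [← sub_eq_zero, LinearMap.comp_apply (g := q s), ← map_sub]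
      exact h2
    have h4 : extU r (q s) F = 0 := hF.2
    change extU r (q (s + Pi.single c' 1)) (Finsupp.mapDomain _ F) = 0
    rw [← extU_lmapDomain r, ← extU_comp, h1, extU_comp, h4, map_zero]
  have key := h.module φ
    (fun k x => by
      obtain ⟨F, rfl⟩ := (toRes E (PP K n)).surjective x
      have h3 := hφ1 (MvPolynomial.C k) F
      rw [rename_C] at h3
      rw [h3, hM.const, smul_toRes])
    (fun s' => piece E (PP K n) _ (s' c) ⊓ resSub (SA (Function.update s' c 0)))
    (fun s' => piece E (PP K n) _ (s' c) ⊓ resSub (SB (Function.update s' c 0)))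
    (fun s' x hx => ⟨hx.1, hx.2.1⟩)
    (fun s' => d6_finite_piece (hSB _) _)
    (fun s' c' hc' v x hx => by
      obtain ⟨F, rfl⟩ := (toRes E (PP K n)).surjective x
      obtain ⟨h1, h2⟩ := d6_mem_inf.1 hx
      rcases Finset.mem_insert.1 hc' with rfl | hc'
      · have h3 := hφ1 (MvPolynomial.X v) F
        rw [rename_X] at h3
        rw [h3, d6_mem_inf, d6_upd_self, Pi.add_apply, Pi.single_eq_same, hM.px, h1]
        exact ⟨rfl, Submodule.smul_mem _ _ h2⟩
      · rw [hφ2 c' (hne c' hc'), d6_mem_inf, d6_upd_ne (hne c' hc'), Pi.add_apply,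
          Pi.single_eq_of_ne (hne c' hc').symm, add_zero, ← LinearMap.map_smul, h1]
        exact ⟨rfl, hshA _ c' hc' v F h2⟩)
    (fun s' c' hc' v x hx => by
      obtain ⟨F, rfl⟩ := (toRes E (PP K n)).surjective x
      obtain ⟨h1, h2⟩ := d6_mem_inf.1 hx
      rcases Finset.mem_insert.1 hc' with rfl | hc'
      · have h3 := hφ1 (MvPolynomial.X v) F
        rw [rename_X] at h3
        rw [h3, d6_mem_inf, d6_upd_self, Pi.add_apply, Pi.single_eq_same, hM.px, h1]
        exact ⟨rfl, Submodule.smul_mem _ _ h2⟩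
      · rw [hφ2 c' (hne c' hc'), d6_mem_inf, d6_upd_ne (hne c' hc'), Pi.add_apply,
          Pi.single_eq_of_ne (hne c' hc').symm, add_zero, ← LinearMap.map_smul, h1]
        exact ⟨rfl, hshB _ c' v F h2⟩)
    (fun s' c' hc' k x hx => by
      obtain ⟨F, rfl⟩ := (toRes E (PP K n)).surjective x
      obtain ⟨h1, h2⟩ := d6_mem_inf.1 hx
      rcases Finset.mem_insert.1 hc' with rfl | hc'
      · rw [hφ1, hM.eq, map_zero]
        exact Submodule.zero_mem _
      · rw [d6_upd_ne (hne c' hc'), Pi.add_apply, Pi.single_eq_of_ne (hne c' hc').symm, add_zero,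
          ← Finsupp.sum_single F, Finsupp.sum, map_sum, map_sum]
        refine Submodule.sum_mem _ fun ν hν => ?_
        have hν' : mdeg ν = Function.update s' c 0 :=
          by_contra fun h' => Finsupp.mem_support_iff.1 hν (h2.2 ν h')
        have h3 : πT E (PP K n) (s' c) • F ν = F ν := by
          rw [← Finsupp.smul_apply, h1]
        have h4 := h𝔡eq c' hc' k ν
        rw [hν'] at h4
        have h5 := d6_Pc_mul_single (E := E') (eqE_mem_Pc (Γ := Γ) c' k) ν
        rw [hν'] at h5
        have h7 : ∀ i, ∃ a : K, (eqE Γ E' c' k * AddMonoidAlgebra.single ν 1).coeff i =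
            algebraMap K E' a := by
          intro i
          rw [d6_coeff_mul_single]
          rcases d6_mapDomain_cases (eqE Γ E' c' k).coeff ν i with ⟨μ, -, h6⟩ | h6
          · exact ⟨_, by rw [h6, eqE, AddMonoidAlgebra.coeff_mapRingHom]⟩
          · exact ⟨0, by rw [h6, map_zero]⟩
        have h8 := hWmem _ _ h4
        rw [← hq, LinearMap.mem_ker] at h8
        have h9 := AddMonoidAlgebra.mem_supported'.1 h5
        have he : AddMonoidAlgebra.mapRingHom (C × Var n →₀ ℕ) (algebraMap K E')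
            (rename (Prod.mk c') ((Γ.cv c').eqn k)) = eqE Γ E' c' k := rfl
        rw [d6_act_poly U.gm r hK φ hφ1 hφ2 (hne c' hc'), d6_mem_inf, he]
        generalize (eqE Γ E' c' k * AddMonoidAlgebra.single ν 1).coeff = w at h7 h8 h9 ⊢
        refine ⟨?_, ⟨fun i => ?_, fun i hi => ?_⟩, ?_⟩
        · have h6 := (prL r w).map_smul (πT E (PP K n) (s' c)) (F ν)
          rw [h3] at h6
          exact h6.symm
        · obtain ⟨a, ha⟩ := h7 i
          rw [prU, Finsupp.mapRange_apply, ha, hK]
          exact Y.smul_mem _ (h2.1 ν)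
        · rw [prU, Finsupp.mapRange_apply, h9 i hi]
          simp
        · change extU r _ _ = 0
          rw [extU_prU, h8, prU_zero])
    (fun i => Pi.single c (τ i))
    (fun i c' hc' => Pi.single_eq_of_ne (fun h' : c' = c => hc' (h' ▸ Finset.mem_insert_self _ _)) _)
    (fun i => toRes E (PP K n) (Finsupp.single 0 (y i : U.X)))
    (fun i => by
      rw [d6_mem_inf, Pi.single_eq_same, Finsupp.smul_single, hy']
      refine ⟨rfl, fun μ => ?_, fun μ hμ => ?_⟩
      · rw [Finsupp.single_apply]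
        split_ifs
        · exact (y i).2
        · exact Y.zero_mem
      · refine Finsupp.single_eq_of_ne fun h' => hμ ?_
        change mdeg μ = _
        rw [h', mdeg_zero]
        funext x
        by_cases hx : x = c
        · subst hx; simp
        · simp [hx])
    (fun s' _ x hx => by
      obtain ⟨F, rfl⟩ := (toRes E (PP K n)).surjective x
      obtain ⟨h1, h2⟩ := d6_mem_inf.1 hx
      refine Submodule.mem_sup_right ?_
      rw [← Finsupp.sum_single F, Finsupp.sum, map_sum]
      refine Submodule.sum_mem _ fun ν hν => ?_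
      have hν' : mdeg ν = Function.update s' c 0 :=
        by_contra fun h' => Finsupp.mem_support_iff.1 hν (h2.2 ν h')
      have h3 : πT E (PP K n) (s' c) • F ν = F ν := by
        rw [← Finsupp.smul_apply, h1]
      have h4 : toRes E (PP K n) (F ν) ∈ piece E (PP K n) U.X (s' c) ⊓ resSub Y :=
        d6_mem_inf.2 ⟨h3, h2.1 ν⟩
      rw [← hyspan', U.gm.piece_span τ _ hy'] at h4
      have h5 := Submodule.mem_map_of_mem
        (f := resMap (Finsupp.lsingle ν : U.X →ₗ[TT E (PP K n)] _)) h4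
      rw [resMap_toRes, Submodule.map_span] at h5
      refine Submodule.span_mono ?_ h5
      rintro _ ⟨_, ⟨i, μ, h6, rfl⟩, rfl⟩
      refine ⟨i, ν + μ.mapDomain (Prod.mk c), ?_, ?_⟩
      · rw [mdeg_add, mdeg_mapDomain, hν', add_assoc, ← Pi.single_add, h6]
        funext x
        by_cases hx : x = c
        · subst hx; simp
        · simp [hx]
      · have h7 : (monomial (ν + μ.mapDomain (Prod.mk c)) (1 : K) : MvPolynomial (C × Var n) K) =
            monomial ν 1 * rename (Prod.mk c) (monomial μ 1 : PP K n) := by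
          rw [rename_monomial, monomial_mul, one_mul]
        rw [h7, map_mul, Module.End.mul_apply, hφ1, Finsupp.smul_single,
          d6_act_monomial φ hφ2 ν (eq_zero_of_mdeg (by rw [hν']; simp)), zero_add, resMap_toRes]
        rfl)
  obtain ⟨H₀, H₁, hH₀, hH₁, T, hT⟩ := key.insert hc
  refine (hH₀.add hH₁).congr T fun s hs1 hs2 => ?_
  have hsc : Function.update s c 0 = s := Function.update_eq_self_iff.2 (hs2 c hc).symm
  have h1 := ZZ_sub_eq hI (hSA s) (hSB s) (c₀ := H₀ s) (c₁ := H₁ s) (T := T) fun t ht => by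
    have h2 := hT s hs1 hs2 t ht
    rw [Function.update_self, Function.update_idem, hsc] at h2
    exact h2
  have h𝔡s : 𝔡 s = 𝔠 s := if_pos hs2
  have h3 : ZZ E (Γ.cv c) (SA s) = finrank E' (W s) := by
    refine U.ZZ_ker hI r (mdeg_finite s) hY hoY (W s) (q s) ?_ ?_
    · rw [hq, inf_eq_right]
      rintro _ ⟨p, hp, rfl⟩
      rw [h𝔡s] at hp
      exact h𝔠.le s hp
    · rintro _ ⟨p, hp, rfl⟩
      rw [h𝔡s] at hp
      have h4 := Submodule.mem_map_of_mem
        (f := (AddMonoidAlgebra.coeffLinearEquiv E').toLinearMap) (hgen s hs2 hp)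
      rw [Submodule.map_span] at h4
      refine Submodule.span_mono ?_ h4
      rintro _ ⟨_, ⟨i, ν, h5, rfl⟩, rfl⟩
      have h6 : g i * AddMonoidAlgebra.single ν 1 ∈ 𝔠 s := by
        rw [← h5]
        refine h𝔠.mul_single ν (fun x hx => ?_) (hg i)
        have := congrFun h5 x
        rwa [Pi.add_apply, hσ i x hx, hs2 x hx, add_zero] at this
      refine ⟨hWmem s _ (h𝔡s ▸ h6), fun j => ?_, fun j hj => ?_⟩
      · change prU r (g i * AddMonoidAlgebra.single ν 1).coeff U.o j ∈ Y
        rw [prU, Finsupp.mapRange_apply, d6_coeff_mul_single]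
        rcases d6_mapDomain_cases (g i).coeff ν j with ⟨μ, -, h7⟩ | h7
        · rw [h7]; exact hgY' i μ
        · rw [h7]; simp
      · change prU r (g i * AddMonoidAlgebra.single ν 1).coeff U.o j = 0
        rw [prU, Finsupp.mapRange_apply, AddMonoidAlgebra.mem_supported'.1 (h𝔠.le s h6) j hj]
        simp
  have h4 : finrank E' (W s) = finrank E' (𝔠 s) := by
    rw [← h𝔡s]
    exact LinearEquiv.finrank_map_eq _ _
  rw [← h1, h3, h4, ZZ_supU hI (mdeg_finite s) hY, finrank_mon (mdeg_finite s)]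

end Crest.Agent.R181
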