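import Crest.Agent.R181.D5a

/-! # Row 181, D6a: submodules of powers of the generic module. -/

set_option autoImplicit false

namespace Crest.Agent.R181

open Module MvPolynomial

section Ext

variable {T U E' : Type} [Ring T] [AddCommGroup U] [Module T U] [Ring E']
  (r : E'ᵐᵒᵖ →+* Module.End T U) {I J : Type}

/-- `v ⊗ y`. -/
noncomputable def prU (v : I →₀ E') (y : U) : I →₀ U :=
  Finsupp.mapRange (fun e => r (MulOpposite.op e) y) (by simp) v

/-- `y ↦ v ⊗ y` is linear. -/
noncomputable def prL (v : I →₀ E') : U →ₗ[T] (I →₀ U) where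
  toFun y := prU r v y
  map_add' x y := by ext i; simp [prU]
  map_smul' a x := by ext i; simp [prU]

/-- The map on powers of `U` induced by a left-linear map on powers of `E'`. -/
noncomputable def extU (g : (I →₀ E') →ₗ[E'] (J →₀ E')) : (I →₀ U) →ₗ[T] (J →₀ U) :=
  Finsupp.lsum ℕ fun i => prL r (g (Finsupp.single i 1))

theorem extU_single (g : (I →₀ E') →ₗ[E'] (J →₀ E')) (i : I) (y : U) :
    extU r g (Finsupp.single i y) = prU r (g (Finsupp.single i 1)) y := by
  simp only [extU, Finsupp.lsum_single]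
  rfl

theorem prU_single_one (i : I) (y : U) : prU r (Finsupp.single i 1) y = Finsupp.single i y := by
  rw [prU, Finsupp.mapRange_single]
  simp

theorem prU_add (v w : I →₀ E') (y : U) : prU r (v + w) y = prU r v y + prU r w y := by
  ext i; simp [prU]

theorem prU_zero (y : U) : prU r (0 : I →₀ E') y = 0 := by
  ext i; simp [prU]

theorem prU_smul (e : E') (v : I →₀ E') (y : U) :
    prU r (e • v) y = prU r v (r (MulOpposite.op e) y) := by
  ext i; simp [prU]

theorem extU_prU (g : (I →₀ E') →ₗ[E'] (J →₀ E')) (v : I →₀ E') (y : U) :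
    extU r g (prU r v y) = prU r (g v) y := by
  induction v using Finsupp.induction_linear with
  | zero => rw [prU_zero, map_zero, map_zero, prU_zero]
  | add v w hv hw => rw [prU_add, map_add, map_add, prU_add, hv, hw]
  | single i e =>
    have : (Finsupp.single i e : I →₀ E') = e • Finsupp.single i 1 := by simp
    rw [this, map_smul, prU_smul, prU_smul, prU_single_one, extU_single]

theorem extU_comp {J' : Type} (g : (I →₀ E') →ₗ[E'] (J →₀ E')) (g' : (J →₀ E') →ₗ[E'] (J' →₀ E'))
    (f : I →₀ U) : extU r (g' ∘ₗ g) f = extU r g' (extU r g f) := by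
  induction f using Finsupp.induction_linear with
  | zero => simp
  | add v w hv hw => rw [map_add, map_add, map_add, hv, hw]
  | single i y => rw [extU_single, extU_single, extU_prU, LinearMap.comp_apply]

/-- `extU g f` only depends on the values of `g` on the support of `f`. -/
theorem extU_congr (g g' : (I →₀ E') →ₗ[E'] (J →₀ E')) (f : I →₀ U)
    (h : ∀ i ∈ f.support, g (Finsupp.single i 1) = g' (Finsupp.single i 1)) :
    extU r g f = extU r g' f := by
  rw [← Finsupp.sum_single f, Finsupp.sum, map_sum, map_sum]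
  exact Finset.sum_congr rfl fun i hi => by rw [extU_single, extU_single, h i hi]

theorem extU_lmapDomain (φ : I → J) (f : I →₀ U) :
    extU r (Finsupp.lmapDomain E' E' φ) f = Finsupp.mapDomain φ f := by
  induction f using Finsupp.induction_linear with
  | zero => simp
  | add v w hv hw => rw [map_add, Finsupp.mapDomain_add, hv, hw]
  | single i y =>
    rw [extU_single, Finsupp.lmapDomain_apply, Finsupp.mapDomain_single,
      Finsupp.mapDomain_single, prU_single_one]

end Ext

variable {K : Type} [Field K] {n : ℕ} {E : Type} [DivisionRing E] [Algebra K E] {γ : CD1 K n}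

/-- The functions supported on `S` with values in a stable submodule. -/
def supU {T U I : Type} [Ring T] [AddCommGroup U] [Module T U] (S : Set I) (Y : Submodule T U) :
    Submodule T (I →₀ U) where
  carrier := {f | (∀ i, f i ∈ Y) ∧ ∀ i, i ∉ S → f i = 0}
  add_mem' := fun ha hb => ⟨fun i => Y.add_mem (ha.1 i) (hb.1 i), fun i hi => by
    simp [ha.2 i hi, hb.2 i hi]⟩
  zero_mem' := ⟨fun _ => Y.zero_mem, fun _ _ => rfl⟩
  smul_mem' := fun a _ hf => ⟨fun i => Y.smul_mem a (hf.1 i), fun i hi => by simp [hf.2 i hi]⟩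

theorem d6a_equiv {T U I : Type} [Ring T] [AddCommGroup U] [Module T U] {S : Set I}
    (hS : S.Finite) (Y : Submodule T U) : Nonempty (supU S Y ≃ₗ[T] (S → Y)) := by
  classical
  let φ : supU S Y →ₗ[T] (S → Y) :=
    { toFun := fun f i => ⟨f.1 i, f.2.1 i⟩
      map_add' := fun f g => rfl
      map_smul' := fun a f => rfl }
  refine ⟨LinearEquiv.ofBijective φ ⟨fun f g h => ?_, fun g => ?_⟩⟩
  · ext i
    by_cases hi : i ∈ S
    · exact congrArg Subtype.val (congrFun h ⟨i, hi⟩)
    · rw [f.2.2 i hi, g.2.2 i hi]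
  · refine ⟨⟨Finsupp.onFinset hS.toFinset (fun i => if h : i ∈ S then (g ⟨i, h⟩ : U) else 0)
      fun i hi => ?_, fun i => ?_, fun i hi => ?_⟩, ?_⟩
    · by_contra h
      exact hi (dif_neg fun h' => h (hS.mem_toFinset.2 h'))
    · rw [Finsupp.onFinset_apply]
      split_ifs
      · exact Subtype.property _
      · exact Y.zero_mem
    · rw [Finsupp.onFinset_apply, dif_neg hi]
    · funext i
      apply Subtype.ext
      show (if h : (i : I) ∈ S then (g ⟨i, h⟩ : U) else 0) = g i
      rw [dif_pos i.2]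

theorem adm_supU {U I : Type} [AddCommGroup U] [Module (TT E (PP K n)) U] {S : Set I}
    (hS : S.Finite) {Y : Submodule (TT E (PP K n)) U} (hY : Adm E γ Y) : Adm E γ (supU S Y) := by
  obtain ⟨e⟩ := d6a_equiv hS Y
  have : Finite S := hS
  exact (hY.pi S).of_surjective e.symm.toLinearMap e.symm.surjective

theorem ZZ_supU (hI : Int1 E γ) {U I : Type} [AddCommGroup U] [Module (TT E (PP K n)) U]
    {S : Set I} (hS : S.Finite) {Y : Submodule (TT E (PP K n)) U} (hY : GoodM E γ Y) :
    ZZ E γ (supU S Y) = S.ncard := by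
  obtain ⟨e⟩ := d6a_equiv hS Y
  have := hS.fintype
  rw [ZZ_congr e, ZZ_pi hI hY.1, hY.2.1, mul_one, Set.ncard_eq_toFinset_card', Set.toFinset_card]

theorem d6a_adm_of_le {X : Type} [AddCommGroup X] [Module (TT E (PP K n)) X]
    {A B : Submodule (TT E (PP K n)) X} (hB : Adm E γ B) (h : A ≤ B) : Adm E γ A :=
  (hB.sub (A.comap B.subtype)).of_surjective (Submodule.comapSubtypeEquivOfLe h).toLinearMap
    (Submodule.comapSubtypeEquivOfLe h).surjective

theorem d6a_one_le {U : Type} [AddCommGroup U] [Module (TT E (PP K n)) U]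
    {Y A : Submodule (TT E (PP K n)) U} (hY : GoodM E γ Y) (h : A ≤ Y) (hA : A ≠ ⊥) :
    1 ≤ ZZ E γ A := by
  rw [← ZZ_congr (X := A.comap Y.subtype) (Submodule.comapSubtypeEquivOfLe h)]
  refine hY.2.2 _ fun h0 => hA ?_
  rw [← Submodule.map_comap_eq_self (f := Y.subtype) (q := A) (by simpa using h), h0,
    Submodule.map_bot]

theorem d6a_zero_le {U : Type} [AddCommGroup U] [Module (TT E (PP K n)) U]
    {Y A : Submodule (TT E (PP K n)) U} (hY : GoodM E γ Y) (h : A ≤ Y) : 0 ≤ ZZ E γ A := by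
  by_cases hA : A = ⊥
  · subst hA
    exact ZZ_of_subsingleton.ge
  · exact zero_le_one.trans (d6a_one_le hY h hA)

theorem d6a_nonneg (hI : Int1 E γ) {U I : Type} [AddCommGroup U] [Module (TT E (PP K n)) U]
    {Y : Submodule (TT E (PP K n)) U} (hY : GoodM E γ Y) {S : Set I} (hS : S.Finite) :
    ∀ A : Submodule (TT E (PP K n)) (I →₀ U), A ≤ supU S Y → 0 ≤ ZZ E γ A := by
  induction S, hS using Set.Finite.induction_on with
  | empty =>
    intro A hA
    have : A = ⊥ := eq_bot_iff.2 fun f hf => by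
      ext i
      exact (hA hf).2 i (Set.notMem_empty i)
    subst this
    exact ZZ_of_subsingleton.ge
  | @insert i S _ hS ih =>
    intro A hA
    rw [ZZ_sub_add hI A (d6a_adm_of_le (adm_supU (hS.insert i) hY.1) hA) (Finsupp.lapply i)]
    refine add_nonneg (ih _ fun f hf => ⟨(hA hf.1).1, fun j hj => ?_⟩) (d6a_zero_le hY ?_)
    · by_cases h : j = i
      · rw [h]; exact hf.2
      · exact (hA hf.1).2 j fun h' => h'.elim h hj
    · rintro _ ⟨f, hf, rfl⟩
      exact (hA hf).1 i

theorem d6a_card_le (hI : Int1 E γ) {U I : Type} [AddCommGroup U] [Module (TT E (PP K n)) U]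
    {Y : Submodule (TT E (PP K n)) U} (hY : GoodM E γ Y) {S : Set I} (hS : S.Finite) {o : U}
    (ho : o ≠ 0) (t : Finset I) :
    ∀ A : Submodule (TT E (PP K n)) (I →₀ U), A ≤ supU S Y →
      (∀ j ∈ t, Finsupp.single j o ∈ A) → (t.card : ℤ) ≤ ZZ E γ A := by
  classical
  induction t using Finset.induction_on with
  | empty => exact fun A hA _ => by simpa using d6a_nonneg hI hY hS A hA
  | insert i t hi ih =>
    intro A hA h
    rw [ZZ_sub_add hI A (d6a_adm_of_le (adm_supU hS hY.1) hA) (Finsupp.lapply i),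
      Finset.card_insert_of_notMem hi, Nat.cast_add, Nat.cast_one]
    refine add_le_add (ih _ (inf_le_left.trans hA) fun j hj =>
      ⟨h j (Finset.mem_insert_of_mem hj), ?_⟩) (d6a_one_le hY ?_ fun h0 => ho ?_)
    · have : i ≠ j := fun e => hi (e ▸ hj)
      show Finsupp.single j o i = 0
      exact Finsupp.single_eq_of_ne this
    · rintro _ ⟨f, hf, rfl⟩
      exact (hA hf).1 i
    · have : o ∈ A.map (Finsupp.lapply i) :=
        ⟨_, h i (Finset.mem_insert_self _ _), by simp⟩
      rwa [h0, Submodule.mem_bot] at this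

theorem UM.d6a_exists (U : UM E γ) {I : Type}
    (A : Submodule (TT E (PP K n)) (I →₀ U.X)) (hA : A.FG) :
    ∃ (S : Set I) (Y : Submodule (TT E (PP K n)) U.X), S.Finite ∧ GoodM E γ Y ∧
      A ≤ supU S Y := by
  classical
  obtain ⟨t, rfl⟩ := hA
  obtain ⟨Y, hY, -, h⟩ := U.loc (t.biUnion fun f => f.support.image f)
  refine ⟨(t.biUnion fun f => f.support : Finset I), Y, Finset.finite_toSet _, hY,
    Submodule.span_le.2 fun f hf => ⟨fun i => ?_, fun i hi => ?_⟩⟩
  · by_cases hi : i ∈ f.support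
    · exact h _ (Finset.mem_biUnion.2 ⟨f, hf, Finset.mem_image_of_mem _ hi⟩)
    · rw [Finsupp.notMem_support_iff.1 hi]; exact Y.zero_mem
  · by_contra h0
    exact hi (Finset.mem_biUnion.2 ⟨f, hf, Finsupp.mem_support_iff.2 h0⟩)

theorem UM.ZZ_nonneg (hI : Int1 E γ) (U : UM E γ) {I : Type}
    (A : Submodule (TT E (PP K n)) (I →₀ U.X)) (hA : A.FG) : 0 ≤ ZZ E γ A := by
  obtain ⟨S, Y, hS, hY, h⟩ := U.d6a_exists A hA
  exact d6a_nonneg hI hY hS A h

/-- Apply a left-linear `g` with `g (v j) = single j 1`. -/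
theorem UM.ZZ_ge (hI : Int1 E γ) (U : UM E γ) {E' : Type} [DivisionRing E']
    (r : E'ᵐᵒᵖ →+* Module.End (TT E (PP K n)) U.X) {I : Type} {m : ℕ} (v : Fin m → (I →₀ E'))
    (hv : LinearIndependent E' v) (A : Submodule (TT E (PP K n)) (I →₀ U.X)) (hA : A.FG)
    (h : ∀ j, prU r (v j) U.o ∈ A) : (m : ℤ) ≤ ZZ E γ A := by
  obtain ⟨g, hg⟩ := (Finsupp.linearCombination E' v).exists_leftInverse_of_injective
    (LinearMap.ker_eq_bot.2 hv)
  have hgv : ∀ j, g (v j) = Finsupp.single j 1 := fun j => by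
    have := LinearMap.congr_fun hg (Finsupp.single j 1)
    simpa using this
  obtain ⟨S, Y, hS, hY, hAS⟩ := U.d6a_exists A hA
  obtain ⟨S', Y', hS', hY', hAS'⟩ := U.d6a_exists _ (hA.map (extU r g))
  rw [ZZ_sub_add hI A (d6a_adm_of_le (adm_supU hS hY.1) hAS) (extU r g)]
  have h1 := d6a_nonneg hI hY hS (A ⊓ LinearMap.ker (extU r g)) (inf_le_left.trans hAS)
  have h2 := d6a_card_le hI hY' hS' U.o_ne Finset.univ _ hAS' fun j _ =>
    ⟨_, h j, by rw [extU_prU, hgv, prU_single_one]⟩
  rw [Finset.card_univ, Fintype.card_fin] at h2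
  linarith

/-- The key computation: for a left subspace `W ≤ E'^S`, spanned by vectors `v` with
`v ⊗ o ∈ Y^S`, and a left-linear `q` whose kernel on `E'^S` is `W`,
`Z (Y^S ∩ ker q_U) = dim W`. -/
theorem UM.ZZ_ker (hI : Int1 E γ) (U : UM E γ) {E' : Type} [DivisionRing E']
    (r : E'ᵐᵒᵖ →+* Module.End (TT E (PP K n)) U.X) {I J : Type} {S : Set I} (hS : S.Finite)
    {Y : Submodule (TT E (PP K n)) U.X} (hY : GoodM E γ Y) (ho : U.o ∈ Y)
    (W : Submodule E' (I →₀ E')) (q : (I →₀ E') →ₗ[E'] (J →₀ E'))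
    (hq : Finsupp.supported E' E' S ⊓ LinearMap.ker q = W)
    (hW : W ≤ Submodule.span E' {v | v ∈ W ∧ prU r v U.o ∈ supU S Y}) :
    ZZ E γ ↥(supU S Y ⊓ LinearMap.ker (extU r q)) = finrank E' W := by
  have := hS.fintype
  have hB : Adm E γ (supU S Y) := adm_supU hS hY.1
  have hfg : ∀ A : Submodule (TT E (PP K n)) (I →₀ U.X), Adm E γ A → A.FG := fun A hA =>
    Module.Finite.iff_fg.1 hA.2
  have : Module.Finite E' (Finsupp.supported E' E' S) :=
    Module.Finite.equiv (Finsupp.supportedEquivFinsupp S).symm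
  have hWS : W ≤ Finsupp.supported E' E' S := hq ▸ inf_le_left
  have hWk : W ≤ LinearMap.ker q := hq ▸ inf_le_right
  have : Module.Finite E' W := Submodule.finiteDimensional_of_le hWS
  have h0 := ZZ_sub_add hI _ hB (extU r q)
  rw [ZZ_supU hI hS hY] at h0
  have hW' : Submodule.span E' {v | v ∈ W ∧ prU r v U.o ∈ supU S Y} = W :=
    le_antisymm (Submodule.span_le.2 fun v hv => hv.1) hW
  have h1 : (finrank E' W : ℤ) ≤ ZZ E γ ↥(supU S Y ⊓ LinearMap.ker (extU r q)) := by
    have : Module.Finite E' (Submodule.span E' {v | v ∈ W ∧ prU r v U.o ∈ supU S Y}) := by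
      rw [hW']; infer_instance
    obtain ⟨v, hv, -, hli⟩ :=
      Submodule.exists_fun_fin_finrank_span_eq E' {v | v ∈ W ∧ prU r v U.o ∈ supU S Y}
    have := U.ZZ_ge hI r v hli (supU S Y ⊓ LinearMap.ker (extU r q))
      (hfg _ (d6a_adm_of_le hB inf_le_left)) fun j => ⟨(hv j).2, by
        rw [SetLike.mem_coe, LinearMap.mem_ker, extU_prU, hWk (hv j).1, prU_zero]⟩
    rwa [hW'] at this
  have hV : Submodule.span E' (q '' ((fun i => Finsupp.single i (1 : E')) '' S)) =
      (Finsupp.supported E' E' S).map q := by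
    rw [Finsupp.supported_eq_span_single, Submodule.map_span]
  have h2 : (finrank E' ((Finsupp.supported E' E' S).map q) : ℤ) ≤
      ZZ E γ ((supU S Y).map (extU r q)) := by
    have : Module.Finite E'
        (Submodule.span E' (q '' ((fun i => Finsupp.single i (1 : E')) '' S))) := by
      rw [hV]; infer_instance
    obtain ⟨v, hv, -, hli⟩ := Submodule.exists_fun_fin_finrank_span_eq E'
      (q '' ((fun i => Finsupp.single i (1 : E')) '' S))
    have := U.ZZ_ge hI r v hli ((supU S Y).map (extU r q)) ((hfg _ hB).map _) fun j => by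
      obtain ⟨_, ⟨i, hi, rfl⟩, h⟩ := hv j
      refine ⟨Finsupp.single i U.o, ⟨fun k => ?_, fun k hk => ?_⟩, by rw [extU_single, h]⟩
      · by_cases hk : k = i
        · rw [hk, Finsupp.single_eq_same]; exact ho
        · rw [Finsupp.single_eq_of_ne hk]; exact Y.zero_mem
      · exact Finsupp.single_eq_of_ne fun e => hk (e ▸ hi)
    rwa [hV] at this
  have h3 := LinearMap.finrank_range_add_finrank_ker (K := E')
    (V := Finsupp.supported E' E' S) (V₂ := J →₀ E') (q.domRestrict (Finsupp.supported E' E' S))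
  have h4 : (LinearMap.ker q).comap (Finsupp.supported E' E' S).subtype =
      W.comap (Finsupp.supported E' E' S).subtype := by
    rw [← hq, Submodule.comap_inf, Submodule.comap_subtype_self, top_inf_eq]
  rw [LinearMap.range_domRestrict, LinearMap.ker_domRestrict, h4,
    (Submodule.comapSubtypeEquivOfLe hWS).finrank_eq,
    (Finsupp.supportedEquivFinsupp S).finrank_eq, Module.finrank_finsupp_self,
    ← Set.toFinset_card, ← Set.ncard_eq_toFinset_card'] at h3
  have h5 : (finrank E' ((Finsupp.supported E' E' S).map q) : ℤ) + finrank E' W = S.ncard := by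
    exact_mod_cast h3
  linarith

end Crest.Agent.R181
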