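import Crest.Agent.R181.D4U
import Crest.Agent.R181.D5b
import Crest.Agent.R181.D6

/-! # Row 181, D7: iterating over all curves. -/

set_option autoImplicit false

namespace Crest.Agent.R181

open Module MvPolynomial

variable {K : Type} [Field K] {n : ℕ}

theorem Sat.map {γ : CD1 K n} {D D' : Type} [Ring D] [Algebra K D] [Ring D'] [Algebra K D']
    {θ : Fin n → Fin 2 → D} (h : Sat γ θ) (ι : D →ₐ[K] D') : Sat γ fun k i => ι (θ k i) := by
  obtain ⟨ρ, h1, h2, h3⟩ := h
  refine ⟨(AddMonoidAlgebra.mapAlgHom (Fin 2 →₀ ℕ) ι).comp ρ, fun i => ?_, fun k => ?_,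
    fun k => ?_⟩
  · rw [AlgHom.comp_apply, h1]
    simp [xv]
  · rw [AlgHom.comp_apply, h2, map_sum]
    refine Finset.sum_congr rfl fun i _ => ?_
    rw [map_mul]
    simp [xv, cst]
  · rw [AlgHom.comp_apply, h3, map_zero]

theorem exists_div {C : Type} [Fintype C] [DecidableEq C] (Γ : CD K n C)
    (h : ∀ L, Intg Γ K L) :
    ∃ (D : Type) (_ : DivisionRing D) (_ : Algebra K D) (θ : C → Fin n → Fin 2 → D),
      (∀ c c', c ≠ c' → ∀ k i k' i', Commute (θ c k i) (θ c' k' i')) ∧
      ∀ c, Sat (Γ.cv c) (θ c) := by
  have key : ∀ S : Finset C,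
      ∃ (D : Type) (_ : DivisionRing D) (_ : Algebra K D) (θ : C → Fin n → Fin 2 → D),
        (∀ c ∈ S, ∀ c' ∈ S, c ≠ c' → ∀ k i k' i', Commute (θ c k i) (θ c' k' i')) ∧
        (∀ c ∈ S, Sat (Γ.cv c) (θ c)) ∧ ∀ L : Finset C, Disjoint L S → Intg Γ D L := by
    intro S
    induction S using Finset.induction_on with
    | empty =>
      exact ⟨K, inferInstance, inferInstance, fun _ _ _ => 0, by simp, by simp, fun L _ => h L⟩
    | insert c S hc ih =>
      obtain ⟨D, _, _, θ, hcomm, hsat, hint⟩ := ih
      have hI : Int1 D (Γ.cv c) := int1_of_intg (hint {c} (by simpa using hc))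
      obtain ⟨U⟩ := exists_UM hI
      obtain ⟨E', _, _, r, ι, θ', hK, hc', hs'⟩ := U.exists_ext hI
      refine ⟨E', inferInstance, inferInstance,
        Function.update (fun c' k i => ι (θ c' k i)) c θ', ?_, ?_, ?_⟩
      · intro a ha a' ha' hne k i k' i'
        rcases Finset.mem_insert.1 ha with rfl | ha
        · have ha'' : a' ≠ a := hne.symm
          rw [Function.update_self, Function.update_of_ne ha'']
          exact (hc' _ _ _).symm
        · have h1 : a ≠ c := fun e => hc (e ▸ ha)
          rw [Function.update_of_ne h1]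
          rcases Finset.mem_insert.1 ha' with rfl | ha'
          · rw [Function.update_self]
            exact hc' _ _ _
          · have h2 : a' ≠ c := fun e => hc (e ▸ ha')
            rw [Function.update_of_ne h2]
            exact (hcomm a ha a' ha' hne k i k' i').map ι
      · intro a ha
        rcases Finset.mem_insert.1 ha with rfl | ha
        · rw [Function.update_self]
          exact hs'
        · have h1 : a ≠ c := fun e => hc (e ▸ ha)
          rw [Function.update_of_ne h1]
          exact (hsat a ha).map ι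
      · intro L hL
        rw [Finset.disjoint_insert_right] at hL
        refine intg_step hL.1 hI (hint _ ?_) U r hK
        rw [Finset.disjoint_insert_left]
        exact ⟨hc, hL.2⟩
  obtain ⟨D, _, _, θ, h1, h2, -⟩ := key Finset.univ
  exact ⟨D, inferInstance, inferInstance, θ,
    fun c c' => h1 c (Finset.mem_univ _) c' (Finset.mem_univ _),
    fun c => h2 c (Finset.mem_univ _)⟩

end Crest.Agent.R181
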