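import Crest.Agent.R181.DDefs
import Crest.Agent.R181.Noeth

/-! # Row 181, D8: the commuting linear forms attached to the symbols. -/

set_option autoImplicit false

namespace Crest.Agent.R181

open Module MvPolynomial

variable {K : Type} [Field K] {n : ℕ}

theorem d8_xv_commute {D σ : Type} [Semiring D] (i : σ) (w : PR D σ) : Commute (xv D i) w :=
  AddMonoidAlgebra.single_commute (fun m' => AddCommute.all _ m') (fun r => Commute.one_left r) w

theorem d8_cst_commute {D σ : Type} [Semiring D] {a b : D} (h : Commute a b) :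
    Commute (cst σ a) (cst σ b) :=
  AddMonoidAlgebra.single_commute_single (AddCommute.all _ _) h

theorem d8_cst_mul {D σ : Type} [Semiring D] (c : D) (w : PR D σ) : cst σ c * w = c • w := by
  ext μ
  simp [cst, AddMonoidAlgebra.coeff_single_zero_mul]

variable (K) in
/-- constants as an algebra map -/
noncomputable def d8cst (D σ : Type) [Ring D] [Algebra K D] : D →ₐ[K] PR D σ :=
  AddMonoidAlgebra.singleZeroAlgHom

theorem d8cst_apply {D σ : Type} [Ring D] [Algebra K D] (c : D) : d8cst K D σ c = cst σ c := rfl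

theorem d8_map_xv {D D' σ : Type} [Ring D] [Algebra K D] [Ring D'] [Algebra K D']
    (f : D →ₐ[K] D') (i : σ) : AddMonoidAlgebra.mapAlgHom (σ →₀ ℕ) f (xv D i) = xv D' i := by
  rw [xv, AddMonoidAlgebra.mapAlgHom_single, map_one, xv]

theorem d8_map_cst {D D' σ : Type} [Ring D] [Algebra K D] [Ring D'] [Algebra K D']
    (f : D →ₐ[K] D') (c : D) :
    AddMonoidAlgebra.mapAlgHom (σ →₀ ℕ) f (cst σ c) = cst σ (f c) := by
  rw [cst, AddMonoidAlgebra.mapAlgHom_single, cst]

theorem d8_map_injective {D D' σ : Type} [Ring D] [Algebra K D] [Ring D'] [Algebra K D']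
    (f : D →ₐ[K] D') (hf : Function.Injective f) :
    Function.Injective (AddMonoidAlgebra.mapAlgHom (σ →₀ ℕ) f) := by
  intro x y hxy
  ext μ
  apply hf
  rw [← AddMonoidAlgebra.coeff_mapAlgHom, ← AddMonoidAlgebra.coeff_mapAlgHom, hxy]

/-- Substituting commuting elements for `u, v`. -/
theorem Sat.subst {γ : CD1 K n} {D S : Type} [Ring D] [Algebra K D] [Ring S] [Algebra K S]
    {θ : Fin n → Fin 2 → D} (h : Sat γ θ) (ι : D →ₐ[K] S) (u : Fin 2 → S)
    (hu : ∀ i j, Commute (u i) (u j)) (hθ : ∀ k i j, Commute (ι (θ k i)) (u j)) :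
    ∃ ρ : PP K n →ₐ[K] S, (∀ i, ρ (X (Sum.inl i)) = u i) ∧
      (∀ k, ρ (X (Sum.inr k)) = ∑ i, ι (θ k i) * u i) ∧ ∀ k, ρ (γ.eqn k) = 0 := by
  obtain ⟨ρ, hρ1, hρ2, hρ3⟩ := h
  let Zc : Subalgebra K D := (Subalgebra.centralizer K (Set.range u)).comap ι
  have hZ : ∀ d : D, d ∈ Zc ↔ ∀ j, Commute (ι d) (u j) := fun d => by
    simp only [Zc, Subalgebra.mem_comap, Subalgebra.mem_centralizer_iff, Set.forall_mem_range]
    exact ⟨fun h j => (h j).symm, fun h j => (h j).symm⟩
  let θ' : Fin n → Fin 2 → Zc := fun k i => ⟨θ k i, (hZ _).2 (hθ k i)⟩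
  let J : PR Zc (Fin 2) →ₐ[K] PR D (Fin 2) := AddMonoidAlgebra.mapAlgHom (Fin 2 →₀ ℕ) Zc.val
  have hJ : Function.Injective J := d8_map_injective Zc.val Subtype.val_injective
  let g : Var n → PR Zc (Fin 2) :=
    Sum.elim (fun i => xv Zc i) fun k => ∑ i, cst (Fin 2) (θ' k i) * xv Zc i
  have hg : ∀ v, J (g v) = ρ (X v) := by
    rintro (i | k)
    · rw [hρ1]
      exact d8_map_xv Zc.val i
    · rw [hρ2]
      simp only [g, Sum.elim_inr, map_sum, map_mul, J, d8_map_xv, d8_map_cst]
      rfl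
  have hgc : ∀ v w, Commute (g v) (g w) := fun v w => by
    apply hJ
    rw [map_mul, map_mul, hg, hg, ← map_mul, ← map_mul, mul_comm]
  obtain ⟨φ, hφ⟩ := exists_ncEval (K := K) g hgc
  have hJφ : J.comp φ = ρ := MvPolynomial.algHom_ext fun v => by
    rw [AlgHom.comp_apply, hφ, hg]
  have hφ0 : ∀ k, φ (γ.eqn k) = 0 := fun k => by
    apply hJ
    rw [map_zero, ← AlgHom.comp_apply, hJφ, hρ3]
  obtain ⟨ψ, hψ1, hψ2⟩ := exists_ncLift (σ := Fin 2) (ι.comp Zc.val).toRingHom u hu
    fun e j => (hZ e.1).1 e.2 j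
  let ψ' : PR Zc (Fin 2) →ₐ[K] S :=
    { ψ with
      commutes' := fun r => by
        have : algebraMap K (PR Zc (Fin 2)) r = cst (Fin 2) (algebraMap K Zc r) := rfl
        change ψ (algebraMap K (PR Zc (Fin 2)) r) = _
        rw [this, hψ1]
        exact (ι.comp Zc.val).commutes r }
  have hψ' : ∀ x, ψ' x = ψ x := fun x => rfl
  refine ⟨ψ'.comp φ, fun i => ?_, fun k => ?_, fun k => ?_⟩
  · rw [AlgHom.comp_apply, hφ, hψ']
    exact hψ2 i
  · rw [AlgHom.comp_apply, hφ, hψ']
    simp only [g, Sum.elim_inr, map_sum, map_mul, hψ1, hψ2]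
    rfl
  · rw [AlgHom.comp_apply, hφ0, map_zero]

section chi

variable [Algebra ℂ K] {N : ℕ} {D : Type} [DivisionRing D] [Algebra K D]

variable (K) in
/-- the value of a label, given values `Y` of the symbols -/
noncomputable def d8hat (Y : Fin N → Fin n → PR D (Fin n)) : Lab n (Fin N) → PR D (Fin n)
  | Sum.inl z => ∑ i, algebraMap K (PR D (Fin n)) (algebraMap ℂ K (z i)) * xv D i
  | Sum.inr ck => Y ck.1 ck.2

theorem d8hat_inl_commute (Y : Fin N → Fin n → PR D (Fin n)) (z : Fin n → ℂ)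
    (w : PR D (Fin n)) : Commute w (d8hat K Y (Sum.inl z)) := by
  refine Commute.sum_right _ _ _ fun i _ => ?_
  exact Commute.mul_right (Algebra.commutes _ w).symm (d8_xv_commute i w).symm

theorem d8_exists_fix (lb : Fin N → Fin 2 → Lab n (Fin N))
    (hlb : ∀ c i c' k, lb c i = Sum.inr (c', k) → c' < c) (θ : Fin N → Fin n → Fin 2 → D) :
    ∃ Y : Fin N → Fin n → PR D (Fin n),
      ∀ c k, Y c k = ∑ i, cst (Fin n) (θ c k i) * d8hat K Y (lb c i) := by
  classical
  let F : (c : Fin N) → ((c' : Fin N) → c' < c → Fin n → PR D (Fin n)) →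
      Fin n → PR D (Fin n) := fun c rec k =>
    ∑ i, cst (Fin n) (θ c k i) *
      d8hat K (fun c' => if h : c' < c then rec c' h else 0) (lb c i)
  refine ⟨WellFounded.fix (C := fun _ => Fin n → PR D (Fin n)) wellFounded_lt F, fun c k => ?_⟩
  rw [WellFounded.fix_eq]
  refine Finset.sum_congr rfl fun i _ => ?_
  congr 1
  rcases hl : lb c i with z | ⟨c', k'⟩
  · rfl
  · simp only [d8hat, dif_pos (hlb c i c' k' hl)]

end chi

theorem exists_chi [Algebra ℂ K] {N : ℕ} (Γ : CD K n (Fin N)) (lb : Fin N → Fin 2 → Lab n (Fin N))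
    (hlb : ∀ c i c' k, lb c i = Sum.inr (c', k) → c' < c)
    {D : Type} [DivisionRing D] [Algebra K D] (θ : Fin N → Fin n → Fin 2 → D)
    (hθ : ∀ c c', c ≠ c' → ∀ k i k' i', Commute (θ c k i) (θ c' k' i'))
    (hs : ∀ c, Sat (Γ.cv c) (θ c)) :
    ∃ χ : Sym K n (Fin N) →ₐ[K] PR D (Fin n), (∀ i, χ (X (Sum.inl i)) = xv D i) ∧
      (∀ ck, χ (X (Sum.inr ck)) ∈ mon D (Mon Finset.univ 1)) ∧
      ∀ c k, χ (labA K lb c ((Γ.cv c).eqn k)) = 0 := by
  obtain ⟨Y, hY⟩ := d8_exists_fix (K := K) lb hlb θ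
  -- the coefficients of a later curve commute with the earlier symbols
  have ha : ∀ c' c : Fin N, c' < c → ∀ k i k', Commute (cst (Fin n) (θ c k i)) (Y c' k') := by
    intro c'
    induction c' using WellFoundedLT.induction with
    | ind c' ih =>
      intro c hc k i k'
      rw [hY]
      refine Commute.sum_right _ _ _ fun i' _ => ?_
      refine Commute.mul_right (d8_cst_commute (hθ c c' hc.ne' k i k' i')) ?_
      rcases hl : lb c' i' with z | ⟨c'', k''⟩
      · exact d8hat_inl_commute Y z _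
      · have h1 := hlb c' i' c'' k'' hl
        exact ih c'' h1 c (h1.trans hc) k i k''
  have ha' : ∀ c k i j, Commute (cst (Fin n) (θ c k i)) (d8hat K Y (lb c j)) := by
    intro c k i j
    rcases hl : lb c j with z | ⟨c', k'⟩
    · exact d8hat_inl_commute Y z _
    · exact ha c' c (hlb c j c' k' hl) k i k'
  -- substitution for one curve, once the labels commute
  have hsub : ∀ c, (∀ i j, Commute (d8hat K Y (lb c i)) (d8hat K Y (lb c j))) →
      ∃ ρ : PP K n →ₐ[K] PR D (Fin n), (∀ i, ρ (X (Sum.inl i)) = d8hat K Y (lb c i)) ∧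
        (∀ k, ρ (X (Sum.inr k)) = Y c k) ∧ ∀ k, ρ ((Γ.cv c).eqn k) = 0 := by
    intro c hc
    obtain ⟨ρ, h1, h2, h3⟩ := (hs c).subst (d8cst K D (Fin n))
      (fun i => d8hat K Y (lb c i)) hc (fun k i j => by rw [d8cst_apply]; exact ha' c k i j)
    exact ⟨ρ, h1, fun k => by rw [h2, hY]; simp only [d8cst_apply], h3⟩
  have hlab : ∀ c : Fin N, (∀ d d' : Fin N, d < c → d' < c → ∀ k k', Commute (Y d k) (Y d' k')) →
      ∀ i j, Commute (d8hat K Y (lb c i)) (d8hat K Y (lb c j)) := by
    intro c hc i j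
    rcases hl : lb c i with z | ⟨d, k⟩
    · exact (d8hat_inl_commute Y z _).symm
    · rcases hl' : lb c j with z | ⟨d', k'⟩
      · exact d8hat_inl_commute Y z _
      · exact hc d d' (hlb c i d k hl) (hlb c j d' k' hl') k k'
  have hb : ∀ c c' : Fin N, c' ≤ c → ∀ k k', Commute (Y c k) (Y c' k') := by
    intro c
    induction c using WellFoundedLT.induction with
    | ind c ih =>
      have hlt : ∀ d d' : Fin N, d < c → d' < c → ∀ k k', Commute (Y d k) (Y d' k') := by
        intro d d' hd hd' k k'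
        rcases le_total d' d with h | h
        · exact ih d hd d' h k k'
        · exact (ih d' hd' d h k' k).symm
      intro c' hc' k k'
      rcases hc'.lt_or_eq with h | h
      · rw [hY c k]
        refine Commute.sum_left _ _ _ fun i _ => ?_
        refine Commute.mul_left (ha c' c h k i k') ?_
        rcases hl : lb c i with z | ⟨d, k''⟩
        · exact (d8hat_inl_commute Y z _).symm
        · exact hlt d c' (hlb c i d k'' hl) h k'' k'
      · subst h
        obtain ⟨ρ, -, h2, -⟩ := hsub c' (hlab c' hlt)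
        rw [← h2, ← h2]
        exact (Commute.all _ _).map ρ
  have hb' : ∀ c c' : Fin N, ∀ k k', Commute (Y c k) (Y c' k') := by
    intro c c' k k'
    rcases le_total c' c with h | h
    · exact hb c c' h k k'
    · exact (hb c' c h k' k).symm
  -- degree one
  have hxv : ∀ i, xv D i ∈ mon D (Mon (Finset.univ : Finset (Fin n)) 1) := by
    intro i
    refine AddMonoidAlgebra.mem_supported'.2 fun μ hμ => ?_
    rw [xv, AddMonoidAlgebra.coeff_single, Finsupp.single_eq_of_ne]
    rintro rfl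
    exact hμ ⟨by simp, fun j hj => absurd (Finset.mem_univ j) hj⟩
  have hdeg : ∀ c k, Y c k ∈ mon D (Mon (Finset.univ : Finset (Fin n)) 1) := by
    intro c
    induction c using WellFoundedLT.induction with
    | ind c ih =>
      intro k
      rw [hY]
      refine Submodule.sum_mem _ fun i _ => ?_
      rw [d8_cst_mul]
      refine Submodule.smul_mem _ _ ?_
      rcases hl : lb c i with z | ⟨d, k'⟩
      · refine Submodule.sum_mem _ fun j _ => ?_
        have : algebraMap K (PR D (Fin n)) (algebraMap ℂ K (z j))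
            = cst (Fin n) (algebraMap K D (algebraMap ℂ K (z j))) := rfl
        rw [this, d8_cst_mul]
        exact Submodule.smul_mem _ _ (hxv j)
      · exact ih d (hlb c i d k' hl) k'
  obtain ⟨χ, hχ⟩ := exists_ncEval (K := K)
    (Sum.elim (fun i => xv D i) fun ck : Fin N × Fin n => Y ck.1 ck.2) (by
      rintro (i | ck) v
      · exact d8_xv_commute i _
      · rcases v with j | ck'
        · exact (d8_xv_commute j _).symm
        · exact hb' _ _ _ _)
  have hχl : ∀ l, χ (labP K l) = d8hat K Y l := by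
    rintro (z | ck)
    · simp only [labP, d8hat, map_sum, map_mul, hχ, Sum.elim_inl, algHom_C]
    · simp only [labP, d8hat, hχ, Sum.elim_inr]
  refine ⟨χ, fun i => hχ _, fun ck => by rw [hχ]; exact hdeg _ _, fun c k => ?_⟩
  obtain ⟨ρ, h1, h2, h3⟩ := hsub c (hlab c fun d d' _ _ => hb' d d')
  have hcomp : χ.comp (labA K lb c) = ρ := MvPolynomial.algHom_ext fun v => by
    rcases v with i | k
    · rw [AlgHom.comp_apply, labA, aeval_X, Sum.elim_inl, hχl, h1]
    · rw [AlgHom.comp_apply, labA, aeval_X, Sum.elim_inr, hχ, h2]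
      rfl
  rw [← AlgHom.comp_apply, hcomp, h3]

end Crest.Agent.R181
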