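import Crest.Agent.R181.KDefs

/-!
# Row 181, construction of the skew field: definitions.

A *curve* is the complete intersection `w_k ^ b_k = A_k(u, v, w_{<k})` (`k : Fin n`) in the
variables `u = inl 0`, `v = inl 1`, `w_k = inr k`.

Graded modules over `E ⊗ K[u,v,w]/(equations)` (`E` a division algebra over `K`) are encoded as
plain modules over the free monoid algebra `TT E P` on the symbols `aT p` (action of the
polynomial `p`) and `πT t` (projection on the degree-`t` part) satisfying the predicate `IsGM`.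
-/

set_option autoImplicit false

namespace Crest.Agent.R181

open Module MvPolynomial

/-- Variables of one curve. -/
abbrev Var (n : ℕ) := Fin 2 ⊕ Fin n

/-- Polynomials in the variables of one curve. -/
abbrev PP (K : Type) [CommSemiring K] (n : ℕ) := MvPolynomial (Var n) K

/-- Degree of the curve. -/
def dB {n : ℕ} (b : Fin n → ℕ) : ℤ := ∏ k, (b k : ℤ)

/-- Constant term of the Hilbert polynomial of the curve. -/
def eB {n : ℕ} (b : Fin n → ℕ) : ℤ := ∑ β : (∀ k, Fin (b k)), (1 - ∑ k, ((β k : ℕ) : ℤ))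

/-- Hilbert polynomial of the curve. -/
def hB {n : ℕ} (b : Fin n → ℕ) (t : ℤ) : ℤ := dB b * t + eB b

/-- One curve. -/
structure CD1 (K : Type) [Field K] (n : ℕ) where
  b : Fin n → ℕ
  hb : ∀ k, 1 ≤ b k
  A : Fin n → PP K n
  hom : ∀ k, (A k).IsHomogeneous (b k)
  supp : ∀ k l, k ≤ l → Sum.inr l ∉ (A k).vars

/-- The equations of the curve. -/
noncomputable def CD1.eqn {K : Type} [Field K] {n : ℕ} (γ : CD1 K n) (k : Fin n) : PP K n :=
  X (Sum.inr k) ^ γ.b k - γ.A k

/-- A family of curves with the same degrees. -/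
structure CD (K : Type) [Field K] (n : ℕ) (C : Type) where
  b : Fin n → ℕ
  hb : ∀ k, 1 ≤ b k
  A : C → Fin n → PP K n
  hom : ∀ c k, (A c k).IsHomogeneous (b k)
  supp : ∀ c k l, k ≤ l → Sum.inr l ∉ (A c k).vars

/-- One member of the family. -/
def CD.cv {K : Type} [Field K] {n : ℕ} {C : Type} (Γ : CD K n C) (c : C) : CD1 K n :=
  ⟨Γ.b, Γ.hb, Γ.A c, Γ.hom c, Γ.supp c⟩

/-! ### Integrality of multigraded Hilbert functions -/

section Intg

variable {n : ℕ} {C : Type}

/-- Integer combinations of products of functions `α h(s_c) - β d`. -/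
def GoodFn (b : Fin n → ℕ) (L : Finset C) : AddSubgroup ((C → ℤ) → ℤ) :=
  AddSubgroup.closure
    {G | ∃ α β : C → ℤ, G = fun s => ∏ c ∈ L, (α c * hB b (s c) - β c * dB b)}

/-- `H` agrees with a member of `GoodFn` on large degrees supported on `L`. -/
def Good (b : Fin n → ℕ) (L : Finset C) (H : (C → ℤ) → ℤ) : Prop :=
  ∃ G ∈ GoodFn b L, ∃ T : ℤ, ∀ s : C → ℤ, (∀ c ∈ L, T ≤ s c) → (∀ c, c ∉ L → s c = 0) → H s = G s

/-- Multidegree of a monomial in the variables of all curves. -/
def mdeg (μ : C × Var n →₀ ℕ) : C → ℤ := fun c => ∑ v : Var n, (μ (c, v) : ℤ)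

/-- The piece of multidegree `s`. -/
noncomputable abbrev Pc (E : Type) [Semiring E] (n : ℕ) (s : C → ℤ) :
    Submodule E (PR E (C × Var n)) :=
  mon E {μ | mdeg μ = s}

variable {K : Type} [Field K] (Γ : CD K n C) (E : Type) [DivisionRing E] [Algebra K E]

/-- The equations inside `E[all variables]`. -/
noncomputable def eqE (c : C) (k : Fin n) : PR E (C × Var n) :=
  AddMonoidAlgebra.mapRingHom (C × Var n →₀ ℕ) (algebraMap K E)
    (rename (Prod.mk c) ((Γ.cv c).eqn k))

/-- A homogeneous left ideal containing the equations, for the curves in `L`. -/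
structure Fam [DecidableEq C] (L : Finset C)
    (𝔠 : (C → ℤ) → Submodule E (PR E (C × Var n))) : Prop where
  le : ∀ s, 𝔠 s ≤ Pc E n s
  mul : ∀ s, ∀ c ∈ L, ∀ v : Var n, ∀ p ∈ 𝔠 s, tx E (c, v) p ∈ 𝔠 (s + Pi.single c 1)
  eq : ∀ c ∈ L, ∀ k, eqE Γ E c k ∈ 𝔠 (Pi.single c (Γ.b k : ℤ))

/-- The integrality invariant. -/
def Intg [DecidableEq C] (L : Finset C) : Prop :=
  ∀ 𝔠, Fam Γ E L 𝔠 → Good Γ.b L fun s => (finrank E (Pc E n s) : ℤ) - finrank E (𝔠 s)

end Intg

/-! ### Graded modules over one curve -/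

section GM

/-- The free monoid algebra on the operators. -/
abbrev TT (E : Type) [Semiring E] (P : Type) := MonoidAlgebra E (FreeMonoid (P ⊕ ℤ))

/-- Action of a polynomial. -/
noncomputable def aT (E : Type) [Semiring E] {P : Type} (p : P) : TT E P :=
  MonoidAlgebra.single (FreeMonoid.of (Sum.inl p)) 1

/-- Projection on the degree `t` part. -/
noncomputable def πT (E : Type) [Semiring E] (P : Type) (t : ℤ) : TT E P :=
  MonoidAlgebra.single (FreeMonoid.of (Sum.inr t)) 1

/-- Scalars. -/
noncomputable def sT {E : Type} [Semiring E] (P : Type) (e : E) : TT E P :=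
  MonoidAlgebra.single 1 e

theorem sT_comm_single {E : Type} [Semiring E] {P : Type} (e : E) (m : FreeMonoid (P ⊕ ℤ)) :
    sT P e * MonoidAlgebra.single m 1 = MonoidAlgebra.single m 1 * sT P e := by
  simp [sT, MonoidAlgebra.single_mul_single]

/-- A `TT E P`-module seen as an `E`-module. -/
def Res (E : Type) [Semiring E] (_P : Type) (X : Type) : Type := X

instance (E : Type) [Semiring E] (P X : Type) [h : AddCommGroup X] :
    AddCommGroup (Res E P X) := h

noncomputable instance (E : Type) [Semiring E] (P X : Type) [AddCommGroup X]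
    [Module (TT E P) X] : Module E (Res E P X) :=
  Module.compHom X (MonoidAlgebra.singleOneRingHom : E →+* TT E P)

/-- The identity map `X → Res E P X`. -/
def toRes (E : Type) [Semiring E] (P : Type) {X : Type} [AddCommGroup X] : X ≃+ Res E P X :=
  AddEquiv.refl X

theorem smul_toRes {E : Type} [Semiring E] {P X : Type} [AddCommGroup X] [Module (TT E P) X]
    (e : E) (x : X) : e • toRes E P x = toRes E P (sT P e • x) := rfl

/-- A `TT`-submodule as an `E`-submodule. -/
noncomputable def resSub {E : Type} [Semiring E] {P X : Type} [AddCommGroup X] [Module (TT E P) X]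
    (A : Submodule (TT E P) X) : Submodule E (Res E P X) where
  carrier := {x | (toRes E P).symm x ∈ A}
  add_mem' := fun ha hb => A.add_mem ha hb
  zero_mem' := A.zero_mem
  smul_mem' := fun e _ hx => A.smul_mem (sT P e) hx

/-- A `TT`-linear map as an `E`-linear map. -/
noncomputable def resMap {E : Type} [Semiring E] {P X Y : Type} [AddCommGroup X] [Module (TT E P) X]
    [AddCommGroup Y] [Module (TT E P) Y] (f : X →ₗ[TT E P] Y) : Res E P X →ₗ[E] Res E P Y where
  toFun x := toRes E P (f ((toRes E P).symm x))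
  map_add' := fun x y => f.map_add x y
  map_smul' := fun e x => f.map_smul (sT P e) x

/-- The degree `t` part. -/
noncomputable def piece (E : Type) [Semiring E] (P X : Type) [AddCommGroup X] [Module (TT E P) X] (t : ℤ) :
    Submodule E (Res E P X) where
  carrier := {x | πT E P t • (toRes E P).symm x = (toRes E P).symm x}
  add_mem' := fun {x y} hx hy => by
    change πT E P t • ((toRes E P).symm x + (toRes E P).symm y) = _
    rw [smul_add, hx, hy]; rfl
  zero_mem' := smul_zero _
  smul_mem' := fun e x hx => by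
    change πT E P t • (sT P e • (toRes E P).symm x) = sT P e • (toRes E P).symm x
    rw [← mul_smul, πT, ← sT_comm_single, mul_smul]
    exact congrArg _ hx

variable {K : Type} [Field K] {n : ℕ} (E : Type) [DivisionRing E] [Algebra K E] (γ : CD1 K n)

/-- Graded module over `E ⊗ K[u,v,w]/(equations of γ)`. -/
structure IsGM (X : Type) [AddCommGroup X] [Module (TT E (PP K n)) X] : Prop where
  add : ∀ (p q : PP K n) (x : X), aT E (p + q) • x = aT E p • x + aT E q • x
  mul : ∀ (p q : PP K n) (x : X), aT E (p * q) • x = aT E p • aT E q • x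
  const : ∀ (k : K) (x : X),
    aT E (MvPolynomial.C k : PP K n) • x = sT (PP K n) (algebraMap K E k) • x
  pp : ∀ (t t' : ℤ) (x : X),
    πT E (PP K n) t • πT E (PP K n) t' • x = if t = t' then πT E (PP K n) t • x else 0
  px : ∀ (v : Var n) (t : ℤ) (x : X), πT E (PP K n) (t + 1) • aT E (MvPolynomial.X v : PP K n) • x =
    aT E (MvPolynomial.X v : PP K n) • πT E (PP K n) t • x
  fin : ∀ x : X, ∃ s : Finset ℤ, x = ∑ t ∈ s, πT E (PP K n) t • x
  eq : ∀ (k : Fin n) (x : X), aT E (γ.eqn k) • x = 0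

/-- Finitely generated graded module. -/
def Adm (X : Type) [AddCommGroup X] [Module (TT E (PP K n)) X] : Prop :=
  IsGM E γ X ∧ Module.Finite (TT E (PP K n)) X

/-- The Hilbert function is eventually `c₀ h - c₁ d`. -/
def HasC (X : Type) [AddCommGroup X] [Module (TT E (PP K n)) X] (c : ℤ × ℤ) : Prop :=
  ∃ T : ℤ, ∀ t, T ≤ t →
    (finrank E (piece E (PP K n) X t) : ℤ) = c.1 * hB γ.b t - c.2 * dB γ.b

open Classical in
/-- The additive invariant `Z = c₀ + c₁`. -/
noncomputable def ZZ (X : Type) [AddCommGroup X] [Module (TT E (PP K n)) X] : ℤ :=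
  if h : ∃ c, HasC E γ X c then h.choose.1 + h.choose.2 else 0

/-- Integrality for finitely generated graded modules over one curve. -/
def Int1 : Prop :=
  ∀ (X : Type) [AddCommGroup X] [Module (TT E (PP K n)) X], Adm E γ X → ∃ c, HasC E γ X c

/-- All quotients have `Z ≤ r`. -/
def DLe (X : Type) [AddCommGroup X] [Module (TT E (PP K n)) X] (r : ℤ) : Prop :=
  ∀ A : Submodule (TT E (PP K n)) X, ZZ E γ (X ⧸ A) ≤ r

/-- Stable modules with `Z = 1`. -/
def GoodM (Y : Type) [AddCommGroup Y] [Module (TT E (PP K n)) Y] : Prop :=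
  Adm E γ Y ∧ ZZ E γ Y = 1 ∧ ∀ A : Submodule (TT E (PP K n)) Y, A ≠ ⊥ → 1 ≤ ZZ E γ A

/-- Standard monomials. -/
def Std : Type := {μ : Var n →₀ ℕ // ∀ k, μ (Sum.inr k) < γ.b k}

/-- The free module of rank one with generator in degree `j`. -/
structure OPre (j : ℤ) where
  X : Type
  [acg : AddCommGroup X]
  [mod : Module (TT E (PP K n)) X]
  gm : IsGM E γ X
  g : X
  hg : πT E (PP K n) j • g = g
  B : Basis (Std γ) E (Res E (PP K n) X)
  hB : ∀ μ : Std γ, B μ = toRes E (PP K n) (aT E (monomial μ.1 (1 : K) : PP K n) • g)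

attribute [instance] OPre.acg OPre.mod

/-- The generic module: the union of all stable modules with a base point of degree `0`. -/
structure UM where
  X : Type
  [acg : AddCommGroup X]
  [mod : Module (TT E (PP K n)) X]
  gm : IsGM E γ X
  o : X
  ho : πT E (PP K n) 0 • o = o
  o_ne : o ≠ 0
  loc : ∀ S : Finset X, ∃ Y : Submodule (TT E (PP K n)) X,
    GoodM E γ Y ∧ o ∈ Y ∧ ∀ x ∈ S, x ∈ Y
  emb : ∀ (Y : Type) [AddCommGroup Y] [Module (TT E (PP K n)) Y], GoodM E γ Y →
    ∀ y : Y, πT E (PP K n) 0 • y = y → y ≠ 0 → ∃ f : Y →ₗ[TT E (PP K n)] X, f y = o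

attribute [instance] UM.acg UM.mod

end GM

/-- The linear forms `θ_{k,0} u + θ_{k,1} v ∈ D[u,v]` commute and satisfy the equations. -/
def Sat {K : Type} [Field K] {n : ℕ} (γ : CD1 K n) {D : Type} [Ring D] [Algebra K D]
    (θ : Fin n → Fin 2 → D) : Prop :=
  ∃ ρ : PP K n →ₐ[K] PR D (Fin 2), (∀ i, ρ (X (Sum.inl i)) = xv D i) ∧
    (∀ k, ρ (X (Sum.inr k)) = ∑ i, cst (Fin 2) (θ k i) * xv D i) ∧ ∀ k, ρ (γ.eqn k) = 0

/-! ### Labels -/

/-- Symbols: the variables `x_i` and one symbol `X(c,k)` for each curve and each `w_k`. -/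
abbrev Sym (R : Type) [CommSemiring R] (n : ℕ) (C : Type) := MvPolynomial (Fin n ⊕ C × Fin n) R

/-- A label is a linear form in the `x_i` or a symbol. -/
abbrev Lab (n : ℕ) (C : Type) := (Fin n → ℂ) ⊕ C × Fin n

/-- The polynomial of a label. -/
noncomputable def labP (R : Type) [CommRing R] [Algebra ℂ R] {n : ℕ} {C : Type} :
    Lab n C → Sym R n C
  | Sum.inl z => ∑ i, MvPolynomial.C (algebraMap ℂ R (z i)) * X (Sum.inl i)
  | Sum.inr ck => X (Sum.inr ck)

/-- Substituting labels for the variables of the curve `c`. -/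
noncomputable def labA (R : Type) [CommRing R] [Algebra ℂ R] {n : ℕ} {C : Type}
    (lb : C → Fin 2 → Lab n C) (c : C) : PP R n →ₐ[R] Sym R n C :=
  aeval (Sum.elim (fun i => labP R (lb c i)) fun k => X (Sum.inr (c, k)))

end Crest.Agent.R181
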