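import Crest.Agent.R181.GDefs

/-! # Row 181, G1 (part A): existence of the schedule, telescoping. -/

set_option autoImplicit false

namespace Crest.Agent.R181

open Module MvPolynomial

variable {n : ℕ} {a : Fin n → ℕ}

theorem NN_succ (N0 k : ℕ) : NN N0 (k + 1) = NN N0 k + NN N0 k := by
  unfold NN; ring

theorem NN_zero (N0 : ℕ) : NN N0 0 = N0 := by
  simp [NN]

theorem NN_mono (N0 : ℕ) : Monotone (NN N0) :=
  monotone_nat_of_le_succ fun k => by rw [NN_succ]; omega

theorem NN_pos {N0 : ℕ} (h : 0 < N0) (k : ℕ) : 0 < NN N0 k := by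
  unfold NN; positivity

/-- Every curve is a plane or a node. -/
theorem plane_or_node (N0 n c : ℕ) (hc : c < NN N0 n) :
    c < N0 ∨ ∃ k < n, NN N0 k ≤ c ∧ c < NN N0 (k + 1) := by
  induction n with
  | zero => left; rwa [NN_zero] at hc
  | succ n ih =>
    by_cases h : c < NN N0 n
    · rcases ih h with h | ⟨k, hk, h⟩
      · exact Or.inl h
      · exact Or.inr ⟨k, by omega, h⟩
    · exact Or.inr ⟨n, by omega, by omega, hc⟩

theorem g1a_lin_pow (d : ℕ) (z : Fin n → ℂ) :
    lin z ^ d = ∑ s ∈ Finset.finsuppAntidiag (Finset.univ : Finset (Fin n)) d,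
      ((s.multinomial : ℂ) * s.prod fun r m => z r ^ m) • monomial s (1 : ℂ) := by
  have e : lin z = ∑ i, z i • X i := by
    simp only [lin, smul_eq_C_mul]
  ext s
  rw [e, coeff_linearCombination_X_pow_of_fintype, coeff_sum]
  simp only [coeff_smul, coeff_monomial, smul_eq_mul, mul_ite, mul_one, mul_zero,
    Finset.sum_ite_eq', Finset.mem_finsuppAntidiag', Finset.subset_univ, and_true]

/-- Powers of linear forms span the forms of degree `d` (characteristic zero). -/
theorem span_lin_pow (n d : ℕ) : homogeneousSubmodule (Fin n) ℂ d ≤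
    Submodule.span ℂ {p | ∃ z : Fin n → ℂ, p = lin z ^ d} := by
  intro p hp
  rw [← Subspace.forall_mem_dualAnnihilator_apply_eq_zero_iff]
  intro φ hφ
  rw [Submodule.mem_dualAnnihilator] at hφ
  have h0 : (∑ s ∈ Finset.finsuppAntidiag (Finset.univ : Finset (Fin n)) d,
      monomial s ((s.multinomial : ℂ) * φ (monomial s 1))) = 0 := by
    refine MvPolynomial.funext fun z => ?_
    have := hφ _ (Submodule.subset_span ⟨z, rfl⟩)
    rw [g1a_lin_pow, map_sum] at this
    rw [map_zero, map_sum, ← this]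
    refine Finset.sum_congr rfl fun s _ => ?_
    rw [eval_monomial, map_smul, smul_eq_mul]; ring
  have h1 : ∀ s : Fin n →₀ ℕ, s.degree = d → φ (monomial s 1) = 0 := by
    intro s hs
    have h2 := congrArg (coeff s) h0
    rw [coeff_sum] at h2
    simp only [coeff_monomial, Finset.sum_ite_eq', Finset.mem_finsuppAntidiag', Finset.subset_univ,
      and_true, coeff_zero] at h2
    rw [if_pos (show s.sum (fun _ x => x) = d from hs), mul_eq_zero] at h2
    refine h2.resolve_left ?_
    rw [Finsupp.multinomial_eq]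
    exact_mod_cast (Nat.multinomial_pos _ _).ne'
  rw [p.as_sum, map_sum]
  refine Finset.sum_eq_zero fun s hs => ?_
  have h3 : monomial s (coeff s p) = coeff s p • monomial s (1 : ℂ) := by
    rw [smul_monomial, smul_eq_mul, mul_one]
  rw [h3, map_smul, h1 s, smul_zero]
  by_contra h
  exact mem_support_iff.1 hs (IsHomogeneous.coeff_eq_zero hp h)

theorem g1a_finite (n d : ℕ) : ∃ Z : Finset (Fin n → ℂ), homogeneousSubmodule (Fin n) ℂ d ≤
    Submodule.span ℂ {p | ∃ z ∈ Z, p = lin z ^ d} := by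
  classical
  obtain ⟨t, ht⟩ := homogeneousSubmodule_fg (Fin n) ℂ d
  obtain ⟨T, hT, h⟩ := Submodule.subset_span_finite_of_subset_span (R := ℂ) (t := t)
    (s := {p | ∃ z : Fin n → ℂ, p = lin z ^ d})
    fun p hp => span_lin_pow n d (ht ▸ Submodule.subset_span hp)
  choose f hf using fun p : T => hT p.2
  refine ⟨Finset.univ.image f, ?_⟩
  rw [← ht, Submodule.span_le]
  refine h.trans (Submodule.span_mono fun p hp => ?_)
  exact ⟨f ⟨p, hp⟩, Finset.mem_image_of_mem _ (Finset.mem_univ _), hf ⟨p, hp⟩⟩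

theorem g1a_enum (n : ℕ) (a : Fin n → ℕ) : ∃ M : ℕ, 0 < M ∧ ∃ z : ℕ → Fin n → ℂ,
    ∀ j, homogeneousSubmodule (Fin n) ℂ (a j) ≤
      Submodule.span ℂ {p | ∃ i < M, p = lin (z i) ^ a j} := by
  classical
  choose Z hZ using fun j => g1a_finite n (a j)
  set L := (Finset.univ.biUnion Z).toList with hL
  refine ⟨L.length + 1, by omega, fun i => L.getD i 0, fun j => (hZ j).trans
    (Submodule.span_mono ?_)⟩
  rintro p ⟨z, hz, rfl⟩
  have : z ∈ L := Finset.mem_toList.2 (Finset.mem_biUnion.2 ⟨j, Finset.mem_univ _, hz⟩)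
  obtain ⟨i, hi, rfl⟩ := List.getElem_of_mem this
  exact ⟨i, by omega, by beta_reduce; rw [List.getD_eq_getElem _ _ hi]⟩

theorem g1a_uniq {N0 c k l : ℕ} (h1 : NN N0 k ≤ c) (h2 : c < NN N0 (k + 1)) (h3 : NN N0 l ≤ c)
    (h4 : c < NN N0 (l + 1)) : k = l := by
  rcases lt_trichotomy k l with h | h | h
  · have := NN_mono N0 (show k + 1 ≤ l from h); omega
  · exact h
  · have := NN_mono N0 (show l + 1 ≤ k from h); omega

theorem g1a_lab (n N0 : ℕ) (hN : 0 < N0) (zl : ℕ → Fin 2 → Fin n → ℂ) (c : Fin (NN N0 n)) :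
    ∃ l : Fin 2 → Lab n (Fin (NN N0 n)),
      (∀ i c' k, l i = Sum.inr (c', k) → c' < c) ∧
      (∀ i : Fin 2, c.1 < N0 → l i = Sum.inl (zl c i)) ∧
      (∀ (k : Fin n) (r : Fin (NN N0 n)), c.1 = NN N0 k + r.1 → r.1 < NN N0 k →
        l 1 = Sum.inr (r, k)) ∧
      (∀ (k : Fin n) (c' : Fin (NN N0 n)), c.1 = c'.1 + 1 → NN N0 k ≤ c'.1 →
        c.1 < NN N0 (k + 1) → l 0 = Sum.inr (c', k)) ∧
      (∀ k : Fin n, c.1 = NN N0 k → l 0 = Sum.inl 0) := by
  have h0 : ∀ k, N0 ≤ NN N0 k := fun k => by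
    simpa [NN_zero] using NN_mono N0 (Nat.zero_le k)
  rcases plane_or_node N0 n c c.2 with h | ⟨k, hk, h1, h2⟩
  · refine ⟨fun i => Sum.inl (zl c i), by simp, fun _ _ => rfl, fun k r e _ => ?_,
      fun k c' e e' _ => ?_, fun k e => ?_⟩ <;> have := h0 k <;> omega
  · have hc := c.2
    have hk0 := h0 k
    refine ⟨![if c.1 = NN N0 k then Sum.inl 0 else Sum.inr (⟨c.1 - 1, by omega⟩, ⟨k, hk⟩),
      Sum.inr (⟨c.1 - NN N0 k, by omega⟩, ⟨k, hk⟩)], ?_, fun _ h => by omega, ?_, ?_, ?_⟩
    · intro i c' k' e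
      fin_cases i
      · simp only [Fin.zero_eta, Matrix.cons_val_zero] at e
        split_ifs at e with h
        simp only [Sum.inr.injEq, Prod.mk.injEq] at e
        rw [← e.1, Fin.lt_def]
        simp only
        omega
      · simp only [Fin.mk_one, Matrix.cons_val_one, Matrix.cons_val_zero, Sum.inr.injEq,
          Prod.mk.injEq] at e
        rw [← e.1, Fin.lt_def]
        simp only
        omega
    · intro l r e e'
      obtain rfl : k = l := g1a_uniq h1 h2 (by omega) (by rw [NN_succ]; omega)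
      simp only [Matrix.cons_val_one, Matrix.cons_val_zero, Sum.inr.injEq, Prod.mk.injEq,
        and_true]
      ext
      simp only
      omega
    · intro l c' e e' e''
      obtain rfl : k = l := g1a_uniq h1 h2 (by omega) e''
      simp only [Matrix.cons_val_zero]
      rw [if_neg (by omega)]
      simp only [Sum.inr.injEq, Prod.mk.injEq, and_true]
      ext
      simp only
      omega
    · intro l e
      have := h0 l
      obtain rfl : k = l := g1a_uniq h1 h2 (by omega) (by rw [NN_succ]; omega)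
      simp only [Matrix.cons_val_zero]
      rw [if_pos e]

theorem exists_sch (n : ℕ) (a : Fin n → ℕ) : Nonempty (Sch n a) := by
  obtain ⟨M, hM, z, hz⟩ := g1a_enum n a
  have hN : 0 < M * M := Nat.mul_pos hM hM
  choose lb h1 h2 h3 h4 h5 using g1a_lab n (M * M) hN fun c => ![z (c / M), z (c % M)]
  have hdiv : ∀ c < M * M, c / M < M := fun c hc => Nat.div_lt_of_lt_mul hc
  have hlt : ∀ i < M, ∀ j < M, M * i + j < M * M := fun i hi j hj => by
    have : M * (i + 1) ≤ M * M := Nat.mul_le_mul_left M hi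
    rw [Nat.mul_succ] at this
    omega
  refine ⟨{
    N0 := M * M
    pos := hN
    zl := fun c => ![z (c / M), z (c % M)]
    pairs := fun c hc c' hc' => ⟨M * (c / M) + c' / M, hlt _ (hdiv c hc) _ (hdiv c' hc'), ?_, ?_⟩
    span := fun j => (hz j).trans (Submodule.span_mono ?_)
    lb := lb
    lt := h1
    plane := h2
    node1 := fun k c r => h3 c k r
    node0 := fun k c c' => h4 c k c'
    node00 := fun k c => h5 c k
    last := fun k => ⟨NN (M * M) (k + 1) - 1, by
      have := NN_mono (M * M) (show k.1 + 1 ≤ n from k.2)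
      have := NN_pos hN (k + 1)
      omega⟩
    hlast := fun k => by
      have := NN_pos hN (k + 1)
      simp only
      omega }⟩
  · simp only [Matrix.cons_val_zero]
    rw [Nat.mul_add_div hM, Nat.div_eq_of_lt (hdiv c' hc'), add_zero]
  · simp only [Matrix.cons_val_zero, Matrix.cons_val_one]
    rw [Nat.mul_add_mod, Nat.mod_eq_of_lt (hdiv c' hc')]
  · rintro p ⟨i, hi, rfl⟩
    refine ⟨M * i, by simpa using hlt i hi 0 hM, ?_⟩
    simp only [Matrix.cons_val_zero]
    rw [Nat.mul_div_cancel_left i hM]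

theorem g1a_tel {R : Type} [CommRing R] {L : ℕ} (N : ℕ) (Mη : Submonoid R)
    (α β W V η₀ η₁ : Fin L → R) (h₀ : ∀ c, η₀ c ∈ Mη) (h₁ : ∀ c, η₁ c ∈ Mη)
    (hfirst : ∀ c r : Fin L, c.1 = N → r.1 = 0 → W c = β c * (η₁ c * V r))
    (hnext : ∀ c c' r : Fin L, c.1 = c'.1 + 1 → N ≤ c'.1 → c.1 = N + r.1 → r.1 < N →
      W c = α c * (η₀ c * W c') + β c * (η₁ c * V r)) (j : ℕ) :
    ∀ c : Fin L, j < N → c.1 = N + j → ∃ η : Fin L → R, (∀ r, η r ∈ Mη) ∧ W c =
      ∑ r ∈ Finset.univ.filter (fun r : Fin L => r.1 < j + 1),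
        η r * (((∏ c' ∈ Finset.univ.filter (fun c' : Fin L => c'.1 = N + r.1), β c') *
          ∏ c' ∈ Finset.univ.filter (fun c' : Fin L => N + r.1 < c'.1 ∧ c'.1 < N + (j + 1)),
            α c') * V r) := by
  have single : ∀ c r : Fin L, c.1 = N + r.1 →
      Finset.univ.filter (fun c' : Fin L => c'.1 = N + r.1) = {c} := fun c r e => by
    ext x
    simp only [Finset.mem_filter, Finset.mem_univ, true_and, Finset.mem_singleton, Fin.ext_iff]
    omega
  have empty : ∀ r : Fin L,
      Finset.univ.filter (fun c' : Fin L => N + r.1 < c'.1 ∧ c'.1 < N + (r.1 + 1)) = ∅ :=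
    fun r => Finset.filter_eq_empty_iff.2 fun x _ => by omega
  induction j with
  | zero =>
    intro c _ e
    have hc := c.2
    let r : Fin L := ⟨0, by omega⟩
    have hr : Finset.univ.filter (fun x : Fin L => x.1 < 0 + 1) = {r} := by
      ext x
      simp only [Finset.mem_filter, Finset.mem_univ, true_and, Finset.mem_singleton, Fin.ext_iff, r]
      omega
    refine ⟨fun _ => η₁ c, fun _ => h₁ c, ?_⟩
    rw [hr, Finset.sum_singleton, single c r e, empty r, hfirst c r e rfl]
    simp only [Finset.prod_singleton, Finset.prod_empty]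
    ring
  | succ j ih =>
    intro c hj e
    have hc := c.2
    let c' : Fin L := ⟨N + j, by omega⟩
    let r : Fin L := ⟨j + 1, by omega⟩
    obtain ⟨η, hη, hW⟩ := ih c' (by omega) rfl
    have hr : Finset.univ.filter (fun x : Fin L => x.1 < j + 1 + 1) =
        insert r (Finset.univ.filter fun x : Fin L => x.1 < j + 1) := by
      ext x
      simp only [Finset.mem_filter, Finset.mem_univ, true_and, Finset.mem_insert, Fin.ext_iff, r]
      omega
    refine ⟨fun s => if s = r then η₁ c else η₀ c * η s, fun s => ?_, ?_⟩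
    · beta_reduce
      split_ifs
      · exact h₁ c
      · exact Mη.mul_mem (h₀ c) (hη s)
    beta_reduce
    rw [hr, Finset.sum_insert (by simp [r]), single c r e, empty r,
      hnext c c' r (by simp only [c']; omega) (by simp only [c']; omega) e hj, hW, Finset.mul_sum,
      Finset.mul_sum, add_comm, if_pos rfl]
    congr 1
    · simp only [Finset.prod_singleton, Finset.prod_empty]
      ring
    · refine Finset.sum_congr rfl fun s hs => ?_
      have hs' := (Finset.mem_filter.1 hs).2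
      have hi : Finset.univ.filter (fun x : Fin L => N + s.1 < x.1 ∧ x.1 < N + (j + 1 + 1)) =
          insert c (Finset.univ.filter fun x : Fin L => N + s.1 < x.1 ∧ x.1 < N + (j + 1)) := by
        ext x
        simp only [Finset.mem_filter, Finset.mem_univ, true_and, Finset.mem_insert, Fin.ext_iff]
        omega
      rw [hi, Finset.prod_insert (by simp; omega), if_neg (by
        rintro rfl
        simp [r] at hs')]
      ring

/-- Telescoping: if `W_c = α_c η⁰_c W_{c-1} + β_c η¹_c V_{c - N_k}` along the nodes of stage `k`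
(`W_{c-1}` absent for the first node), then `W_last = ∑_r η_r κ_r V_r` with `η_r` a product of
some of the `η`'s. -/
theorem Sch.telescope (σ : Sch n a) (m : ℕ) {R : Type} [CommRing R] [Algebra ℂ R]
    (π : σ.Par m → R) (k : Fin n) (Mη : Submonoid R) (W V η₀ η₁ : σ.Cv → R)
    (h₀ : ∀ c, η₀ c ∈ Mη) (h₁ : ∀ c, η₁ c ∈ Mη)
    (hfirst : ∀ c r : σ.Cv, c.1 = NN σ.N0 k → r.1 = 0 →
      W c = π (Sum.inl (c, k, 1)) * (η₁ c * V r))
    (hnext : ∀ c c' r : σ.Cv, c.1 = c'.1 + 1 → NN σ.N0 k ≤ c'.1 → c.1 = NN σ.N0 k + r.1 →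
      r.1 < NN σ.N0 k →
      W c = π (Sum.inl (c, k, 0)) * (η₀ c * W c') + π (Sum.inl (c, k, 1)) * (η₁ c * V r)) :
    ∃ η : σ.Cv → R, (∀ r, η r ∈ Mη) ∧ W (σ.last k) =
      ∑ r ∈ Finset.univ.filter (fun r : σ.Cv => r.1 < NN σ.N0 k),
        η r * (aeval π (σ.kap m r k) * V r) := by
  have hpos := NN_pos σ.pos k
  have hl := σ.hlast k
  rw [NN_succ] at hl
  obtain ⟨η, hη, hW⟩ := g1a_tel (NN σ.N0 k) Mη (fun c => π (Sum.inl (c, k, 0)))
    (fun c => π (Sum.inl (c, k, 1))) W V η₀ η₁ h₀ h₁ hfirst hnext (NN σ.N0 k - 1) (σ.last k)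
    (by omega) (by omega)
  refine ⟨η, hη, ?_⟩
  rw [hW, Nat.sub_add_cancel hpos]
  refine Finset.sum_congr rfl fun r hr => ?_
  rw [Sch.kap, if_pos (Finset.mem_filter.1 hr).2, NN_succ]
  simp only [map_mul, map_prod, aeval_X]

end Crest.Agent.R181
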