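import Crest.Agent.R181.GDefs

/-! # Row 181, G1 (part B): the spanning families and the row data. -/

set_option autoImplicit false

namespace Crest.Agent.R181

open Module MvPolynomial

variable {n : ℕ} {a : Fin n → ℕ}

theorem labP_inl {C : Type} (z : Fin n → ℂ) :
    labP ℂ (Sum.inl z : Lab n C) = rename Sum.inl (lin z) := by
  simp [labP, lin]

theorem Sch.mem_AA (σ : Sch n a) {k : Fin n} {A : σ.Cv → PP ℂ n} :
    A ∈ σ.AA k ↔ ∀ c, (c.1 < NN σ.N0 k → (A c).IsHomogeneous (bb a k) ∧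
      ∀ l, k ≤ l → Sum.inr l ∉ (A c).vars) ∧ (NN σ.N0 k ≤ c.1 → A c = 0) := by
  unfold Sch.AA
  rw [Submodule.mem_pi]
  refine forall_congr' fun c => ?_
  simp only [Set.mem_univ, true_imp_iff]
  split_ifs with h
  · rw [Submodule.mem_inf, mem_homogeneousSubmodule, Subalgebra.mem_toSubmodule, mem_supported]
    constructor
    · rintro ⟨h1, h2⟩
      exact ⟨fun _ => ⟨h1, fun l hl hv => absurd (h2 hv l rfl) (not_lt.2 hl)⟩,
        fun h' => absurd h (not_lt.2 h')⟩
    · rintro ⟨h1, -⟩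
      refine ⟨(h1 h).1, fun v hv l hl => ?_⟩
      by_contra hlt
      exact (h1 h).2 l (not_lt.1 hlt) (hl ▸ hv)
  · rw [Submodule.mem_bot]
    exact ⟨fun h1 => ⟨fun h' => absurd h' h, fun _ => h1⟩, fun h1 => h1.2 (not_lt.1 h)⟩

theorem Sch.labSum_apply (σ : Sch n a) (A : σ.Cv → PP ℂ n) :
    σ.labSum A = ∑ c, labA ℂ σ.lb c (A c) := by
  simp [Sch.labSum]

theorem Sch.g1b_fg (σ : Sch n a) (f : Fin n → MvPolynomial (Fin n) ℂ) (k : Fin n) :
    (σ.WW f k).FG := by
  have h1 : (Submodule.pi Set.univ fun _ : σ.Cv => homogeneousSubmodule (Var n) ℂ (bb a k)).FG :=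
    Submodule.fg_pi fun _ => homogeneousSubmodule_fg _ _ _
  have := Module.Finite.iff_fg.2 h1
  have h2 : σ.WW f k ≤ Submodule.pi Set.univ fun _ : σ.Cv => homogeneousSubmodule (Var n) ℂ (bb a k) := by
    intro A hA c _
    have h3 := σ.mem_AA.1 hA.1 c
    rcases lt_or_ge c.1 (NN σ.N0 k) with h | h
    · exact (h3.1 h).1
    · rw [h3.2 h]; exact Submodule.zero_mem _
  exact Module.Finite.iff_fg.1 (Submodule.finiteDimensional_of_le h2)

theorem Sch.g1b_dec (σ : Sch n a) (f : Fin n → MvPolynomial (Fin n) ℂ) (k : Fin n)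
    {p : Sym ℂ n σ.Cv} (hp : p ∈ σ.WS f k) :
    ∃ (γ : ℂ) (G H : Fin n → Sym ℂ n σ.Cv), (∀ i, (G i).IsHomogeneous (bb a k - a i)) ∧
      (∀ l, (H l).IsHomogeneous (bb a k - 1)) ∧
      p = MvPolynomial.C γ * rename Sum.inl (f (Fin.rev k)) +
        ∑ i ∈ Finset.univ.filter (· < Fin.rev k), G i * rename Sum.inl (f i) +
        ∑ l ∈ Finset.univ.filter (· < k), H l * σ.ysym ℂ l := by
  induction hp using Submodule.span_induction with
  | mem p hp =>
    rcases hp with ⟨i, hi, G, hG, rfl⟩ | ⟨l, hl, H, hH, rfl⟩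
    · rcases hi.eq_or_lt with rfl | hi
      · have h0 : bb a k - a (Fin.rev k) = 0 := Nat.sub_self _
        rw [h0, ← totalDegree_zero_iff_isHomogeneous, totalDegree_eq_zero_iff_eq_C] at hG
        refine ⟨G.coeff 0, 0, 0, fun _ => isHomogeneous_zero _ _ _, fun _ => isHomogeneous_zero _ _ _, ?_⟩
        rw [← hG]
        simp
      · refine ⟨0, Pi.single i G, 0, fun j => ?_, fun _ => isHomogeneous_zero _ _ _, ?_⟩
        · by_cases hj : j = i
          · subst hj; simpa using hG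
          · rw [Pi.single_eq_of_ne hj]; exact isHomogeneous_zero _ _ _
        · rw [Finset.sum_eq_single i]
          · simp
          · intro j _ hj; rw [Pi.single_eq_of_ne hj, zero_mul]
          · intro h; exact absurd (by simpa using hi) h
    · refine ⟨0, 0, Pi.single l H, fun _ => isHomogeneous_zero _ _ _, fun j => ?_, ?_⟩
      · by_cases hj : j = l
        · subst hj; simpa using hH
        · rw [Pi.single_eq_of_ne hj]; exact isHomogeneous_zero _ _ _
      · rw [Finset.sum_eq_single l (s := Finset.univ.filter (· < k))]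
        · simp
        · intro j _ hj; rw [Pi.single_eq_of_ne hj, zero_mul]
        · intro h; exact absurd (by simpa using hl) h
  | zero =>
    exact ⟨0, 0, 0, fun _ => isHomogeneous_zero _ _ _, fun _ => isHomogeneous_zero _ _ _, by simp⟩
  | add p q _ _ hp hq =>
    obtain ⟨γ, G, H, hG, hH, rfl⟩ := hp
    obtain ⟨γ', G', H', hG', hH', rfl⟩ := hq
    refine ⟨γ + γ', G + G', H + H', fun i => (hG i).add (hG' i), fun l => (hH l).add (hH' l), ?_⟩
    simp only [Pi.add_apply, add_mul, Finset.sum_add_distrib, map_add]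
    ring
  | smul c p _ hp =>
    obtain ⟨γ, G, H, hG, hH, rfl⟩ := hp
    refine ⟨c * γ, c • G, c • H, fun i => (homogeneousSubmodule _ ℂ _).smul_mem c (hG i),
      fun l => (homogeneousSubmodule _ ℂ _).smul_mem c (hH l), ?_⟩
    simp only [Pi.smul_apply, smul_eq_C_mul, mul_add, Finset.mul_sum, map_mul, mul_assoc]

theorem Sch.g1b_extra (σ : Sch n a) (f : Fin n → MvPolynomial (Fin n) ℂ)
    (hf : ∀ i, (f i).IsHomogeneous (a i)) (k : Fin n) :
    ∃ A ∈ σ.WW f k, σ.labSum A = rename Sum.inl (f (Fin.rev k)) := by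
  have key : ∀ p ∈ Submodule.span ℂ {p | ∃ c < σ.N0, p = lin (σ.zl c 0) ^ a (Fin.rev k)},
      ∃ A ∈ σ.AA k, σ.labSum A = rename Sum.inl p := by
    intro p hp
    induction hp using Submodule.span_induction with
    | mem p hp =>
      obtain ⟨c, hc, rfl⟩ := hp
      have hle : ∀ j, σ.N0 ≤ NN σ.N0 j := fun j => Nat.le_mul_of_pos_left _ (by positivity)
      set c' : σ.Cv := ⟨c, hc.trans_le (hle n)⟩ with hc'
      refine ⟨Pi.single c' (X (Sum.inl 0) ^ bb a k), σ.mem_AA.2 fun d => ?_, ?_⟩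
      · by_cases hd : d = c'
        · subst hd
          rw [Pi.single_eq_same]
          refine ⟨fun _ => ⟨isHomogeneous_X_pow _ _, fun l _ hl => ?_⟩,
            fun h => absurd (hc.trans_le (hle k)) (not_lt.2 h)⟩
          have := vars_pow _ _ hl
          simp at this
        · rw [Pi.single_eq_of_ne hd]
          exact ⟨fun _ => ⟨isHomogeneous_zero _ _ _, fun l _ => by simp⟩, fun _ => rfl⟩
      · rw [σ.labSum_apply, Finset.sum_eq_single c']
        · rw [Pi.single_eq_same, map_pow, map_pow, labA, aeval_X, Sum.elim_inl, σ.plane c' 0 hc, labP_inl]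
          rfl
        · intro d _ hd; rw [Pi.single_eq_of_ne hd, map_zero]
        · intro h; exact absurd (Finset.mem_univ _) h
    | zero => exact ⟨0, Submodule.zero_mem _, by simp⟩
    | add p q _ _ hp hq =>
      obtain ⟨A, hA, h1⟩ := hp
      obtain ⟨B, hB, h2⟩ := hq
      exact ⟨A + B, Submodule.add_mem _ hA hB, by rw [map_add, map_add, h1, h2]⟩
    | smul c p _ hp =>
      obtain ⟨A, hA, h1⟩ := hp
      exact ⟨c • A, Submodule.smul_mem _ c hA, by rw [map_smul, map_smul, h1]⟩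
  obtain ⟨A, hA, h1⟩ := key _ (σ.span (Fin.rev k) (hf (Fin.rev k)))
  refine ⟨A, ⟨hA, ?_⟩, h1⟩
  change σ.labSum A ∈ σ.WS f k
  rw [h1]
  refine Submodule.subset_span (Or.inl ⟨Fin.rev k, le_rfl, 1, ?_, (one_mul _).symm⟩)
  have h0 : bb a k - a (Fin.rev k) = 0 := Nat.sub_self _
  rw [h0]
  exact isHomogeneous_one _ _

theorem Sch.exists_spn (σ : Sch n a) (f : Fin n → MvPolynomial (Fin n) ℂ)
    (hf : ∀ i, (f i).IsHomogeneous (a i)) : Nonempty (σ.Spn f) := by
  choose A hA hA' using σ.g1b_extra f hf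
  choose m s hs using fun k => Submodule.fg_iff_exists_fin_generating_family.1 (σ.g1b_fg f k)
  set M := Finset.univ.sup m with hM
  have hmM : ∀ k, m k ≤ M := fun k => Finset.le_sup (f := m) (Finset.mem_univ k)
  set T : Fin n → Fin (M + 1) → σ.Cv → PP ℂ n :=
    fun k τ => if h : τ.1 < m k then s k ⟨τ.1, h⟩ else A k with hT
  have hTW : ∀ k τ, T k τ ∈ σ.WW f k := by
    intro k τ
    simp only [hT]
    split_ifs with h
    · rw [← hs k]; exact Submodule.subset_span ⟨_, rfl⟩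
    · exact hA k
  have hD : ∀ k τ, ∃ (γ : ℂ) (G H : Fin n → Sym ℂ n σ.Cv),
      (∀ i, (G i).IsHomogeneous (bb a k - a i)) ∧ (∀ l, (H l).IsHomogeneous (bb a k - 1)) ∧
      σ.labSum (T k τ) = MvPolynomial.C γ * rename Sum.inl (f (Fin.rev k)) +
        ∑ i ∈ Finset.univ.filter (· < Fin.rev k), G i * rename Sum.inl (f i) +
        ∑ l ∈ Finset.univ.filter (· < k), H l * σ.ysym ℂ l ∧ (¬ τ.1 < m k → γ ≠ 0) := by
    intro k τ
    by_cases h : τ.1 < m k
    · obtain ⟨γ, G, H, h1, h2, h3⟩ := σ.g1b_dec f k (hTW k τ).2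
      exact ⟨γ, G, H, h1, h2, h3, fun h' => absurd h h'⟩
    · refine ⟨1, 0, 0, fun _ => isHomogeneous_zero _ _ _, fun _ => isHomogeneous_zero _ _ _, ?_,
        fun _ => one_ne_zero⟩
      simp only [hT, dif_neg h, hA']
      simp
  choose γ G H hG hH hdec hγ using hD
  refine ⟨⟨M + 1, T, fun k => le_antisymm ?_ ?_, γ, G, H, hG, hH, hdec, fun k => ⟨Fin.last M, hγ k _ ?_⟩⟩⟩
  · rw [Submodule.span_le]
    rintro _ ⟨τ, rfl⟩
    exact hTW k τ
  · rw [← hs k]
    refine Submodule.span_mono ?_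
    rintro _ ⟨τ, rfl⟩
    exact ⟨⟨τ.1, by have := hmM k; omega⟩, by simp [hT]⟩
  · simpa using hmM k

theorem Sch.Spn.T_mem {σ : Sch n a} {f : Fin n → MvPolynomial (Fin n) ℂ} (P : σ.Spn f)
    (k : Fin n) (τ : Fin P.m) : P.T k τ ∈ σ.WW f k := by
  rw [← P.span k]; exact Submodule.subset_span ⟨τ, rfl⟩

theorem Sch.kap_ne_zero (σ : Sch n a) (m : ℕ) (c : σ.Cv) (k : Fin n) : σ.kap m c k ≠ 0 := by
  unfold Sch.kap
  split_ifs
  · exact mul_ne_zero (Finset.prod_ne_zero_iff.2 fun _ _ => X_ne_zero _)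
      (Finset.prod_ne_zero_iff.2 fun _ _ => X_ne_zero _)
  · exact one_ne_zero

theorem Sch.Spn.rhs_hom {σ : Sch n a} {f : Fin n → MvPolynomial (Fin n) ℂ} (P : σ.Spn f)
    (c : σ.Cv) (k : Fin n) : (P.rhs c k).IsHomogeneous (bb a k) := by
  unfold Sch.Spn.rhs
  split_ifs with h
  · refine IsHomogeneous.sum _ _ _ fun τ _ => ?_
    simpa using (isHomogeneous_C _ _).mul ((((σ.mem_AA.1 (P.T_mem k τ).1 c).1 h).1).map MvPolynomial.C)
  · refine IsHomogeneous.sum _ _ _ fun i _ => ?_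
    simpa using (isHomogeneous_C _ _).mul (isHomogeneous_X_pow _ (bb a k))

theorem Sch.Spn.rhs_supp {σ : Sch n a} {f : Fin n → MvPolynomial (Fin n) ℂ} (P : σ.Spn f)
    (c : σ.Cv) (k l : Fin n) (h : k ≤ l) : Sum.inr l ∉ (P.rhs c k).vars := by
  classical
  unfold Sch.Spn.rhs
  split_ifs with hc
  · intro hv
    obtain ⟨τ, -, hτ⟩ := Finset.mem_biUnion.1 (vars_sum_subset _ _ hv)
    have h1 := vars_mul _ _ hτ
    rw [vars_C, Finset.empty_union] at h1
    exact ((σ.mem_AA.1 (P.T_mem k τ).1 c).1 hc).2 l h (vars_map _ _ h1)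
  · intro hv
    obtain ⟨i, -, hi⟩ := Finset.mem_biUnion.1 (vars_sum_subset _ _ hv)
    have h1 := vars_mul _ _ hi
    rw [vars_C, Finset.empty_union] at h1
    have h2 := vars_pow _ _ h1
    simp at h2

end Crest.Agent.R181
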