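import Crest.Agent.R181.GDefs
import Crest.Agent.R181.G1A
import Crest.Agent.R181.G1B

/-! # Row 181, G1: existence of the schedule and of the spanning families; the row data. -/

set_option autoImplicit false

namespace Crest.Agent.R181

open Module MvPolynomial

variable {n : ℕ} {a : Fin n → ℕ}

/-! `NN_succ` … `exists_sch` and `Sch.telescope` are in `G1A`;
`labP_inl` … `Sch.Spn.rhs_supp` are in `G1B`. -/

/-- The rows. -/
noncomputable def Sch.Spn.rd {σ : Sch n a} {f : Fin n → MvPolynomial (Fin n) ℂ} (P : σ.Spn f)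
    (ha1 : ∀ i, 1 ≤ a i) : RD (MvPolynomial (σ.Par P.m) ℂ) n σ.Cv where
  b := bb a
  hb k := ha1 _
  κ := σ.kap P.m
  hκ := σ.kap_ne_zero P.m
  A := P.rhs
  hom := P.rhs_hom
  supp := P.rhs_supp

end Crest.Agent.R181
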