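import Crest.Agent.R181.G1

/-! # Row 181, G2: a linear relation forces the compatibilities `Link`. -/

set_option autoImplicit false

namespace Crest.Agent.R181

open Module MvPolynomial

variable {n : ℕ} {a : Fin n → ℕ}

theorem g2_functional {V S Ω : Type} [AddCommGroup V] [Module ℂ V] [AddCommGroup S] [Module ℂ S]
    [AddCommGroup Ω] [Module ℂ Ω] (L : V →ₗ[ℂ] S) (ev : V →ₗ[ℂ] Ω) (AA : Submodule ℂ V)
    (WS : Submodule ℂ S) (h : ∀ A ∈ AA ⊓ WS.comap L, ev A = 0) :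
    ∃ φ : S →ₗ[ℂ] Ω, (∀ A ∈ AA, φ (L A) = ev A) ∧ ∀ w ∈ WS, φ w = 0 := by
  set F := WS.mkQ ∘ₗ L ∘ₗ AA.subtype
  obtain ⟨ψ, hψ⟩ := LinearMap.exists_extend ((LinearMap.ker F).liftQ (ev ∘ₗ AA.subtype)
    (fun A hA => h A ⟨A.2, (Submodule.Quotient.mk_eq_zero WS).1 hA⟩) ∘ₗ
      F.quotKerEquivRange.symm.toLinearMap)
  refine ⟨ψ ∘ₗ WS.mkQ, fun A hA => ?_, fun w hw => ?_⟩
  · change ψ (F ⟨A, hA⟩) = _
    simpa [F.quotKerEquivRange_symm_apply_image] using
      LinearMap.congr_fun hψ ⟨F ⟨A, hA⟩, LinearMap.mem_range_self _ _⟩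
  · simp [(Submodule.Quotient.mk_eq_zero _).2 hw]

theorem g2_lin_hom (z : Fin n → ℂ) : (lin z).IsHomogeneous 1 :=
  IsHomogeneous.sum _ _ _ fun i _ => by simpa using (isHomogeneous_C _ (z i)).mul (isHomogeneous_X ℂ i)

theorem Sch.exists_link (σ : Sch n a) (ha : Monotone a) (ha1 : ∀ i, 1 ≤ a i)
    (f : Fin n → MvPolynomial (Fin n) ℂ) (hf : ∀ i, (f i).IsHomogeneous (a i))
    {Ω : Type} [Field Ω] [IsAlgClosed Ω] [Algebra ℂ Ω] (k : Fin n) (q : σ.Cv → Var n → Ω)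
    (h : ∀ A ∈ σ.WW f k, ∑ c, aeval (q c) (A c) = 0) :
    ∃ p : Fin n → Ω, σ.Link f k q p := by
  classical
  obtain ⟨φ, h1, h2⟩ := g2_functional σ.labSum
    (∑ c, (aeval (q c)).toLinearMap ∘ₗ LinearMap.proj c) (σ.AA k) (σ.WS f k)
    fun A hA => by simpa using h A hA
  obtain ⟨d, hd⟩ : ∃ d, bb a k = d + 1 := ⟨_, (Nat.sub_add_cancel (ha1 _)).symm⟩
  have hN : ∀ l, l < k → NN σ.N0 (l + 1) ≤ NN σ.N0 k := fun l hl => NN_mono _ hl
  have hN0 : ∀ l, σ.N0 ≤ NN σ.N0 l := fun l => (NN_zero _).ge.trans (NN_mono _ l.zero_le)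
  -- evaluation on monomials
  have key : ∀ c : σ.Cv, c.1 < NN σ.N0 k → ∀ (v w : Var n) (i j : ℕ), i + j = bb a k →
      (∀ l, k ≤ l → v ≠ Sum.inr l) → (∀ l, k ≤ l → w ≠ Sum.inr l) →
      φ (labA ℂ σ.lb c (X v) ^ i * labA ℂ σ.lb c (X w) ^ j) = q c v ^ i * q c w ^ j := by
    intro c hc v w i j hij hv hw
    have := h1 (Pi.single c (X v ^ i * X w ^ j)) (σ.mem_AA.2 fun c' => by
      rcases eq_or_ne c' c with rfl | hne
      · refine ⟨fun _ => ⟨?_, fun l hl h0 => ?_⟩, fun h0 => absurd hc (not_lt.2 h0)⟩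
        · simpa [hij] using ((isHomogeneous_X ℂ v).pow i).mul ((isHomogeneous_X ℂ w).pow j)
        · rw [Pi.single_eq_same] at h0
          rcases Finset.mem_union.1 (vars_mul _ _ h0) with h3 | h3
          · exact hv l hl (by simpa using (vars_pow _ _ h3) : _ = v).symm
          · exact hw l hl (by simpa using (vars_pow _ _ h3) : _ = w).symm
      · simp [Pi.single_eq_of_ne hne, isHomogeneous_zero])
    rw [σ.labSum_apply, LinearMap.sum_apply, Finset.sum_eq_single c, Finset.sum_eq_single c] at this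
    · simpa using this
    all_goals simp +contextual
  have key1 : ∀ c : σ.Cv, c.1 < NN σ.N0 k → ∀ v : Var n, (∀ l, k ≤ l → v ≠ Sum.inr l) →
      φ (labA ℂ σ.lb c (X v) ^ bb a k) = q c v ^ bb a k := fun c hc v hv => by
    simpa using key c hc v v _ 0 (add_zero _) hv hv
  have e1 : ∀ (c : σ.Cv) (i : Fin 2), labA ℂ σ.lb c (X (Sum.inl i)) = labP ℂ (σ.lb c i) :=
    fun c i => aeval_X _ _
  have e2 : ∀ (c : σ.Cv) (l : Fin n), labA ℂ σ.lb c (X (Sum.inr l)) = labP ℂ (Sum.inr (c, l)) :=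
    fun c l => aeval_X _ _
  have keyl : ∀ c : σ.Cv, c.1 < NN σ.N0 k → ∀ i,
      φ (labP ℂ (σ.lb c i) ^ bb a k) = q c (Sum.inl i) ^ bb a k := fun c hc i => by
    rw [← e1, key1 c hc _ fun _ _ => Sum.inl_ne_inr]
  have keyr : ∀ c : σ.Cv, c.1 < NN σ.N0 k → ∀ l, l < k →
      φ (labP ℂ (Sum.inr (c, l)) ^ bb a k) = q c (Sum.inr l) ^ bb a k := fun c hc l hl => by
    rw [← e2, key1 c hc _ fun l' hl' h0 => (hl.trans_le hl').ne (Sum.inr_injective h0)]
  have pl : ∀ c (hc : c < σ.N0) (i j : ℕ), i + j = bb a k →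
      φ (rename Sum.inl (lin (σ.zl c 0)) ^ i * rename Sum.inl (lin (σ.zl c 1)) ^ j) =
        q ⟨c, hc.trans_le (hN0 _)⟩ (Sum.inl 0) ^ i * q ⟨c, hc.trans_le (hN0 _)⟩ (Sum.inl 1) ^ j := by
    intro c hc i j hij
    rw [← key _ (hc.trans_le (hN0 _)) _ _ i j hij (fun _ _ => Sum.inl_ne_inr)
      fun _ _ => Sum.inl_ne_inr, e1, e1, σ.plane _ _ hc, σ.plane _ _ hc, labP_inl, labP_inl]
  -- purity
  obtain ⟨p, hp⟩ : ∃ p : Fin n → Ω, ∀ c < σ.N0,
      φ (rename Sum.inl (lin (σ.zl c 0)) ^ bb a k) = aeval p (lin (σ.zl c 0)) ^ bb a k := by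
    by_cases h0 : ∀ c < σ.N0, φ (rename Sum.inl (lin (σ.zl c 0)) ^ bb a k) = 0
    · exact ⟨0, fun c hc => by
        rw [h0 c hc]
        simp [lin, hd]⟩
    push Not at h0
    obtain ⟨c0, hc0, h0⟩ := h0
    obtain ⟨e, he⟩ := IsAlgClosed.exists_pow_nat_eq
      (φ (rename Sum.inl (lin (σ.zl c0 0)) ^ bb a k)) (ha1 (Fin.rev k))
    refine ⟨fun i => φ (rename Sum.inl (lin (σ.zl c0 0)) ^ d * X (Sum.inl i)) / e ^ d,
      fun c hc => ?_⟩
    obtain ⟨c', hc', h3, h4⟩ := σ.pairs c0 hc0 c hc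
    have a1 := pl c' hc' _ 0 (add_zero _)
    have a2 := pl c' hc' 0 _ (zero_add _)
    have a3 := pl c' hc' d 1 hd.symm
    simp only [h3, h4, pow_zero, mul_one, one_mul, pow_one] at a1 a2 a3
    have a4 : aeval (fun i => φ (rename Sum.inl (lin (σ.zl c0 0)) ^ d * X (Sum.inl i)) / e ^ d)
        (lin (σ.zl c 0)) =
        φ (rename Sum.inl (lin (σ.zl c0 0)) ^ d * rename Sum.inl (lin (σ.zl c 0))) / e ^ d := by
      generalize rename Sum.inl (lin (σ.zl c0 0)) ^ d = G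
      simp only [lin, map_sum, Finset.mul_sum, Finset.sum_div, ← smul_eq_C_mul, map_smul, aeval_X,
        rename_X, mul_smul_comm, smul_div_assoc]
    rw [a4, a3, a2, div_pow, mul_pow, pow_right_comm, pow_right_comm e, ← a1,
      show e ^ bb a k = _ from he, mul_div_cancel_left₀ _ (pow_ne_zero _ h0)]
  have hev : ∀ g : MvPolynomial (Fin n) ℂ, g.IsHomogeneous (bb a k) →
      φ (rename Sum.inl g) = aeval p g := fun g hg =>
    LinearMap.eqOn_span' (f := φ ∘ₗ (rename Sum.inl).toLinearMap) (g := (aeval p).toLinearMap)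
      (by
        rintro _ ⟨c, hc, rfl⟩
        simpa [bb] using hp c hc) (σ.span _ hg)
  refine ⟨p, fun i hi => ?_, fun c i hc => ?_, fun l c r hl hc hr => ?_,
    fun l c c' hl hc h3 h4 => ?_, fun l c hl hc => ?_, fun l hl => ?_⟩
  · by_contra h0
    have hp0 : p = 0 := funext fun j => by
      have a1 := hev (X j ^ (bb a k - a i) * f i) (by
        simpa [Nat.sub_add_cancel (show a i ≤ bb a k from ha hi)] using
          ((isHomogeneous_X ℂ j).pow (bb a k - a i)).mul (hf i))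
      rw [h2 _ (Submodule.subset_span (Or.inl ⟨i, hi, X (Sum.inl j) ^ (bb a k - a i),
        by simpa using (isHomogeneous_X ℂ _).pow _, by simp⟩)), map_mul, map_pow, aeval_X] at a1
      exact eq_zero_of_pow_eq_zero ((mul_eq_zero.1 a1.symm).resolve_right h0)
    refine h0 ?_
    rw [hp0, aeval_zero, constantCoeff_eq,
      (hf i).coeff_eq_zero (by simpa using ((ha1 i).trans_lt' zero_lt_one).ne), map_zero]
  · rw [← keyl c (hc.trans_le (hN0 _)), σ.plane _ _ hc, labP_inl, ← map_pow,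
      hev _ (by simpa using (g2_lin_hom _).pow _), map_pow]
  · have := hN l hl
    rw [NN_succ] at this
    rw [← keyl c (by omega), ← keyr r (by omega) l hl, σ.node1 l c r hc hr]
  · have := hN l hl
    rw [← keyl c (by omega), ← keyr c' (by omega) l hl, σ.node0 l c c' hc h3 h4]
  · have h3 := hN l hl
    have h4 := NN_pos σ.pos l
    rw [NN_succ] at h3
    have h5 := keyl c (by omega) 0
    rw [σ.node00 l c hc, labP_inl, hd] at h5
    exact eq_zero_of_pow_eq_zero (h5.symm.trans (by simp [lin]))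
  · have h3 := hN l hl
    have h4 := σ.hlast l
    refine eq_zero_of_pow_eq_zero ((keyr _ (by omega) l hl).symm.trans (h2 _
      (Submodule.subset_span (Or.inr ⟨l, hl, σ.ysym ℂ l ^ (bb a k - 1),
        by simpa [ysym] using (isHomogeneous_X ℂ _).pow _, ?_⟩))))
    rw [hd, pow_succ]
    rfl

end Crest.Agent.R181
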