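import Crest.Agent.R181.HDefs

/-! # Row 181, G3: transcendence degree tools. -/

set_option autoImplicit false

namespace Crest.Agent.R181

open Module MvPolynomial

/-- The relative algebraic closure of the field generated by a finite family. -/
theorem exists_closed_subfield {Ω : Type} [Field Ω] [Algebra ℂ Ω] {ι : Type} [Fintype ι]
    (G : ι → Ω) :
    ∃ F : IntermediateField ℂ Ω, (∀ i, G i ∈ F) ∧ (∀ x : Ω, IsAlgebraic F x → x ∈ F) ∧
      ∀ {κ : Type} [Fintype κ] (v : κ → Ω), AlgebraicIndependent ℂ v → (∀ j, v j ∈ F) →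
        Fintype.card κ ≤ Fintype.card ι := by
  let K := IntermediateField.adjoin ℂ (Set.range G)
  have hmem : ∀ x : Ω, x ∈ (algebraicClosure K Ω).restrictScalars ℂ ↔ IsAlgebraic K x :=
    fun x => mem_algebraicClosure_iff
  refine ⟨(algebraicClosure K Ω).restrictScalars ℂ, fun i => ?_, fun x hx => ?_, ?_⟩
  · exact (hmem _).2 (isAlgebraic_algebraMap
      (⟨G i, IntermediateField.subset_adjoin _ _ ⟨i, rfl⟩⟩ : K))
  · have hx' : IsAlgebraic (algebraicClosure K Ω) x := hx
    exact (hmem _).2 (hx'.restrictScalars K)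
  · intro κ _ v hv hvF
    have h1 : (AlgebraicIndependent.matroid ℂ Ω).Indep (Set.range v) :=
      AlgebraicIndependent.matroid_indep_iff.2 hv.coe_range
    have h2 : Set.range v ⊆ (AlgebraicIndependent.matroid ℂ Ω).closure (Set.range G) := by
      rintro _ ⟨j, rfl⟩
      rw [AlgebraicIndependent.matroid_closure_eq, SetLike.mem_coe, Subalgebra.mem_algebraicClosure]
      exact IntermediateField.isAlgebraic_adjoin_iff.1 ((hmem _).1 (hvF j))
    have h3 := h1.encard_le_eRk_of_subset h2
    rw [Matroid.eRk_closure_eq] at h3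
    have h4 := h3.trans (Matroid.eRk_le_encard _ _)
    have h5 : (Set.range v).encard = Fintype.card κ := by
      rw [← Set.image_univ, hv.injective.encard_image, Set.encard_univ, ENat.card_eq_coe_fintype_card]
    have h6 : (Set.range G).encard ≤ Fintype.card ι := by
      rw [← Set.image_univ, ← ENat.card_eq_coe_fintype_card, ← Set.encard_univ]
      exact Set.encard_image_le _ _
    rw [h5] at h4
    exact_mod_cast h4.trans h6

theorem mem_of_pow_mem {Ω : Type} [Field Ω] [Algebra ℂ Ω] {F : IntermediateField ℂ Ω}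
    (hF : ∀ x : Ω, IsAlgebraic F x → x ∈ F) {x : Ω} {m : ℕ} (hm : 1 ≤ m) (h : x ^ m ∈ F) :
    x ∈ F := by
  exact hF x (IsAlgebraic.of_pow hm (isAlgebraic_algebraMap (⟨x ^ m, h⟩ : F)))

theorem Artin.eq_zero {n : ℕ} {f : Fin n → MvPolynomial (Fin n) ℂ} (hA : Artin f)
    {Ω : Type} [Field Ω] [Algebra ℂ Ω] {p : Fin n → Ω} (h : ∀ i, aeval p (f i) = 0) : p = 0 := by
  obtain ⟨N, hN⟩ := hA
  funext i
  have h1 := hN (Finsupp.single i N) (by simp)
  have h2 : Ideal.span (Set.range f) ≤ RingHom.ker (aeval p : MvPolynomial (Fin n) ℂ →ₐ[ℂ] Ω) :=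
    Ideal.span_le.2 (by rintro _ ⟨j, rfl⟩; exact h j)
  have h3 : aeval p (monomial (Finsupp.single i N) (1 : ℂ)) = 0 := h2 h1
  rw [← X_pow_eq_monomial, map_pow, aeval_X] at h3
  exact eq_zero_of_pow_eq_zero h3

/-- `ℂ[x]` is finite over `ℂ[f]`. -/
theorem Artin.isAlgebraic {n : ℕ} {a : Fin n → ℕ} (ha1 : ∀ i, 1 ≤ a i)
    {f : Fin n → MvPolynomial (Fin n) ℂ} (hf : ∀ i, (f i).IsHomogeneous (a i)) (hA : Artin f)
    {Ω : Type} [Field Ω] [Algebra ℂ Ω] (F : IntermediateField ℂ Ω) {p : Fin n → Ω}
    (h : ∀ i, aeval p (f i) ∈ F) (i : Fin n) : IsAlgebraic F (p i) := by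
  obtain ⟨N, hN⟩ := hA
  let V : Submodule F Ω := Submodule.span F
    ((fun μ : Fin n →₀ ℕ => aeval p (monomial μ (1 : ℂ))) '' {μ | μ.degree ≤ N})
  have hsm : ∀ (c : ℂ) (x : Ω), x ∈ V → c • x ∈ V := fun c x hx => by
    have := V.smul_mem (algebraMap ℂ F c) hx
    rwa [algebraMap_smul] at this
  have hmon : ∀ (μ : Fin n →₀ ℕ) (c : ℂ), monomial μ c = c • monomial μ (1 : ℂ) := fun μ c => by
    rw [smul_monomial, smul_eq_mul, mul_one]
  have key : ∀ d : ℕ, ∀ μ : Fin n →₀ ℕ, μ.degree = d → aeval p (monomial μ (1 : ℂ)) ∈ V := by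
    intro d
    induction d using Nat.strong_induction_on with
    | _ d ih =>
      intro μ hμ
      by_cases hd : d ≤ N
      · exact Submodule.subset_span ⟨μ, hμ.le.trans hd, rfl⟩
      obtain ⟨ν, hν, hνN⟩ := Finsupp.exists_le_degree_eq μ N (by omega)
      have h1 : monomial μ (1 : ℂ) ∈ Ideal.span (Set.range f) := by
        have : monomial μ (1 : ℂ) = monomial (μ - ν) (1 : ℂ) * monomial ν (1 : ℂ) := by
          rw [monomial_mul, tsub_add_cancel_of_le hν, mul_one]
        rw [this]
        exact Ideal.mul_mem_left _ _ (hN ν hνN)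
      obtain ⟨c, hc⟩ := Ideal.mem_span_range_iff_exists_fun.1 h1
      have h2 : ∀ (j : Fin n) (g : MvPolynomial (Fin n) ℂ),
          aeval p (homogeneousComponent d (g * f j)) ∈ V := by
        intro j g
        induction g using MvPolynomial.induction_on' with
        | monomial ρ r =>
          rw [homogeneousComponent_of_mem ((isHomogeneous_monomial r rfl).mul (hf j))]
          split_ifs with h3
          · have h4 := ha1 j
            have h5 := V.smul_mem ⟨_, h j⟩ (hsm r _ (ih ρ.degree (by omega) ρ rfl))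
            rw [map_mul, hmon, map_smul, mul_comm]
            exact h5
          · rw [map_zero]
            exact V.zero_mem
        | add g g' hg hg' =>
          rw [add_mul, map_add, map_add]
          exact V.add_mem hg hg'
      rw [← homogeneousComponent_eq_self (isHomogeneous_monomial (1 : ℂ) hμ), ← hc, map_sum, map_sum]
      exact V.sum_mem fun j _ => h2 j _
  have h1 : (1 : Ω) ∈ V := by simpa using key 0 0 (by simp)
  refine (isIntegral_of_smul_mem_submodule V ?_ ?_ (p i) ?_).isAlgebraic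
  · intro h0
    rw [h0, Submodule.mem_bot] at h1
    exact one_ne_zero h1
  · exact Submodule.fg_span ((Finsupp.finite_of_degree_le N).image _)
  · intro x hx
    induction hx using Submodule.span_induction with
    | mem x hx =>
      obtain ⟨μ, -, rfl⟩ := hx
      have := key _ (Finsupp.single i 1 + μ) rfl
      rwa [← mul_one (1 : ℂ), ← monomial_mul, map_mul, ← X, aeval_X] at this
    | zero => simp
    | add x y _ _ hx hy => rw [smul_add]; exact V.add_mem hx hy
    | smul c x _ hx => rw [smul_comm]; exact V.smul_mem c hx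

end Crest.Agent.R181
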