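import Crest.Agent.R181.G4A

/-! # Row 181, G4: base-point-freeness. -/

set_option autoImplicit false

namespace Crest.Agent.R181

open Module MvPolynomial

variable {n : ℕ} {a : Fin n → ℕ} {σ : Sch n a} {f : Fin n → MvPolynomial (Fin n) ℂ}

theorem Sch.Spn.bpf (ha : Monotone a) (ha1 : ∀ i, 1 ≤ a i)
    (hf : ∀ i, (f i).IsHomogeneous (a i)) (hA : Artin f) (P : σ.Spn f)
    {Ω : Type} [Field Ω] [IsAlgClosed Ω] [Algebra ℂ Ω] (π : σ.Par P.m → Ω) (k : Fin n)
    (hind : AlgebraicIndependent ℂ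
      fun t : {t : σ.Par P.m // ∀ l τ, t = Sum.inr (l, τ) → l < k} => π t)
    (q : σ.Cv → Var n → Ω) (hq : P.Pts π k q) (s : σ.Cv → Ω)
    (h : ∀ τ, ∑ c, s c * aeval (q c) (P.T k τ c) = 0) (c : σ.Cv) (hc : c.1 < NN σ.N0 k)
    (i : Fin 2) : s c * q c (Sum.inl i) = 0 := by
  classical
  induction k using WellFoundedLT.induction generalizing q s c i with
  | ind k ih =>
  have hb : 0 < bb a k := ha1 _
  choose t ht using fun c => IsAlgClosed.exists_pow_nat_eq (s c) hb
  have hq1 := hq.smul t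
  have hW : ∀ A ∈ σ.WW f k, ∑ c, aeval (fun v => t c * q c v) (A c) = 0 := by
    intro A hA'
    rw [← P.span k] at hA'
    induction hA' using Submodule.span_induction with
    | mem A hA' =>
      obtain ⟨τ, rfl⟩ := hA'
      rw [← h τ]
      refine Finset.sum_congr rfl fun c _ => ?_
      have hm := (σ.mem_AA.1 (P.T_mem k τ).1) c
      by_cases hc : c.1 < NN σ.N0 k
      · rw [g4_aeval_smul (hm.1 hc).1, ht]
      · rw [hm.2 (not_lt.1 hc)]; simp
    | zero => simp
    | add A B _ _ hA hB => simp only [Pi.add_apply, map_add, Finset.sum_add_distrib, hA, hB, add_zero]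
    | smul r A _ hA =>
      simp only [Pi.smul_apply, map_smul, ← Finset.smul_sum, hA, smul_zero]
  obtain ⟨p, hL⟩ := σ.exists_link ha ha1 f hf k _ hW
  have hFer0 : ∀ x, π (Sum.inl x) ≠ 0 := fun x =>
    hind.ne_zero ⟨Sum.inl x, fun _ _ h => by cases h⟩
  have hκ : ∀ c l, aeval π (σ.kap P.m c l) ≠ 0 := by
    intro c l
    unfold Sch.kap
    split_ifs
    · simp only [map_mul, map_prod, aeval_X]
      exact mul_ne_zero (Finset.prod_ne_zero_iff.2 fun _ _ => hFer0 _)
        (Finset.prod_ne_zero_iff.2 fun _ _ => hFer0 _)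
    · simp
  by_cases hp : p = 0
  · subst hp
    have h0 := Sch.Link.eq_zero ha1 hq1 hκ hL c hc i
    obtain ⟨b, hb'⟩ := Nat.exists_eq_succ_of_ne_zero hb.ne'
    rw [← ht c, hb', pow_succ, mul_assoc, h0, mul_zero]
  exfalso
  obtain ⟨l₀, hl₀⟩ : ∃ l₀, aeval p (f l₀) ≠ 0 := by
    by_contra hcon
    push Not at hcon
    exact hp (hA.eq_zero hcon)
  have hl₀k : Fin.rev l₀ < k := by
    by_contra hcon
    refine hl₀ (hL.zero l₀ ?_)
    rw [Fin.le_rev_iff]
    exact not_lt.1 hcon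
  obtain ⟨ρ, hρ⟩ := IsAlgClosed.exists_pow_nat_eq (aeval p (f l₀))⁻¹ (ha1 l₀)
  have hρ0 : ρ ≠ 0 := by
    rintro rfl
    rw [zero_pow (Nat.one_le_iff_ne_zero.1 (ha1 l₀))] at hρ
    exact hl₀ (inv_eq_zero.1 hρ.symm)
  have hL2 := hL.smul hf ρ
  have hq2 := hq1.smul fun _ => ρ
  set q₂ : σ.Cv → Var n → Ω := fun c v => ρ * (t c * q c v) with hq₂
  set p₂ : Fin n → Ω := fun i => ρ * p i with hp₂
  have hone : aeval p₂ (f l₀) = 1 := by
    rw [hp₂, g4_aeval_smul (hf l₀), hρ, inv_mul_cancel₀ hl₀]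
  have hp2 : p₂ ≠ 0 := by
    intro h0
    apply hp
    funext i
    have := congrFun h0 i
    simpa [hp₂, hρ0] using this
  have hrel : ∀ l : Fin n, ∃ η : σ.Cv → Ω, l < k → (∀ r, η r ^ bb a k = 1) ∧
      ∑ τ, π (Sum.inr (l, τ)) * ∑ c, η c * aeval (q₂ c) (P.T l τ c) = 0 := by
    intro l
    by_cases hl : l < k
    · obtain ⟨η, h1, h2⟩ := Sch.Link.relation ha1 hq2 hL2 hl
      exact ⟨η, fun _ => ⟨h1, h2⟩⟩
    · exact ⟨0, fun h => absurd h hl⟩
  choose η hη using hrel
  have hne : ∀ l : Fin n, ∃ τ : Fin P.m, l < k → ∑ c, η l c * aeval (q₂ c) (P.T l τ c) ≠ 0 := by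
    intro l
    by_cases hl : l < k
    · by_contra hcon
      push Not at hcon
      have hind' : AlgebraicIndependent ℂ
          fun t : {t : σ.Par P.m // ∀ l' τ, t = Sum.inr (l', τ) → l' < l} => π t :=
        hind.comp (fun t : {t : σ.Par P.m // ∀ l' τ, t = Sum.inr (l', τ) → l' < l} =>
          (⟨t.1, fun l' τ h => (t.2 l' τ h).trans hl⟩ :
            {t : σ.Par P.m // ∀ l' τ, t = Sum.inr (l', τ) → l' < k}))
          (fun x y hxy => Subtype.ext (by simpa using hxy))
      have hz : ∀ c < σ.N0, aeval p₂ (lin (σ.zl c 0)) ^ bb a k = 0 := by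
        intro c hc
        have hN : ∀ m, σ.N0 ≤ NN σ.N0 m := fun m => by
          simpa [NN_zero] using NN_mono σ.N0 (Nat.zero_le m)
        have h1 := ih l hl hind' q₂ (hq2.mono hl.le) (η l) (fun τ => (hcon τ).2)
          ⟨c, hc.trans_le (hN n)⟩ (hc.trans_le (hN l)) 0
        have hη0 : η l ⟨c, hc.trans_le (hN n)⟩ ≠ 0 := by
          intro h0
          have := (hη l hl).1 ⟨c, hc.trans_le (hN n)⟩
          rw [h0, zero_pow hb.ne'] at this
          exact zero_ne_one this
        rw [← hL2.plane ⟨c, hc.trans_le (hN n)⟩ 0 hc, (mul_eq_zero.1 h1).resolve_left hη0,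
          zero_pow hb.ne']
      apply hp2
      funext j
      have hX : (X j ^ bb a k : MvPolynomial (Fin n) ℂ) ∈
          homogeneousSubmodule (Fin n) ℂ (a (Fin.rev k)) := by
        simpa [bb] using (isHomogeneous_X ℂ j).pow (bb a k)
      have hsp : ∀ g ∈ Submodule.span ℂ
          {p | ∃ c < σ.N0, p = lin (σ.zl c 0) ^ a (Fin.rev k)}, aeval p₂ g = 0 := by
        intro g hg
        induction hg using Submodule.span_induction with
        | mem g hg =>
          obtain ⟨c, hc, rfl⟩ := hg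
          rw [map_pow]
          exact hz c hc
        | zero => simp
        | add A B _ _ hA hB => rw [map_add, hA, hB, add_zero]
        | smul r A _ hA => rw [map_smul, hA, smul_zero]
      have := hsp _ (σ.span _ hX)
      rw [map_pow, aeval_X] at this
      exact pow_eq_zero_iff hb.ne' |>.1 this
    · obtain ⟨τ, -⟩ := P.γ_ne l
      exact ⟨τ, fun h => absurd h hl⟩
  choose τ₀ hτ₀ using hne
  let G' : σ.Par P.m → Ω := fun t => match t with
    | Sum.inl x => π (Sum.inl x)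
    | Sum.inr (l, τ) => if τ = τ₀ l then aeval p₂ (f (Fin.rev l)) else π (Sum.inr (l, τ))
  let κT := {t : σ.Par P.m // ∀ l τ, t = Sum.inr (l, τ) → l < k}
  let t₀ : κT := ⟨Sum.inr (Fin.rev l₀, τ₀ (Fin.rev l₀)), fun l τ h => by
    cases h; exact hl₀k⟩
  obtain ⟨F, hG, hF, hcard⟩ := exists_closed_subfield fun t : {t : κT // t ≠ t₀} => G' t.1.1
  have hFer : ∀ x, π (Sum.inl x) ∈ F := fun x =>
    hG ⟨⟨Sum.inl x, fun _ _ h => by cases h⟩,
      fun h => Sum.inl_ne_inr (congrArg Subtype.val h)⟩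
  have hfp : ∀ j, aeval p₂ (f j) ∈ F := by
    intro j
    by_cases hj : j ≤ Fin.rev k
    · rw [hL2.zero j hj]; exact F.zero_mem
    · by_cases hj0 : j = l₀
      · rw [hj0, hone]; exact F.one_mem
      · have hjk : Fin.rev j < k := by
          rw [Fin.rev_lt_iff]; exact not_le.1 hj
        have := hG ⟨⟨Sum.inr (Fin.rev j, τ₀ (Fin.rev j)), fun l τ h => by cases h; exact hjk⟩,
          fun h => hj0 (Fin.rev_injective
            (congrArg Prod.fst (Sum.inr_injective (congrArg Subtype.val h))))⟩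
        simpa [G'] using this
  have hT : ∀ l, l < k → ∀ τ, τ ≠ τ₀ l → π (Sum.inr (l, τ)) ∈ F := by
    intro l hl τ hτ
    have := hG ⟨⟨Sum.inr (l, τ), fun l' τ' h => by cases h; exact hl⟩, fun h => hτ (by
      have h' := Sum.inr_injective (congrArg Subtype.val h)
      cases h'; rfl)⟩
    simpa [G', hτ] using this
  have hall := Sch.Link.mem_field ha1 hq2 hκ hL2 F hF
    (fun j => hF _ (hA.isAlgebraic ha1 hf F hfp j)) hFer η τ₀ (fun l hl => (hη l hl).1)
    (fun l hl => (hη l hl).2) hτ₀ hT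
  have hle := hcard _ hind (by
    rintro ⟨x | ⟨l, τ⟩, hx⟩
    · exact hFer x
    · exact hall l (hx l τ rfl) τ)
  exact absurd hle (not_le.2 (Fintype.card_subtype_lt (x := t₀) (by simp)))

end Crest.Agent.R181
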