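import Crest.Agent.R181.G2
import Crest.Agent.R181.G3

/-! # Row 181, G4A: lemmas for base-point-freeness. -/

set_option autoImplicit false

namespace Crest.Agent.R181

open Module MvPolynomial

variable {n : ℕ} {a : Fin n → ℕ} {σ : Sch n a} {f : Fin n → MvPolynomial (Fin n) ℂ}

theorem g4_aeval_smul {V Ω : Type} [CommRing Ω] [Algebra ℂ Ω] {A : MvPolynomial V ℂ} {d : ℕ}
    (hA : A.IsHomogeneous d) (t : Ω) (x : V → Ω) :
    aeval (fun v => t * x v) A = t ^ d * aeval x A := by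
  classical
  rw [A.as_sum, map_sum, map_sum, Finset.mul_sum]
  refine Finset.sum_congr rfl fun μ hμ => ?_
  have hd : ∑ v ∈ μ.support, μ v = d := by
    have := hA (mem_support_iff.1 hμ)
    rw [← this, Finsupp.weight_apply, Finsupp.sum]
    simp
  rw [aeval_monomial, aeval_monomial, Finsupp.prod, Finsupp.prod]
  simp only [mul_pow, Finset.prod_mul_distrib, Finset.prod_pow_eq_pow_sum, hd]
  ring

theorem g4_aeval_mem {V Ω : Type} [Field Ω] [Algebra ℂ Ω] (F : IntermediateField ℂ Ω)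
    {A : MvPolynomial V ℂ} {x : V → Ω} (h : ∀ v ∈ A.vars, x v ∈ F) : aeval x A ∈ F := by
  classical
  rw [A.as_sum, map_sum]
  refine F.sum_mem fun μ hμ => ?_
  rw [aeval_monomial, Finsupp.prod]
  refine F.mul_mem (F.algebraMap_mem _) (F.prod_mem fun v hv => pow_mem (h v ?_) _)
  exact (mem_vars_iff_mem_support v).2 ⟨μ, hμ, hv⟩

theorem g4_aeval_zero {V Ω : Type} [Field Ω] [Algebra ℂ Ω] {A : MvPolynomial V ℂ} {d : ℕ}
    (hA : A.IsHomogeneous d) (hd : 1 ≤ d) {x : V → Ω} (h : ∀ v ∈ A.vars, x v = 0) :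
    aeval x A = 0 := by
  classical
  have h1 : aeval x A = aeval (fun v => 0 * x v) A := by
    rw [aeval_def, aeval_def]
    exact eval₂_congr _ _ _ fun {i c} hi hc => by
      rw [h i ((mem_vars_iff_mem_support i).2 ⟨c, mem_support_iff.2 hc, hi⟩), mul_zero]
  rw [h1, g4_aeval_smul hA, zero_pow (by omega), zero_mul]

theorem g4_lin_hom (z : Fin n → ℂ) : (lin z).IsHomogeneous 1 := by
  unfold lin
  exact IsHomogeneous.sum _ _ _ fun i _ => by
    simpa using (isHomogeneous_C _ (z i)).mul (isHomogeneous_X ℂ i)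

theorem g4_root {Ω : Type} [Field Ω] {x y : Ω} {m : ℕ} (hm : 1 ≤ m) (h : x ^ m = y ^ m) :
    ∃ ζ : Ω, ζ ^ m = 1 ∧ x = ζ * y := by
  by_cases hy : y = 0
  · subst hy
    rw [zero_pow (by omega)] at h
    exact ⟨1, one_pow _, by rw [pow_eq_zero_iff (by omega)] at h; simp [h]⟩
  · refine ⟨x / y, by rw [div_pow, h, div_self (pow_ne_zero _ hy)], by field_simp⟩

/-- Scaling each point separately preserves the equations. -/
theorem Sch.Spn.Pts.smul {P : σ.Spn f} {Ω : Type} [Field Ω] [Algebra ℂ Ω] {π : σ.Par P.m → Ω}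
    {k : Fin n} {q : σ.Cv → Var n → Ω} (h : P.Pts π k q) (t : σ.Cv → Ω) :
    P.Pts π k fun c v => t c * q c v := by
  refine ⟨fun c l hc => ?_, fun c l hl hc => ?_⟩
  · rw [mul_pow, h.fermat c l hc, Finset.mul_sum]
    exact Finset.sum_congr rfl fun i _ => by rw [mul_pow]; ring
  · have := h.constr c l hl hc
    rw [mul_pow, mul_left_comm, this, Finset.mul_sum]
    refine Finset.sum_congr rfl fun τ _ => ?_
    rw [g4_aeval_smul (((σ.mem_AA.1 (P.T_mem l τ).1) c).1 hc).1]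
    ring

theorem Sch.Spn.Pts.mono {P : σ.Spn f} {Ω : Type} [Field Ω] [Algebra ℂ Ω] {π : σ.Par P.m → Ω}
    {k l : Fin n} {q : σ.Cv → Var n → Ω} (h : P.Pts π k q) (hl : l ≤ k) : P.Pts π l q :=
  ⟨h.fermat, fun c l' hl' => h.constr c l' (hl'.trans_le hl)⟩

theorem Sch.Link.smul (hf : ∀ i, (f i).IsHomogeneous (a i)) {Ω : Type} [Field Ω] [Algebra ℂ Ω]
    {k : Fin n} {q : σ.Cv → Var n → Ω} {p : Fin n → Ω} (h : σ.Link f k q p) (t : Ω) :
    σ.Link f k (fun c v => t * q c v) fun i => t * p i := by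
  refine ⟨fun i hi => ?_, fun c i hc => ?_, fun l c r hl h1 h2 => ?_,
    fun l c c' hl h1 h2 h3 => ?_, fun l c hl h1 => ?_, fun l hl => ?_⟩
  · rw [g4_aeval_smul (hf i), h.zero i hi, mul_zero]
  · rw [g4_aeval_smul (g4_lin_hom _), pow_one, mul_pow, mul_pow, h.plane c i hc]
  · rw [mul_pow, mul_pow, h.node1 l c r hl h1 h2]
  · rw [mul_pow, mul_pow, h.node0 l c c' hl h1 h2 h3]
  · rw [h.node00 l c hl h1, mul_zero]
  · rw [h.last l hl, mul_zero]

/-- Propagation of a property of the coordinates through the family of curves. -/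
theorem Sch.Link.propagate {Ω : Type} [Field Ω] [Algebra ℂ Ω] {k : Fin n}
    {q : σ.Cv → Var n → Ω} {p : Fin n → Ω} (h : σ.Link f k q p) (Q : Ω → Prop) (h0 : Q 0)
    (hroot : ∀ x y, x ^ bb a k = y ^ bb a k → Q y → Q x)
    (hplane : ∀ (c : σ.Cv) (i : Fin 2), c.1 < σ.N0 → Q (q c (Sum.inl i)))
    (hfer : ∀ (c : σ.Cv) (l : Fin n), NN σ.N0 l ≤ c.1 → (∀ i, Q (q c (Sum.inl i))) →
      Q (q c (Sum.inr l)))
    (hcon : ∀ l : Fin n, l < k → (∀ c : σ.Cv, c.1 < NN σ.N0 l → ∀ v : Var n,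
      (∀ l', v = Sum.inr l' → l' < l) → Q (q c v)) →
      ∀ c : σ.Cv, c.1 < NN σ.N0 l → Q (q c (Sum.inr l))) (m : ℕ) (hm : m ≤ k) :
    ∀ c : σ.Cv, c.1 < NN σ.N0 m → ∀ v : Var n, (∀ l' : Fin n, v = Sum.inr l' → l'.1 < m) →
      Q (q c v) := by
  induction m with
  | zero =>
    rintro c hc (i | l') hv
    · exact hplane c i (by simpa [NN_zero] using hc)
    · exact absurd (hv l' rfl) (Nat.not_lt_zero _)
  | succ m ih =>
    have ih := ih (by omega)
    let l : Fin n := ⟨m, by have := k.2; omega⟩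
    have hl : l < k := by rw [Fin.lt_def]; exact hm
    have hW := hcon l hl ih
    have hnode : ∀ j : ℕ, ∀ c : σ.Cv, c.1 = j → NN σ.N0 m ≤ c.1 → c.1 < NN σ.N0 (m + 1) →
        ∀ i, Q (q c (Sum.inl i)) := by
      intro j
      induction j using Nat.strong_induction_on with
      | _ j ihj =>
      intro c hj h1 h2 i
      have hs := NN_succ σ.N0 m
      fin_cases i
      · by_cases hc : c.1 = NN σ.N0 m
        · have := h.node00 l c hl hc
          simpa [this] using h0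
        · have hpos := NN_pos σ.pos m
          let c' : σ.Cv := ⟨c.1 - 1, by have := c.2; omega⟩
          have e1 : c.1 = c'.1 + 1 := by simp only [c']; omega
          have e2 : NN σ.N0 m ≤ c'.1 := by simp only [c']; omega
          refine hroot _ _ (h.node0 l c c' hl e1 e2 h2) (hfer c' l e2 ?_)
          exact ihj c'.1 (by omega) c' rfl e2 (by omega)
      · let r : σ.Cv := ⟨c.1 - NN σ.N0 m, by have := c.2; omega⟩
        have e1 : c.1 = NN σ.N0 m + r.1 := by simp only [r]; omega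
        have e2 : r.1 < NN σ.N0 m := by simp only [r]; omega
        exact hroot _ _ (h.node1 l c r hl e1 e2) (hW r e2)
    intro c hc v hv
    by_cases hcm : c.1 < NN σ.N0 m
    · rcases v with i | l'
      · exact ih c hcm _ fun _ h => by cases h
      · have := hv l' rfl
        by_cases hl' : l'.1 < m
        · exact ih c hcm _ fun _ h => by cases h; exact hl'
        · have : l' = l := Fin.ext (by simp only [l]; omega)
          rw [this]; exact hW c hcm
    · have hn := hnode c.1 c rfl (not_lt.1 hcm) hc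
      rcases v with i | l'
      · exact hn i
      · refine hfer c l' ((NN_mono σ.N0 ?_).trans (not_lt.1 hcm)) hn
        have := hv l' rfl
        omega

theorem Sch.Spn.T_vars (P : σ.Spn f) {l : Fin n} (τ : Fin P.m) {c : σ.Cv} (hc : c.1 < NN σ.N0 l)
    {v : Var n} (hv : v ∈ (P.T l τ c).vars) (l' : Fin n) (h : v = Sum.inr l') : l' < l := by
  by_contra hcon
  exact (((σ.mem_AA.1 (P.T_mem l τ).1) c).1 hc).2 l' (not_lt.1 hcon) (h ▸ hv)

/-- If `p = 0` then all points vanish. -/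
theorem Sch.Link.eq_zero (ha1 : ∀ i, 1 ≤ a i) {P : σ.Spn f} {Ω : Type} [Field Ω] [Algebra ℂ Ω]
    {π : σ.Par P.m → Ω} {k : Fin n} {q : σ.Cv → Var n → Ω} (hq : P.Pts π k q)
    (hκ : ∀ c l, aeval π (σ.kap P.m c l) ≠ 0) (h : σ.Link f k q 0) (c : σ.Cv)
    (hc : c.1 < NN σ.N0 k) (i : Fin 2) : q c (Sum.inl i) = 0 := by
  have hb : ∀ l, bb a l ≠ 0 := fun l => Nat.one_le_iff_ne_zero.1 (ha1 _)
  refine h.propagate (fun x => x = 0) rfl ?_ ?_ ?_ ?_ k le_rfl c hc _ fun _ h => by cases h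
  · rintro x y hxy rfl
    rwa [zero_pow (hb k), pow_eq_zero_iff (hb k)] at hxy
  · intro c i hc
    have := h.plane c i hc
    rwa [g4_aeval_zero (x := 0) (g4_lin_hom _) le_rfl (fun _ _ => rfl), zero_pow (hb k),
      pow_eq_zero_iff (hb k)] at this
  · intro c l hc h0
    have := hq.fermat c l hc
    simpa [h0, hb l] using this
  · intro l hl H c hc
    have := hq.constr c l hl hc
    rw [Finset.sum_eq_zero fun τ _ => by
      rw [g4_aeval_zero (((σ.mem_AA.1 (P.T_mem l τ).1) c).1 hc).1 (ha1 _)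
        fun v hv => H c hc v (P.T_vars τ hc hv), mul_zero]] at this
    exact (pow_eq_zero_iff (hb l)).1 ((mul_eq_zero.1 this).resolve_left (hκ c l))

/-- Each earlier stage gives a linear relation among the parameters of its block. -/
theorem Sch.Link.relation (ha1 : ∀ i, 1 ≤ a i) {P : σ.Spn f} {Ω : Type} [Field Ω] [Algebra ℂ Ω]
    {π : σ.Par P.m → Ω} {k : Fin n} {q : σ.Cv → Var n → Ω} {p : Fin n → Ω} (hq : P.Pts π k q)
    (h : σ.Link f k q p) {l : Fin n} (hl : l < k) :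
    ∃ η : σ.Cv → Ω, (∀ r, η r ^ bb a k = 1) ∧
      ∑ τ, π (Sum.inr (l, τ)) * ∑ c, η c * aeval (q c) (P.T l τ c) = 0 := by
  classical
  have hb : ∀ l, 1 ≤ bb a l := fun l => ha1 _
  have hs := NN_succ σ.N0 l
  have e0 : ∀ c : σ.Cv, ∃ ζ : Ω, ζ ^ bb a k = 1 ∧ ∀ c' : σ.Cv, c.1 = c'.1 + 1 →
      NN σ.N0 l ≤ c'.1 → c.1 < NN σ.N0 (l + 1) → q c (Sum.inl 0) = ζ * q c' (Sum.inr l) := by
    intro c
    by_cases hex : ∃ c' : σ.Cv, c.1 = c'.1 + 1 ∧ NN σ.N0 l ≤ c'.1 ∧ c.1 < NN σ.N0 (l + 1)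
    · obtain ⟨c', h1, h2, h3⟩ := hex
      obtain ⟨ζ, hζ, he⟩ := g4_root (hb k) (h.node0 l c c' hl h1 h2 h3)
      refine ⟨ζ, hζ, fun c'' h1' _ _ => ?_⟩
      rw [show c'' = c' from Fin.ext (by omega)]; exact he
    · exact ⟨1, one_pow _, fun c' h1 h2 h3 => absurd ⟨c', h1, h2, h3⟩ hex⟩
  have e1 : ∀ c : σ.Cv, ∃ ζ : Ω, ζ ^ bb a k = 1 ∧ ∀ r : σ.Cv, c.1 = NN σ.N0 l + r.1 →
      r.1 < NN σ.N0 l → q c (Sum.inl 1) = ζ * q r (Sum.inr l) := by
    intro c
    by_cases hex : ∃ r : σ.Cv, c.1 = NN σ.N0 l + r.1 ∧ r.1 < NN σ.N0 l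
    · obtain ⟨r, h1, h2⟩ := hex
      obtain ⟨ζ, hζ, he⟩ := g4_root (hb k) (h.node1 l c r hl h1 h2)
      refine ⟨ζ, hζ, fun r' h1' _ => ?_⟩
      rw [show r' = r from Fin.ext (by omega)]; exact he
    · exact ⟨1, one_pow _, fun r h1 h2 => absurd ⟨r, h1, h2⟩ hex⟩
  choose ζ₀ hζ₀ hq₀ using e0
  choose ζ₁ hζ₁ hq₁ using e1
  let Mη : Submonoid Ω :=
    { carrier := {x | x ^ bb a k = 1}
      mul_mem' := fun {x y} hx hy => by
        change (x * y) ^ bb a k = 1
        rw [mul_pow, hx, hy, one_mul]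
      one_mem' := one_pow _ }
  have hpw : ∀ ζ : Ω, ζ ^ bb a k = 1 → ζ ^ bb a l ∈ Mη := fun ζ hζ => by
    change (ζ ^ bb a l) ^ bb a k = 1
    rw [← pow_mul, mul_comm, pow_mul, hζ, one_pow]
  obtain ⟨η, hη, hsum⟩ := σ.telescope P.m π l Mη (fun c => q c (Sum.inr l) ^ bb a l)
    (fun c => q c (Sum.inr l) ^ bb a l) (fun c => ζ₀ c ^ bb a l) (fun c => ζ₁ c ^ bb a l)
    (fun c => hpw _ (hζ₀ c)) (fun c => hpw _ (hζ₁ c))
    (fun c r hc hr => by
      have hpos := NN_pos σ.pos l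
      rw [hq.fermat c l hc.ge, Fin.sum_univ_two, h.node00 l c hl hc,
        zero_pow (Nat.one_le_iff_ne_zero.1 (hb l)), hq₁ c r (by omega) (by omega), mul_pow,
        mul_zero, zero_add])
    (fun c c' r h1 h2 h3 h4 => by
      rw [hq.fermat c l (by omega), Fin.sum_univ_two, hq₀ c c' h1 h2 (by omega), hq₁ c r h3 h4,
        mul_pow, mul_pow])
  refine ⟨η, hη, ?_⟩
  rw [h.last l hl, zero_pow (Nat.one_le_iff_ne_zero.1 (hb l))] at hsum
  simp only [Finset.mul_sum]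
  rw [Finset.sum_comm, hsum, Finset.sum_filter]
  refine Finset.sum_congr rfl fun c _ => ?_
  split_ifs with hc
  · rw [hq.constr c l hl hc, Finset.mul_sum]
    exact Finset.sum_congr rfl fun τ _ => by ring
  · exact Finset.sum_eq_zero fun τ _ => by
      rw [((σ.mem_AA.1 (P.T_mem l τ).1) c).2 (not_lt.1 hc)]; simp

/-- Propagation of membership in a relatively algebraically closed subfield. -/
theorem Sch.Link.mem_field (ha1 : ∀ i, 1 ≤ a i) {P : σ.Spn f} {Ω : Type} [Field Ω] [Algebra ℂ Ω]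
    {π : σ.Par P.m → Ω} {k : Fin n} {q : σ.Cv → Var n → Ω} {p : Fin n → Ω} (hq : P.Pts π k q)
    (hκ : ∀ c l, aeval π (σ.kap P.m c l) ≠ 0) (h : σ.Link f k q p)
    (F : IntermediateField ℂ Ω) (hF : ∀ x : Ω, IsAlgebraic F x → x ∈ F) (hp : ∀ i, p i ∈ F)
    (hFer : ∀ t, π (Sum.inl t) ∈ F) (η : Fin n → σ.Cv → Ω) (τ₀ : Fin n → Fin P.m)
    (hη : ∀ l, l < k → ∀ r, η l r ^ bb a k = 1)
    (hrel : ∀ l, l < k →
      ∑ τ, π (Sum.inr (l, τ)) * ∑ c, η l c * aeval (q c) (P.T l τ c) = 0)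
    (hne : ∀ l, l < k → ∑ c, η l c * aeval (q c) (P.T l (τ₀ l) c) ≠ 0)
    (hT : ∀ l, l < k → ∀ τ, τ ≠ τ₀ l → π (Sum.inr (l, τ)) ∈ F) :
    ∀ l, l < k → ∀ τ, π (Sum.inr (l, τ)) ∈ F := by
  classical
  have hb : ∀ l, 1 ≤ bb a l := fun l => ha1 _
  have hκF : ∀ c l, aeval π (σ.kap P.m c l) ∈ F := by
    intro c l
    unfold Sch.kap
    split_ifs
    · simp only [map_mul, map_prod, aeval_X]
      exact F.mul_mem (F.prod_mem fun _ _ => hFer _) (F.prod_mem fun _ _ => hFer _)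
    · simpa using F.one_mem
  have hblock : ∀ l : Fin n, l < k → (∀ c : σ.Cv, c.1 < NN σ.N0 l → ∀ v : Var n,
      (∀ l', v = Sum.inr l' → l' < l) → q c v ∈ F) → ∀ τ, π (Sum.inr (l, τ)) ∈ F := by
    intro l hl H τ
    by_cases hτ : τ = τ₀ l
    swap
    · exact hT l hl τ hτ
    subst hτ
    have hco : ∀ τ, ∑ c, η l c * aeval (q c) (P.T l τ c) ∈ F := fun τ =>
      F.sum_mem fun c _ => by
        by_cases hc : c.1 < NN σ.N0 l
        · refine F.mul_mem (mem_of_pow_mem hF (hb k) ?_)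
            (g4_aeval_mem F fun v hv => H c hc v (P.T_vars τ hc hv))
          rw [hη l hl]; exact F.one_mem
        · rw [((σ.mem_AA.1 (P.T_mem l τ).1) c).2 (not_lt.1 hc)]; simp
    have h1 := hrel l hl
    rw [← Finset.add_sum_erase _ _ (Finset.mem_univ (τ₀ l))] at h1
    have h2 : π (Sum.inr (l, τ₀ l)) =
        -(∑ τ ∈ Finset.univ.erase (τ₀ l), π (Sum.inr (l, τ)) *
          ∑ c, η l c * aeval (q c) (P.T l τ c)) / ∑ c, η l c * aeval (q c) (P.T l (τ₀ l) c) := by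
      rw [eq_div_iff (hne l hl)]
      exact eq_neg_of_add_eq_zero_left h1
    rw [h2]
    exact F.div_mem (F.neg_mem (F.sum_mem fun τ hτ =>
      F.mul_mem (hT l hl τ (Finset.ne_of_mem_erase hτ)) (hco τ))) (hco _)
  have hall := h.propagate (fun x => x ∈ F) F.zero_mem
    (fun x y hxy hy => mem_of_pow_mem hF (hb k) (hxy ▸ pow_mem hy _))
    (fun c i hc => mem_of_pow_mem hF (hb k) (by
      rw [h.plane c i hc]; exact pow_mem (g4_aeval_mem F fun v _ => hp v) _))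
    (fun c l hc H => mem_of_pow_mem hF (hb l) (by
      rw [hq.fermat c l hc]
      exact F.sum_mem fun i _ => F.mul_mem (hFer _) (pow_mem (H i) _)))
    (fun l hl H c hc => mem_of_pow_mem hF (hb l) (by
      have h1 := hq.constr c l hl hc
      rw [mul_comm, ← eq_div_iff (hκ c l)] at h1
      rw [h1]
      exact F.div_mem (F.sum_mem fun τ _ => F.mul_mem (hblock l hl H τ)
        (g4_aeval_mem F fun v hv => H c hc v (P.T_vars τ hc hv))) (hκF c l)))
  intro l hl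
  exact hblock l hl (hall l.1 hl.le)

end Crest.Agent.R181
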