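import Crest.Agent.R181.I1A

/-! # Row 181, I1: calculus of Hilbert series of multihomogeneous ideals. -/

set_option autoImplicit false

namespace Crest.Agent.R181

open Module MvPolynomial

variable {B : Type} [CommRing B] [IsDomain B] {n : ℕ} {C : Type} [Fintype C] [DecidableEq C]

variable [IsNoetherianRing B]

/-- Filtration of `𝔠' / 𝔠` by cyclic modules; `N` is any submodule containing the series of all
homogeneous ideals that contain `𝔠` and the annihilating set `S`. -/
theorem HS_sub_mem {𝔠 𝔠' : Ideal (PA B n C)} (h : IsHom 𝔠) (h' : IsHom 𝔠') (hle : 𝔠 ≤ 𝔠')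
    {S : Set (PA B n C)} (hS : ∀ x ∈ S, ∀ m ∈ 𝔠', x * m ∈ 𝔠) :
    HS 𝔠 - HS 𝔠' ∈ HSpan (S ∪ (𝔠 : Set (PA B n C))) := by
  induction 𝔠 using IsNoetherian.induction with
  | hgt 𝔠 ih =>
  by_cases he : 𝔠' ≤ 𝔠
  · rw [le_antisymm hle he, sub_self]
    exact Submodule.zero_mem _
  obtain ⟨p, hp', hp⟩ := SetLike.not_le_iff_exists.1 he
  obtain ⟨α, hα⟩ : ∃ α, weightedHomogeneousComponent (wt n C) α p ∉ 𝔠 := by
    by_contra hn
    push Not at hn
    refine hp ?_
    rw [← sum_weightedHomogeneousComponent (wt n C) p]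
    exact finsum_induction (· ∈ 𝔠) 𝔠.zero_mem (fun _ _ => 𝔠.add_mem) hn
  have hm' := h' p hp' α
  have hm : IsH (weightedHomogeneousComponent (wt n C) α p) α :=
    weightedHomogeneousComponent_isWeightedHomogeneous α p
  generalize weightedHomogeneousComponent (wt n C) α p = m at hα hm' hm
  have hlt : 𝔠 < 𝔠 ⊔ Ideal.span {m} :=
    lt_of_le_of_ne le_sup_left fun h0 =>
      hα (h0 ▸ Ideal.mem_sup_right (Ideal.mem_span_singleton_self m))
  have h1 := ih _ hlt (h.sup_span hm)
    (sup_le hle ((Ideal.span_singleton_le_iff_mem _).2 hm'))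
    (fun x hx y hy => Ideal.mem_sup_left (hS x hx y hy))
  have h2 : HS (𝔠.colon {m}) ∈ HSpan (S ∪ (𝔠 : Set (PA B n C))) := by
    refine HS_mem (h.colon hm) ?_
    rintro x (hx | hx)
    · exact Submodule.mem_colon_singleton.2 (hS x hx m hm')
    · exact Submodule.mem_colon_singleton.2 (Ideal.mul_mem_right m 𝔠 hx)
  rw [HS_split h hm, add_sub_right_comm]
  exact Submodule.add_mem _
    (HSpan_anti (Set.union_subset_union_right _ fun x hx => Ideal.mem_sup_left hx) h1)
    (Submodule.smul_mem _ _ h2)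

theorem one_sub_smul_mem {S : Set (PA B n C)} {x : PA B n C} {α : C →₀ ℕ} (hx : IsH x α)
    {H : MvPowerSeries C ℤ} (hH : H ∈ HSpan S) : (1 - zz α) • H ∈ HSpan (insert x S) := by
  induction hH using Submodule.span_induction with
  | mem H hH =>
    obtain ⟨𝔢, h𝔢, hS, rfl⟩ := hH
    have h1 : HS (𝔢 ⊔ Ideal.span {x}) ∈ HSpan (insert x S) :=
      HS_mem (h𝔢.sup_span hx) (Set.insert_subset
        (Ideal.mem_sup_right (Ideal.mem_span_singleton_self x))
        fun y hy => Ideal.mem_sup_left (hS hy))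
    have h2 : HS 𝔢 - HS (𝔢.colon {x}) ∈ HSpan ({x} ∪ (𝔢 : Set (PA B n C))) := by
      refine HS_sub_mem h𝔢 (h𝔢.colon hx)
        (fun y hy => Submodule.mem_colon_singleton.2 (𝔢.mul_mem_right x hy)) ?_
      rintro _ rfl m hm
      rw [mul_comm]
      exact Submodule.mem_colon_singleton.1 hm
    have h3 : (1 - zz α) • HS 𝔢 =
        HS (𝔢 ⊔ Ideal.span {x}) - zz α • (HS 𝔢 - HS (𝔢.colon {x})) := by
      rw [sub_smul, one_smul, smul_sub]
      nth_rewrite 1 [HS_split h𝔢 hx]
      abel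
    rw [h3]
    exact Submodule.sub_mem _ h1 (Submodule.smul_mem _ _
      (HSpan_anti (Set.insert_subset (Or.inl rfl) fun y hy => Or.inr (hS hy)) h2))
  | zero => rw [smul_zero]; exact Submodule.zero_mem _
  | add H H' _ _ h1 h2 => rw [smul_add]; exact Submodule.add_mem _ h1 h2
  | smul r H _ h1 => rw [smul_comm]; exact Submodule.smul_mem _ _ h1

theorem one_sub_smul_negl (L : Finset C) {S : Set (PA B n C)} {x : PA B n C} {α : C →₀ ℕ}
    (hx : IsH x α) {H : MvPowerSeries C ℤ} (hH : H ∈ Negl L S) :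
    (1 - zz α) • H ∈ Negl L (insert x S) := by
  have : Negl L S ≤ (Negl L (insert x S)).comap
      (LinearMap.lsmul (MvPolynomial C ℤ) (MvPowerSeries C ℤ) (1 - zz α)) := by
    refine iSup₂_le fun c hc H hH => ?_
    have h1 := one_sub_smul_mem hx hH
    rw [← Set.insert_union] at h1
    exact Submodule.mem_iSup_of_mem c (Submodule.mem_iSup_of_mem hc h1)
  exact this hH

/-- Hilbert–Serre. -/
theorem hilbert_serre (L : Finset C) {H : MvPowerSeries C ℤ} (hH : H ∈ HSpan (outV B n L)) :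
    ∃ γ : MvPolynomial C ℤ,
      (∏ c ∈ L, (1 - X c : MvPolynomial C ℤ) ^ (n + 2)) • H = (γ : MvPowerSeries C ℤ) := by
  have h1 : ∀ T : Finset (C × Var n), (∏ v ∈ T, (1 - X v.1 : MvPolynomial C ℤ)) • H ∈
      HSpan (outV B n L ∪ (X '' (T : Set (C × Var n)))) := by
    intro T
    induction T using Finset.induction_on with
    | empty => simpa using hH
    | insert v T hv ih =>
      rw [Finset.prod_insert hv, mul_smul, Finset.coe_insert, Set.image_insert_eq,
        Set.union_insert]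
      exact one_sub_smul_mem (isH_X v) ih
  have h2 := h1 (L ×ˢ Finset.univ)
  have h3 : (∏ v ∈ L ×ˢ (Finset.univ : Finset (Var n)), (1 - X v.1 : MvPolynomial C ℤ)) =
      ∏ c ∈ L, (1 - X c : MvPolynomial C ℤ) ^ (n + 2) := by
    rw [Finset.prod_product]
    refine Finset.prod_congr rfl fun c _ => ?_
    simp [add_comm]
  rw [h3] at h2
  generalize (∏ c ∈ L, (1 - X c : MvPolynomial C ℤ) ^ (n + 2)) • H = G at h2
  induction h2 using Submodule.span_induction with
  | mem G hG =>
    obtain ⟨𝔢, -, hS, rfl⟩ := hG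
    have hX : ∀ v, (X v : PA B n C) ∈ 𝔢 := fun v => by
      by_cases hv : v.1 ∈ L
      · exact hS (Or.inr ⟨v, by simpa using hv, rfl⟩)
      · exact hS (Or.inl ⟨v.1, v.2, hv, rfl⟩)
    refine ⟨MvPolynomial.C (MvPowerSeries.coeff 0 (HS 𝔢)), ?_⟩
    ext α
    rw [MvPolynomial.coeff_coe, coeff_C]
    split_ifs with hα
    · rw [hα]
    · refine coeff_HS_eq_zero fun μ hμ => ⟨1, one_ne_zero, ?_⟩
      have hμ0 : μ ≠ 0 := by
        rintro rfl
        exact hα (by rw [← hμ, map_zero])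
      obtain ⟨v, hv⟩ := Finsupp.support_nonempty_iff.2 hμ0
      have : (monomial μ 1 : PA B n C) = monomial (μ - Finsupp.single v 1) 1 * X v := by
        rw [X, monomial_mul, one_mul, tsub_add_cancel_of_le (Finsupp.single_le_iff.2
          (Nat.one_le_iff_ne_zero.2 (Finsupp.mem_support_iff.1 hv)))]
      rw [map_one, one_mul, this]
      exact 𝔢.mul_mem_left _ (hX v)
  | zero => exact ⟨0, by simp⟩
  | add G G' _ _ h1 h2 =>
    obtain ⟨γ, rfl⟩ := h1
    obtain ⟨γ', rfl⟩ := h2
    exact ⟨γ + γ', by simp⟩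
  | smul r G _ h1 =>
    obtain ⟨γ, rfl⟩ := h1
    refine ⟨r * γ, ?_⟩
    rw [Algebra.smul_def, MvPowerSeries.algebraMap_apply', MvPolynomial.coe_mul]
    simp

end Crest.Agent.R181
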