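import Crest.Agent.R181.G4
import Crest.Agent.R181.I1

/-! # Row 181, G5: the rows satisfy the hypothesis of the row lemma. -/

set_option autoImplicit false

namespace Crest.Agent.R181

open Module MvPolynomial

section Kil

variable {Pa : Type} [DecidableEq Pa] {n : ℕ} {C : Type}

theorem g5_kil_X (β : Finset Pa) (v : C × Var n) : kil n C β (X v) = X v := map_X _ _

theorem g5_kil_CX (β : Finset Pa) {τ : Pa} (h : τ ∉ β) :
    kil n C β (MvPolynomial.C (X τ)) = MvPolynomial.C (X τ) := by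
  simp [kil, h]

theorem g5_kil_CC (β : Finset Pa) (z : ℂ) :
    kil n C β (MvPolynomial.C (MvPolynomial.C z)) = MvPolynomial.C (MvPolynomial.C z) := by
  simp [kil]

/-- A complex polynomial in the variables of the curve `c`. -/
noncomputable def g5E (Pa : Type) {n : ℕ} {C : Type} (c : C) :
    PP ℂ n →+* PA (MvPolynomial Pa ℂ) n C :=
  (rename (Prod.mk c)).toRingHom.comp (map MvPolynomial.C)

omit [DecidableEq Pa] in
theorem g5E_apply (c : C) (p : PP ℂ n) :
    g5E Pa c p = rename (Prod.mk c) (map MvPolynomial.C p) := rfl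

theorem g5_kil_E (β : Finset Pa) (c : C) (p : PP ℂ n) : kil n C β (g5E Pa c p) = g5E Pa c p := by
  have : (kil n C β).comp (g5E Pa c) = g5E Pa c := by
    refine ringHom_ext (fun z => ?_) fun v => ?_
    · simp [g5E_apply, g5_kil_CC]
    · simp [g5E_apply, g5_kil_X]
  exact congr($this p)

theorem g5_kil_rename (β : Finset Pa) {ι : Type} (e : ι → Pa) (he : ∀ i, e i ∉ β)
    (p : MvPolynomial ι ℂ) :
    kil n C β (MvPolynomial.C (rename e p)) = MvPolynomial.C (rename e p) := by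
  induction p using MvPolynomial.induction_on with
  | C z => rw [rename_C, g5_kil_CC]
  | add p q hp hq => simp only [map_add, hp, hq]
  | mul_X p i hp => simp only [map_mul, hp, rename_X, g5_kil_CX β (he i)]

end Kil

variable {n : ℕ} {a : Fin n → ℕ} {σ : Sch n a} {f : Fin n → MvPolynomial (Fin n) ℂ}

/-- Fermat rows first, then the stages in order. -/
def Sch.key (σ : Sch n a) (r : σ.Cv × Fin n) : ℕ := if r.1.1 < NN σ.N0 r.2 then r.2 + 1 else 0

theorem Sch.Spn.row_fer (P : σ.Spn f) (ha1 : ∀ i, 1 ≤ a i) {c : σ.Cv} {k : Fin n}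
    (h : ¬ c.1 < NN σ.N0 k) :
    (P.rd ha1).row (c, k) = X (c, Sum.inr k) ^ bb a k -
      ∑ j : Fin 2, MvPolynomial.C (X (Sum.inl (c, k, j))) * X (c, Sum.inl j) ^ bb a k := by
  simp [RD.row, Sch.Spn.rd, Sch.kap, Sch.Spn.rhs, h]

theorem Sch.Spn.row_con (P : σ.Spn f) (ha1 : ∀ i, 1 ≤ a i) {c : σ.Cv} {k : Fin n}
    (h : c.1 < NN σ.N0 k) :
    (P.rd ha1).row (c, k) = MvPolynomial.C (σ.kap P.m c k) * X (c, Sum.inr k) ^ bb a k -
      ∑ τ, MvPolynomial.C (X (Sum.inr (k, τ))) * g5E (σ.Par P.m) c (P.T k τ c) := by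
  simp [RD.row, Sch.Spn.rd, Sch.Spn.rhs, h, g5E_apply]

theorem Sch.kil_kap (σ : Sch n a) (m : ℕ) (β : Finset (σ.Par m)) (hβ : ∀ x, Sum.inl x ∉ β)
    (c : σ.Cv) (k : Fin n) :
    kil n σ.Cv β (MvPolynomial.C (σ.kap m c k)) = MvPolynomial.C (σ.kap m c k) := by
  unfold Sch.kap
  split_ifs
  · simp only [map_mul, map_prod, g5_kil_CX β (hβ _)]
  · simp

theorem Sch.Spn.bpf_rows (ha : Monotone a) (ha1 : ∀ i, 1 ≤ a i)
    (hf : ∀ i, (f i).IsHomogeneous (a i)) (hA : Artin f) (P : σ.Spn f) (L : Finset σ.Cv)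
    (S : Finset (σ.Cv × Fin n)) (i : σ.Cv × Fin n) (hS : ∀ r ∈ S, r.1 ∈ L) (hi : i.1 ∈ L)
    (hiS : i ∉ S) (hle : ∀ r ∈ S, σ.key r ≤ σ.key i)
    (hlow : ∀ r : σ.Cv × Fin n, r.1 ∈ L → σ.key r < σ.key i → r ∈ S) :
    BPF L (outV _ n L ∪ (P.rd ha1).row '' S) ((P.rd ha1).row i) ((P.rd ha1).deg i) := by
  classical
  obtain ⟨c, k⟩ := i
  have hb : ∀ l, bb a l ≠ 0 := fun l => Nat.one_le_iff_ne_zero.1 (ha1 _)
  by_cases hc : c.1 < NN σ.N0 k
  swap
  · -- Fermat row
    let β : Finset (σ.Par P.m) := Finset.univ.image fun j : Fin 2 => Sum.inl (c, k, j)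
    let g₀ : σ.Par P.m → PA (MvPolynomial (σ.Par P.m) ℂ) n σ.Cv := fun τ => match τ with
      | Sum.inl x => -X (c, Sum.inl x.2.2) ^ bb a k
      | Sum.inr _ => 0
    refine ⟨β, Fin 0, inferInstance, Fin.elim0, Fin.elim0, Fin.elim0, X (c, Sum.inr k) ^ bb a k,
      g₀, ?_, ?_, fun l => l.elim0, fun l => l.elim0, ?_, ?_, ?_⟩
    · rintro x (⟨c', v, -, rfl⟩ | ⟨⟨c', k'⟩, hr, rfl⟩)
      · exact Or.inl (g5_kil_X _ _)
      · left
        have hc' : ¬ c'.1 < NN σ.N0 k' := by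
          intro h
          have := hle _ hr
          simp [Sch.key, h, hc] at this
        have hβ : ∀ j, (Sum.inl (c', k', j) : σ.Par P.m) ∉ β := by
          intro j hj
          obtain ⟨j', -, hj'⟩ := Finset.mem_image.1 hj
          cases hj'
          exact hiS hr
        rw [P.row_fer ha1 hc']
        simp only [map_sub, map_pow, map_sum, map_mul, g5_kil_X, g5_kil_CX β (hβ _)]
    · rw [P.row_fer ha1 hc, aff, Finset.sum_image (fun x _ y _ h => by cases h; rfl)]
      rw [sub_eq_add_neg, ← Finset.sum_neg_distrib]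
      exact congrArg _ (Finset.sum_congr rfl fun _ _ => by simp only [g₀]; ring)
    · rw [map_pow, g5_kil_X]
    · rintro (x | x)
      · refine ⟨by simp only [g₀, map_neg, map_pow, g5_kil_X], ?_⟩
        have := isH_rename (B := MvPolynomial (σ.Par P.m) ℂ) c
          (((isHomogeneous_X _ (Sum.inl x.2.2 : Var n)).pow (bb a k)).neg)
        simpa [g₀, RD.deg, Sch.Spn.rd] using this
      · exact ⟨map_zero _, isWeightedHomogeneous_zero _ _ _⟩
    · intro Ω _ _ ψ _ _ h3 s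
      rcases h3 c hi with h | h
      · exact ⟨Sum.inl (c, k, 0), Finset.mem_image_of_mem _ (Finset.mem_univ _), by
          simpa [g₀, hb k] using h⟩
      · exact ⟨Sum.inl (c, k, 1), Finset.mem_image_of_mem _ (Finset.mem_univ _), by
          simpa [g₀, hb k] using h⟩
  -- constrained row
  let β : Finset (σ.Par P.m) := Finset.univ.image fun τ : Fin P.m => Sum.inr (k, τ)
  have hβl : ∀ x, (Sum.inl x : σ.Par P.m) ∉ β := by
    intro x hx
    obtain ⟨τ, -, h⟩ := Finset.mem_image.1 hx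
    cases h
  have hβr : ∀ l τ, l ≠ k → (Sum.inr (l, τ) : σ.Par P.m) ∉ β := by
    intro l τ hl hx
    obtain ⟨τ', -, h⟩ := Finset.mem_image.1 hx
    cases h
    exact hl rfl
  let gg : σ.Cv → σ.Par P.m → PA (MvPolynomial (σ.Par P.m) ℂ) n σ.Cv := fun c' τ => match τ with
    | Sum.inl _ => 0
    | Sum.inr x => -g5E (σ.Par P.m) c' (P.T k x.2 c')
  let hh : σ.Cv → PA (MvPolynomial (σ.Par P.m) ℂ) n σ.Cv := fun c' =>
    MvPolynomial.C (σ.kap P.m c' k) * X (c', Sum.inr k) ^ bb a k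
  have hrow : ∀ c' : σ.Cv, c'.1 < NN σ.N0 k → (P.rd ha1).row (c', k) = aff β (hh c') (gg c') := by
    intro c' hc'
    rw [P.row_con ha1 hc', aff, Finset.sum_image (fun x _ y _ h => by cases h; rfl)]
    rw [sub_eq_add_neg, ← Finset.sum_neg_distrib]
    exact congrArg _ (Finset.sum_congr rfl fun _ _ => by simp only [gg]; ring)
  have hhh : ∀ c', kil n σ.Cv β (hh c') = hh c' := fun c' => by
    simp only [hh, map_mul, map_pow, g5_kil_X, σ.kil_kap P.m β hβl]
  have hgg : ∀ c' : σ.Cv, c'.1 < NN σ.N0 k → ∀ τ, kil n σ.Cv β (gg c' τ) = gg c' τ ∧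
      IsH (gg c' τ) (Finsupp.single c' (bb a k)) := by
    rintro c' hc' (x | x)
    · exact ⟨map_zero _, isWeightedHomogeneous_zero _ _ _⟩
    · refine ⟨by simp only [gg, map_neg, g5_kil_E], ?_⟩
      have := isH_rename (B := MvPolynomial (σ.Par P.m) ℂ) c'
        (((((σ.mem_AA.1 (P.T_mem k x.2).1) c').1 hc').1.map MvPolynomial.C).neg)
      simpa [gg, g5E_apply] using this
  have hfix : ∀ (c' : σ.Cv) (l : Fin n), (c'.1 < NN σ.N0 l → l ≠ k) →
      kil n σ.Cv β ((P.rd ha1).row (c', l)) = (P.rd ha1).row (c', l) := by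
    intro c' l h
    by_cases hc' : c'.1 < NN σ.N0 l
    · rw [P.row_con ha1 hc']
      simp only [map_sub, map_pow, map_sum, map_mul, g5_kil_X, g5_kil_CX β (hβr _ _ (h hc')),
        σ.kil_kap P.m β hβl, g5_kil_E]
    · rw [P.row_fer ha1 hc']
      simp only [map_sub, map_pow, map_sum, map_mul, g5_kil_X, g5_kil_CX β (hβl _)]
  let ι := {c' : σ.Cv // c'.1 < NN σ.N0 k ∧ (c', k) ∈ S}
  refine ⟨β, ι, inferInstance, fun l => Finsupp.single l.1 (bb a k), fun l => hh l.1,
    fun l => gg l.1, hh c, gg c, ?_, hrow c hc, fun l => hhh _, fun l => hgg _ l.2.1, hhh c,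
    hgg c hc, ?_⟩
  · rintro x (⟨c', v, -, rfl⟩ | ⟨⟨c', k'⟩, hr, rfl⟩)
    · exact Or.inl (g5_kil_X _ _)
    · by_cases h : c'.1 < NN σ.N0 k' ∧ k' = k
      · obtain ⟨h1, rfl⟩ := h
        exact Or.inr ⟨⟨c', h1, hr⟩, hrow c' h1⟩
      · exact Or.inl (hfix c' k' fun h1 h2 => h ⟨h1, h2⟩)
  intro Ω _ _ ψ h1 h2 h3 s
  by_contra hcon
  push Not at hcon
  let _ : Algebra ℂ Ω := (ψ.comp (MvPolynomial.C.comp MvPolynomial.C)).toAlgebra
  let π : σ.Par P.m → Ω := fun τ => ψ (MvPolynomial.C (X τ))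
  let q : σ.Cv → Var n → Ω := fun c v => ψ (X (c, v))
  have hπ : ∀ b : MvPolynomial (σ.Par P.m) ℂ, ψ (MvPolynomial.C b) = aeval π b := by
    intro b
    have : ψ.comp MvPolynomial.C = (aeval π : MvPolynomial (σ.Par P.m) ℂ →ₐ[ℂ] Ω).toRingHom :=
      ringHom_ext (fun z => by simp [RingHom.algebraMap_toAlgebra]) fun v => by simp [π]
    exact congr($this b)
  have hE : ∀ c' p, ψ (g5E (σ.Par P.m) c' p) = aeval (q c') p := by
    intro c' p
    have : ψ.comp (g5E (σ.Par P.m) c') = (aeval (q c') : PP ℂ n →ₐ[ℂ] Ω).toRingHom :=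
      ringHom_ext (fun z => by simp [RingHom.algebraMap_toAlgebra, g5E_apply])
        fun v => by simp [q, g5E_apply]
    exact congr($this p)
  have hout : ∀ c', c' ∉ L → ∀ v, q c' v = 0 := fun c' hc' v =>
    h2 _ (Or.inl ⟨c', v, hc', rfl⟩) (g5_kil_X _ _)
  have hkey : σ.key (c, k) = k + 1 := by simp [Sch.key, hc]
  have hq : P.Pts π k q := by
    refine ⟨fun c' l hl => ?_, fun c' l hl hc' => ?_⟩
    · by_cases hL : c' ∈ L
      · have hmem : (c', l) ∈ S := hlow _ hL (by simp [Sch.key, hc, not_lt.2 hl])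
        have := h2 _ (Or.inr ⟨_, hmem, rfl⟩) (hfix c' l fun h => absurd h (not_lt.2 hl))
        rw [P.row_fer ha1 (not_lt.2 hl)] at this
        simpa only [map_sub, map_pow, map_sum, map_mul, sub_eq_zero] using this
      · simp [hout c' hL, hb l]
    · by_cases hL : c' ∈ L
      · have hmem : (c', l) ∈ S := hlow _ hL (by
          rw [hkey]; simp only [Sch.key, hc', if_true]; exact Nat.succ_lt_succ hl)
        have := h2 _ (Or.inr ⟨_, hmem, rfl⟩) (hfix c' l fun _ => hl.ne)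
        rw [P.row_con ha1 hc'] at this
        simpa only [map_sub, map_pow, map_sum, map_mul, sub_eq_zero, hE, ← hπ] using this
      · rw [hout c' hL, zero_pow (hb l), mul_zero, eq_comm]
        refine Finset.sum_eq_zero fun τ _ => ?_
        rw [g4_aeval_zero (((σ.mem_AA.1 (P.T_mem l τ).1) c').1 hc').1 (ha1 _)
          fun v _ => hout c' hL v, mul_zero]
  have hind : AlgebraicIndependent ℂ
      fun t : {t : σ.Par P.m // ∀ l τ, t = Sum.inr (l, τ) → l < k} => π t := by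
    rw [algebraicIndependent_iff]
    intro p hp
    by_contra hp0
    refine h1 (rename Subtype.val p)
      (fun h => hp0 (rename_injective _ Subtype.val_injective (by rw [h, map_zero])))
      (g5_kil_rename β _ ?_ p) ?_
    · rintro ⟨x | ⟨l, τ⟩, hx⟩
      · exact hβl x
      · exact hβr l τ (hx l τ rfl).ne
    · rw [hπ, aeval_rename]; exact hp
  let s' : σ.Cv → Ω := fun c' => (if c' = c then 1 else 0) -
    if h : c'.1 < NN σ.N0 k ∧ (c', k) ∈ S then s ⟨c', h⟩ else 0
  have hs' : s' c = 1 := by simp [s', hiS]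
  have hrel : ∀ τ, ∑ c', s' c' * aeval (q c') (P.T k τ c') = 0 := by
    intro τ
    have h0 := hcon (Sum.inr (k, τ)) (Finset.mem_image_of_mem _ (Finset.mem_univ _))
    simp only [gg, map_neg, hE, mul_neg, Finset.sum_neg_distrib, neg_inj] at h0
    simp only [s', sub_mul, Finset.sum_sub_distrib, ite_mul, one_mul, zero_mul,
      Finset.sum_ite_eq', Finset.mem_univ, if_true, h0, sub_eq_zero]
    refine Fintype.sum_of_injective Subtype.val Subtype.val_injective _ _ (fun c' hc' => ?_)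
      fun l => ?_
    · rw [dif_neg fun h => hc' ⟨⟨c', h⟩, rfl⟩, zero_mul]
    · rw [dif_pos l.2]
  have hz := fun j => P.bpf ha ha1 hf hA π k hind q hq s' hrel c hc j
  rcases h3 c hi with h | h
  · exact h (by simpa [hs'] using hz 0)
  · exact h (by simpa [hs'] using hz 1)

end Crest.Agent.R181
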