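import Crest.Agent.R181.I1
import Crest.Agent.R181.DGood

/-! # Row 181, I6: passing to the fraction field. -/

set_option autoImplicit false

namespace Crest.Agent.R181

open Module MvPolynomial

variable {n : ℕ} {C : Type} [Fintype C] [DecidableEq C]
  {B : Type} [CommRing B] [IsDomain B]

theorem RD.map_row (R : RD B n C) (K : Type) [Field K] [Algebra B K] [IsFractionRing B K]
    (c : C) (k : Fin n) :
    map (algebraMap B K) (MvPolynomial.C (R.κ c k) * X (Sum.inr k) ^ R.b k - R.A c k) =
      MvPolynomial.C (algebraMap B K (R.κ c k)) * ((R.toCD K).cv c).eqn k := by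
  have h : algebraMap B K (R.κ c k) ≠ 0 := fun h0 =>
    R.hκ c k (IsFractionRing.injective B K (h0.trans (map_zero _).symm))
  change _ = MvPolynomial.C (algebraMap B K (R.κ c k)) * (X (Sum.inr k) ^ R.b k -
    MvPolynomial.C (algebraMap B K (R.κ c k))⁻¹ * map (algebraMap B K) (R.A c k))
  rw [mul_sub, ← mul_assoc, ← C_mul, mul_inv_cancel₀ h]
  simp

theorem i6_clear {σ : Type} (K : Type) [Field K] [Algebra B K] [IsFractionRing B K]
    (q : MvPolynomial σ K) :
    ∃ (b : nonZeroDivisors B) (p : MvPolynomial σ B),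
      map (algebraMap B K) p = algebraMap B K b • q := by
  induction q using MvPolynomial.induction_on' with
  | monomial μ a =>
    obtain ⟨⟨x, b⟩, h⟩ := IsLocalization.surj (nonZeroDivisors B) a
    refine ⟨b, monomial μ x, ?_⟩
    rw [map_monomial, smul_monomial, smul_eq_mul, mul_comm, h]
  | add p q hp hq =>
    obtain ⟨b, p', h⟩ := hp
    obtain ⟨b', q', h'⟩ := hq
    refine ⟨b * b', MvPolynomial.C (b' : B) * p' + MvPolynomial.C (b : B) * q', ?_⟩
    rw [map_add, map_mul, map_mul, map_C, map_C, h, h', C_mul', C_mul', smul_smul, smul_smul,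
      Submonoid.coe_mul, map_mul, smul_add, mul_comm]

theorem i6_finrank {σ : Type} (K : Type) [Field K] [Algebra B K] [IsFractionRing B K]
    (V : Submodule K (MvPolynomial σ K)) (W : Submodule B (MvPolynomial σ B))
    (h : ∀ p, p ∈ W ↔ map (algebraMap B K) p ∈ V) : finrank B W = finrank K V := by
  let f : W →ₗ[B] V :=
    { toFun := fun p => ⟨map (algebraMap B K) p.1, (h _).1 p.2⟩
      map_add' := fun p q => Subtype.ext (map_add _ _ _)
      map_smul' := fun b p => Subtype.ext (by
        change map (algebraMap B K) (b • p.1) = b • map (algebraMap B K) p.1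
        rw [← C_mul', map_mul, map_C, C_mul', algebraMap_smul]) }
  haveI : IsLocalizedModule (nonZeroDivisors B) f :=
    { map_units := fun b => by
        have hb : algebraMap B K b ≠ 0 := IsFractionRing.to_map_ne_zero_of_mem_nonZeroDivisors b.2
        rw [Module.End.isUnit_iff]
        refine ⟨fun x y hxy => ?_, fun y => ⟨(algebraMap B K b)⁻¹ • y, ?_⟩⟩
        · simp only [Module.algebraMap_end_apply] at hxy
          rw [← algebraMap_smul K, ← algebraMap_smul K (b : B) y] at hxy
          exact smul_right_injective _ hb hxy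
        · rw [Module.algebraMap_end_apply, ← algebraMap_smul K, smul_smul, mul_inv_cancel₀ hb,
            one_smul]
      surj := fun y => by
        obtain ⟨b, p, hp⟩ := i6_clear (B := B) K y.1
        refine ⟨(⟨p, (h p).2 (hp ▸ V.smul_mem _ y.2)⟩, b), Subtype.ext ?_⟩
        change (b : B) • y.1 = map (algebraMap B K) p
        rw [hp, algebraMap_smul]
      exists_of_eq := fun {x y} hxy => ⟨1, by
        have : x = y := Subtype.ext
          (map_injective _ (IsFractionRing.injective B K) (congrArg Subtype.val hxy))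
        rw [this]⟩ }
  rw [IsFractionRing.finrank_right_eq B K V,
    IsLocalizedModule.finrank_eq (nonZeroDivisors B) f le_rfl]

theorem i6_weight (μ : C × Var n →₀ ℕ) :
    mdeg μ = fun c => ((Finsupp.weight (wt n C) μ c : ℕ) : ℤ) := by
  induction μ using Finsupp.induction_linear with
  | zero => rw [mdeg_zero]; funext c; simp
  | add μ ν hμ hν => rw [mdeg_add, hμ, hν]; funext c; simp
  | single v m =>
    obtain ⟨c, v⟩ := v
    rw [mdeg_single, Finsupp.weight_single]
    funext c'
    by_cases h : c' = c
    · subst h; simp [wt]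
    · simp [wt, h]

theorem i6_weight_iff (μ : C × Var n →₀ ℕ) (α : C →₀ ℕ) :
    Finsupp.weight (wt n C) μ = α ↔ mdeg μ = fun c => ((α c : ℕ) : ℤ) := by
  rw [i6_weight]
  refine ⟨fun h => by rw [h], fun h => Finsupp.ext fun c => ?_⟩
  exact_mod_cast congrFun h c

theorem i6_mem_Pc (K : Type) [Field K] [Algebra B K] [IsFractionRing B K] (p : PA B n C)
    (α : C →₀ ℕ) : p ∈ weightedHomogeneousSubmodule B (wt n C) α ↔
      map (algebraMap B K) p ∈ Pc K n (fun c => ((α c : ℕ) : ℤ)) := by
  rw [mem_weightedHomogeneousSubmodule]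
  refine ⟨fun h => AddMonoidAlgebra.mem_supported'.2 fun μ hμ => ?_, fun h μ hμ => ?_⟩
  · by_contra h0
    refine hμ ((i6_weight_iff μ α).1 (h fun h1 => h0 ?_))
    change coeff μ (map (algebraMap B K) p) = 0
    rw [coeff_map, h1, map_zero]
  · by_contra h0
    have h1 : coeff μ (map (algebraMap B K) p) = 0 :=
      AddMonoidAlgebra.mem_supported'.1 h μ fun h2 => h0 ((i6_weight_iff μ α).2 h2)
    rw [coeff_map] at h1
    exact hμ (IsFractionRing.injective B K (h1.trans (map_zero _).symm))

theorem i6_weight_sub {μ : C × Var n →₀ ℕ} {v : C × Var n} (hv : v ∈ μ.support) :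
    Finsupp.weight (wt n C) μ =
      Finsupp.weight (wt n C) (μ - Finsupp.single v 1) + Finsupp.single v.1 1 := by
  have h1 : Finsupp.single v 1 ≤ μ := by
    rw [Finsupp.single_le_iff]
    exact Nat.one_le_iff_ne_zero.2 (Finsupp.mem_support_iff.1 hv)
  conv_lhs => rw [← tsub_add_cancel_of_le h1]
  rw [map_add, Finsupp.weight_single, one_smul]
  rfl

theorem i6_comp_X_mul (v : C × Var n) (p : PA B n C) (β : C →₀ ℕ) :
    weightedHomogeneousComponent (wt n C) (β + Finsupp.single v.1 1) (X v * p) =
      X v * weightedHomogeneousComponent (wt n C) β p := by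
  classical
  ext μ
  rw [coeff_weightedHomogeneousComponent, coeff_X_mul', coeff_X_mul',
    coeff_weightedHomogeneousComponent]
  by_cases hv : v ∈ μ.support
  · simp only [hv, if_true, i6_weight_sub hv, add_left_inj]
  · simp only [hv, if_false, ite_self]

theorem i6_comp_X_mul_zero (v : C × Var n) (p : PA B n C) {α : C →₀ ℕ} (hα : α v.1 = 0) :
    weightedHomogeneousComponent (wt n C) α (X v * p) = 0 := by
  classical
  ext μ
  rw [coeff_weightedHomogeneousComponent, coeff_X_mul', coeff_zero]
  by_cases hv : v ∈ μ.support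
  · rw [if_neg]
    intro h
    rw [← h, i6_weight_sub hv] at hα
    simp at hα
  · simp only [hv, if_false, ite_self]

theorem intg_of_good (R : RD B n C) (L : Finset C) (K : Type) [Field K] [Algebra B K]
    [IsFractionRing B K]
    (h : ∀ 𝔠 : Ideal (PA B n C), IsHom 𝔠 → outV B n L ∪ R.rows L ⊆ 𝔠 →
      Good R.b L fun s => MvPowerSeries.coeff (toF s) (HS 𝔠)) :
    Intg (R.toCD K) K L := by
  classical
  intro 𝔠 hF
  let S : AddSubgroup (PA B n C) :=
    { carrier := {p | ∀ α : C →₀ ℕ, (∀ c, c ∉ L → α c = 0) →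
        map (algebraMap B K) (weightedHomogeneousComponent (wt n C) α p) ∈
          𝔠 fun c => ((α c : ℕ) : ℤ)}
      add_mem' := fun {p q} hp hq α hα => by
        rw [map_add, map_add]; exact add_mem (hp α hα) (hq α hα)
      zero_mem' := fun α _ => by rw [map_zero, map_zero]; exact zero_mem _
      neg_mem' := fun {p} hp α hα => by rw [map_neg, map_neg]; exact neg_mem (hp α hα) }
  have hX : ∀ v, ∀ p ∈ S, X v * p ∈ S := by
    intro v p hp α hα
    by_cases h0 : α v.1 = 0
    · rw [i6_comp_X_mul_zero v p h0, map_zero]; exact zero_mem _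
    have hv : v.1 ∈ L := by_contra fun hc => h0 (hα _ hc)
    obtain ⟨β, rfl⟩ : ∃ β, α = β + Finsupp.single v.1 1 :=
      ⟨α - Finsupp.single v.1 1, (tsub_add_cancel_of_le
        (Finsupp.single_le_iff.2 (Nat.one_le_iff_ne_zero.2 h0))).symm⟩
    have hβ : ∀ c, c ∉ L → β c = 0 := fun c hc => by
      have := hα c hc
      rw [Finsupp.add_apply] at this
      omega
    have h1 := hF.mul _ v.1 hv v.2 _ (hp β hβ)
    have e : (fun c => (((β + Finsupp.single v.1 1 : C →₀ ℕ) c : ℕ) : ℤ)) =
        (fun c => ((β c : ℕ) : ℤ)) + Pi.single v.1 1 := by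
      funext c
      by_cases hc : c = v.1
      · subst hc; simp
      · simp [hc]
    rw [i6_comp_X_mul, map_mul, map_X, e, mul_comm]
    exact h1
  have hmul : ∀ r : PA B n C, ∀ p ∈ S, r * p ∈ S := by
    intro r
    induction r using MvPolynomial.induction_on with
    | C b =>
      intro p hp α hα
      rw [weightedHomogeneousComponent_C_mul, map_mul, map_C, C_mul']
      exact Submodule.smul_mem _ _ (hp α hα)
    | add r r' hr hr' => intro p hp; rw [add_mul]; exact S.add_mem (hr p hp) (hr' p hp)
    | mul_X r v hr => intro p hp; rw [mul_assoc]; exact hr _ (hX v p hp)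
  let I : Ideal (PA B n C) :=
    { carrier := S
      add_mem' := S.add_mem
      zero_mem' := S.zero_mem
      smul_mem' := fun r p hp => hmul r p hp }
  have hI : ∀ (p : PA B n C) (β : C →₀ ℕ), IsH p β → (p ∈ I ↔ ((∀ c, c ∉ L → β c = 0) →
      map (algebraMap B K) p ∈ 𝔠 fun c => ((β c : ℕ) : ℤ))) := by
    intro p β hp
    constructor
    · intro h1 hβ
      have := h1 β hβ
      rwa [weightedHomogeneousComponent_of_mem hp, if_pos rfl] at this
    · intro h1 α hα
      rw [weightedHomogeneousComponent_of_mem hp]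
      split_ifs with h2
      · subst h2; exact h1 hα
      · rw [map_zero]; exact zero_mem _
  have hhom : IsHom I := fun p hp α =>
    (hI _ α (weightedHomogeneousComponent_isWeightedHomogeneous α p)).2 (hp α)
  have hsub : outV B n L ∪ R.rows L ⊆ I := by
    rintro _ (⟨c, v, hc, rfl⟩ | ⟨c, hc, k, rfl⟩)
    · refine (hI _ _ (isH_X (c, v))).2 fun h1 => ?_
      simpa using h1 c hc
    · refine (hI _ _ (R.isH_row (c, k))).2 fun _ => ?_
      have e : (fun c' => ((R.deg (c, k) c' : ℕ) : ℤ)) = Pi.single c ((R.toCD K).b k : ℤ) := by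
        funext c'
        by_cases hc : c' = c
        · subst hc; simp [RD.deg, RD.toCD]
        · simp [RD.deg, hc]
      have e2 : eqE (R.toCD K) K c k = rename (Prod.mk c) (((R.toCD K).cv c).eqn k) := by
        rw [eqE, Algebra.algebraMap_self, AddMonoidAlgebra.mapRingHom_id]
        rfl
      rw [e, RD.row, map_rename, R.map_row, map_mul, rename_C, C_mul', ← e2]
      exact Submodule.smul_mem _ _ (hF.eq c hc k)
  refine (h I hhom hsub).congr 0 fun s h1 h2 => ?_
  have hs : (fun c => ((toF s c : ℕ) : ℤ)) = s := by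
    funext c
    change (((s c).toNat : ℕ) : ℤ) = s c
    refine Int.toNat_of_nonneg ?_
    by_cases hc : c ∈ L
    exacts [h1 c hc, (h2 c hc).ge]
  have hL : ∀ c, c ∉ L → toF s c = 0 := fun c hc => by
    change (s c).toNat = 0
    rw [h2 c hc]; rfl
  have e1 := i6_finrank K (Pc K n s) (weightedHomogeneousSubmodule B (wt n C) (toF s))
    fun p => by rw [i6_mem_Pc K, hs]
  have e2 := i6_finrank K (𝔠 s)
    (weightedHomogeneousSubmodule B (wt n C) (toF s) ⊓ I.restrictScalars B) fun p => by
      constructor
      · rintro ⟨h3, h4⟩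
        rw [← hs]
        exact (hI p _ h3).1 h4 hL
      · intro h3
        have h4 : p ∈ weightedHomogeneousSubmodule B (wt n C) (toF s) := by
          rw [i6_mem_Pc K, hs]; exact hF.le s h3
        exact ⟨h4, (hI p _ h4).2 fun _ => by rw [hs]; exact h3⟩
  change _ = HS I (toF s)
  rw [HS, e1, e2]

end Crest.Agent.R181
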