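import Crest.Agent.R181.K1

/-! # Row 181, K10: base change from `ℂ` to a division algebra. -/

set_option autoImplicit false

namespace Crest.Agent.R181

open Module

variable {D : Type} [DivisionRing D] [Algebra ℂ D] {n : ℕ}

theorem incl_single {σ : Type} (μ : σ →₀ ℕ) (c : ℂ) :
    incl D σ (AddMonoidAlgebra.single μ c) = AddMonoidAlgebra.single μ (algebraMap ℂ D c) := by
  exact AddMonoidAlgebra.mapRingHom_single _ _ _

theorem incl_X {σ : Type} (i : σ) : incl D σ (MvPolynomial.X i) = xv D i := by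
  have : (MvPolynomial.X i : MvPolynomial σ ℂ) =
      AddMonoidAlgebra.single (Finsupp.single i 1) (1 : ℂ) := rfl
  rw [this, incl_single, map_one]
  rfl

/-- The image of `ℂ[x]` is central. -/
theorem incl_comm {σ : Type} (g : PR ℂ σ) (w : PR D σ) : incl D σ g * w = w * incl D σ g := by
  induction g using AddMonoidAlgebra.induction_linear with
  | zero => simp
  | add a b ha hb => rw [map_add, add_mul, mul_add, ha, hb]
  | single μ c =>
    rw [incl_single]
    exact (AddMonoidAlgebra.single_commute (fun m' => AddCommute.all _ _)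
      (fun r => Algebra.commutes c r) w).eq

theorem bc_mon {σ : Type} (X : Set (σ →₀ ℕ)) : bc D (mon ℂ X) = mon D X := by
  refine le_antisymm (Submodule.span_le.2 ?_) ?_
  · rintro _ ⟨w, hw, rfl⟩
    refine AddMonoidAlgebra.mem_supported'.2 fun μ hμ => ?_
    have := AddMonoidAlgebra.mem_supported'.1 hw μ hμ
    unfold incl
    rw [AddMonoidAlgebra.coeff_mapRingHom, this, map_zero]
  · unfold mon
    rw [AddMonoidAlgebra.supported_eq_span_single D X]
    refine Submodule.span_mono ?_
    rintro _ ⟨μ, hμ, rfl⟩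
    refine ⟨AddMonoidAlgebra.single μ 1, ?_, by rw [incl_single, map_one]⟩
    rw [AddMonoidAlgebra.supported_eq_span_single ℂ X]
    exact Submodule.subset_span ⟨μ, hμ, rfl⟩

theorem bc_mono {σ : Type} {W W' : Submodule ℂ (PR ℂ σ)} (h : W ≤ W') : bc D W ≤ bc D W' := by
  exact Submodule.span_mono (Set.image_mono h)

theorem bc_mul_cst {σ : Type} (W : Submodule ℂ (PR ℂ σ)) {w : PR D σ} (hw : w ∈ bc D W) (c : D) :
    w * cst σ c ∈ bc D W := by
  have hs : ∀ (d : D) (x : PR D σ), d • x = cst σ d * x := fun d x => by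
    ext μ
    simp [cst, AddMonoidAlgebra.coeff_single_zero_mul]
  induction hw using Submodule.span_induction with
  | mem x hx =>
    obtain ⟨g, hg, rfl⟩ := hx
    rw [incl_comm, ← hs]
    exact Submodule.smul_mem _ _ (Submodule.subset_span ⟨g, hg, rfl⟩)
  | zero => simp
  | add x y _ _ hx hy => rw [add_mul]; exact Submodule.add_mem _ hx hy
  | smul d x _ hx => rw [smul_mul_assoc]; exact Submodule.smul_mem _ _ hx

/-- abstract base change of dimension -/
theorem k10_finrank {V M : Type} [AddCommGroup V] [Module ℂ V] [AddCommGroup M] [Module D M]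
    (j : V →+ M) (hj : ∀ (c : ℂ) (v : V), j (c • v) = algebraMap ℂ D c • j v)
    (hΛ : ∀ lam : D →ₗ[ℂ] ℂ, ∃ Λ : M →+ V, ∀ (d : D) (v : V), Λ (d • j v) = lam d • v)
    (W : Submodule ℂ V) [Module.Finite ℂ W] :
    finrank D (Submodule.span D (j '' (W : Set V))) = finrank ℂ W := by
  let b := Module.finBasis ℂ W
  have hb : LinearIndependent ℂ fun i => (b i : V) :=
    b.linearIndependent.map' W.subtype (Submodule.ker_subtype W)
  have hli : LinearIndependent D fun i => j (b i) := by
    refine Fintype.linearIndependent_iff.2 fun d hd i => ?_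
    refine (Module.forall_dual_apply_eq_zero_iff ℂ (d i)).1 fun lam => ?_
    obtain ⟨Λ, hΛ⟩ := hΛ lam
    have h1 := congrArg Λ hd
    rw [map_sum, map_zero] at h1
    simp only [hΛ] at h1
    exact Fintype.linearIndependent_iff.1 hb (fun i => lam (d i)) h1 i
  have he : Submodule.span D (j '' (W : Set V)) =
      Submodule.span D (Set.range fun i => j (b i)) := by
    refine le_antisymm (Submodule.span_le.2 ?_) (Submodule.span_mono ?_)
    · rintro _ ⟨w, hw, rfl⟩
      have h1 := congrArg Subtype.val (b.sum_repr ⟨w, hw⟩)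
      simp only [AddSubmonoidClass.coe_finsetSum, SetLike.val_smul] at h1
      rw [← h1, map_sum]
      refine Submodule.sum_mem _ fun i _ => ?_
      rw [hj]
      exact Submodule.smul_mem _ _ (Submodule.subset_span ⟨i, rfl⟩)
    · rintro _ ⟨i, rfl⟩
      exact ⟨b i, (b i).2, rfl⟩
  rw [he, finrank_span_eq_card hli, Fintype.card_fin]

theorem k10_smul {σ : Type} (c : ℂ) (v : PR ℂ σ) :
    incl D σ (c • v) = algebraMap ℂ D c • incl D σ v := by
  refine AddMonoidAlgebra.ext (Finsupp.ext fun μ => ?_)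
  unfold incl
  rw [AddMonoidAlgebra.coeff_smul_apply, AddMonoidAlgebra.coeff_mapRingHom,
    AddMonoidAlgebra.coeff_mapRingHom, AddMonoidAlgebra.coeff_smul_apply, smul_eq_mul,
    smul_eq_mul, map_mul]

theorem k10_lam {σ : Type} (lam : D →ₗ[ℂ] ℂ) :
    ∃ Λ : PR D σ →+ PR ℂ σ, ∀ (d : D) (v : PR ℂ σ), Λ (d • incl D σ v) = lam d • v := by
  refine ⟨AddMonoidHom.mk' (AddMonoidAlgebra.map lam.toAddMonoidHom)
    (AddMonoidAlgebra.map_add _), fun d v => ?_⟩
  refine AddMonoidAlgebra.ext (Finsupp.ext fun μ => ?_)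
  have : d * algebraMap ℂ D (v.coeff μ) = v.coeff μ • d := by
    rw [Algebra.smul_def, Algebra.commutes]
  change (AddMonoidAlgebra.map lam.toAddMonoidHom (d • incl D σ v)).coeff μ = lam d * v.coeff μ
  rw [AddMonoidAlgebra.coeff_map, Finsupp.mapRange_apply, AddMonoidAlgebra.coeff_smul_apply]
  unfold incl
  rw [AddMonoidAlgebra.coeff_mapRingHom, smul_eq_mul, this]
  change lam (v.coeff μ • d) = _
  rw [map_smul, smul_eq_mul, mul_comm]

theorem finrank_bc {σ : Type} (W : Submodule ℂ (PR ℂ σ)) [Module.Finite ℂ W] :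
    finrank D (bc D W) = finrank ℂ W := by
  exact k10_finrank (incl D σ).toAddMonoidHom k10_smul k10_lam W

theorem sg_bc (s : Finset (Fin n)) (p : ℕ) (W : Submodule ℂ (PR ℂ (Fin n))) [Module.Finite ℂ W] :
    sg s (tx D) p (bc D W) = sg s (tx ℂ) p W := by
  let J : (Finset (Fin n) → PR ℂ (Fin n)) →+ (Finset (Fin n) → PR D (Fin n)) :=
    (incl D (Fin n)).toAddMonoidHom.compLeft _
  have hJ : ∀ f T, J f T = incl D (Fin n) (f T) := fun _ _ => rfl
  have h1 : ch s p (bc D W) = Submodule.span D (J '' (ch s p W : Set _)) := by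
    refine le_antisymm ?_ (Submodule.span_le.2 ?_)
    · unfold bc
      rw [ch_span]
      refine Submodule.span_mono ?_
      rintro _ ⟨T, hT, hT', _, ⟨w, hw, rfl⟩, rfl⟩
      refine ⟨Pi.single T w, mem_ch.2 fun U => ⟨fun _ => ?_, fun hU => ?_⟩, ?_⟩
      · by_cases e : U = T
        · rw [e, Pi.single_eq_same]; exact hw
        · rw [Pi.single_eq_of_ne e]; exact W.zero_mem
      · exact Pi.single_eq_of_ne (fun e => hU (by rw [e]; exact ⟨hT, hT'⟩)) _
      · funext U
        rw [hJ]
        by_cases e : U = T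
        · rw [e, Pi.single_eq_same, Pi.single_eq_same]
        · rw [Pi.single_eq_of_ne e, Pi.single_eq_of_ne e, map_zero]
    · rintro _ ⟨f, hf, rfl⟩
      refine mem_ch.2 fun U => ⟨fun hU => ?_, fun hU => ?_⟩
      · exact Submodule.subset_span ⟨f U, (mem_ch.1 hf U).1 hU, rfl⟩
      · rw [hJ, (mem_ch.1 hf U).2 hU, map_zero]
  have h2 : ∀ f, kd s (tx D) (J f) = J (kd s (tx ℂ) f) := fun f => by
    funext U
    rw [hJ, kd_apply, kd_apply, map_sum]
    refine Finset.sum_congr rfl fun i _ => ?_
    split_ifs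
    · rw [map_zero]
    · rw [map_zsmul, hJ, tx_eq_mul_X, map_mul, incl_X]
      rfl
  have h3 : (ch s p (bc D W)).map (kd s (tx D)) =
      Submodule.span D (J '' ((ch s p W).map (kd s (tx ℂ)) : Set _)) := by
    rw [h1, Submodule.map_span, Submodule.map_coe, Set.image_image, Set.image_image]
    simp only [h2]
  have := ch_finite s p W
  unfold sg
  rw [h3]
  refine k10_finrank (D := D) J (fun c v => funext fun T => k10_smul c (v T)) (fun lam => ?_) _
  obtain ⟨Λ, hΛ⟩ := k10_lam (σ := Fin n) lam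
  exact ⟨Λ.compLeft _, fun d v => funext fun T => hΛ d (v T)⟩

end Crest.Agent.R181
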