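import Crest.Agent.R181.G1
import Crest.Agent.R181.I6
import Crest.Agent.R181.K10

/-! # Row 181, G6: from the symbols to the linear forms `y_j`. -/

set_option autoImplicit false

namespace Crest.Agent.R181

open Module MvPolynomial

variable {n : ℕ} {a : Fin n → ℕ} {σ : Sch n a} {f : Fin n → MvPolynomial (Fin n) ℂ}

theorem g6_labA_map (K : Type) [Field K] [Algebra ℂ K] {C : Type} (lb : C → Fin 2 → Lab n C) (c : C)
    (p : PP ℂ n) : labA K lb c (map (algebraMap ℂ K) p) = map (algebraMap ℂ K) (labA ℂ lb c p) := by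
  induction p using MvPolynomial.induction_on with
  | C r => simp [labA]
  | add p q hp hq => simp only [map_add, hp, hq]
  | mul_X p v hp =>
    simp only [map_mul, hp]
    congr 1
    rcases v with i | k
    · simp only [labA, map_X, aeval_X, Sum.elim_inl]
      rcases lb c i with z | ck
      · simp [labP]
      · simp [labP]
    · simp [labA]

theorem g6_C {K : Type} [Field K] {D : Type} [DivisionRing D] [Algebra K D] {τ : Type}
    (χ : MvPolynomial τ K →ₐ[K] PR D (Fin n)) (c : K) :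
    χ (MvPolynomial.C c) = cst (Fin n) (algebraMap K D c) := by
  rw [← algebraMap_eq, AlgHom.commutes]
  rfl

theorem g6_cst_mem {D : Type} [DivisionRing D] (c : D) :
    cst (Fin n) c ∈ mon D (Mon (Finset.univ : Finset (Fin n)) 0) := by
  intro ν hν
  have h := Finsupp.support_single_subset hν
  rw [Finset.mem_singleton] at h
  subst h
  exact ⟨by simp, fun _ _ => rfl⟩

theorem g6_hom {K : Type} [Field K] {D : Type} [DivisionRing D] [Algebra K D] {τ : Type}
    (χ : MvPolynomial τ K →ₐ[K] PR D (Fin n)) (h : ∀ v, χ (X v) ∈ mon D (Mon Finset.univ 1))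
    {d : ℕ} {p : MvPolynomial τ K} (hp : p.IsHomogeneous d) : χ p ∈ mon D (Mon Finset.univ d) := by
  have h1 : ∀ (v : τ) (m : ℕ), χ (X v ^ m) ∈ mon D (Mon Finset.univ m) := by
    intro v m
    induction m with
    | zero => rw [pow_zero, map_one]; exact g6_cst_mem (n := n) (1 : D)
    | succ m ih => rw [pow_succ, map_mul]; exact mul_mem_Mon ih (h v)
  have h2 : ∀ μ : τ →₀ ℕ, χ (monomial μ 1) ∈ mon D (Mon Finset.univ μ.degree) := by
    intro μ
    induction μ using Finsupp.induction_linear with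
    | zero =>
      rw [monomial_zero', C_1, map_one, map_zero]; exact g6_cst_mem (n := n) (1 : D)
    | add μ ν hμ hν =>
      have : (monomial (μ + ν) 1 : MvPolynomial τ K) = monomial μ 1 * monomial ν 1 := by
        simp [monomial_mul]
      rw [this, map_mul, map_add]
      exact mul_mem_Mon hμ hν
    | single v m =>
      rw [← X_pow_eq_monomial, Finsupp.degree_single]
      exact h1 v m
  rw [p.as_sum, map_sum]
  refine Submodule.sum_mem _ fun μ hμ => ?_
  have h3 : μ.degree = d := by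
    have := hp (mem_support_iff.1 hμ)
    rwa [Finsupp.degree_eq_weight_one]
  have h4 : (monomial μ (coeff μ p) : MvPolynomial τ K) =
      MvPolynomial.C (coeff μ p) * monomial μ 1 := by simp [C_mul_monomial]
  rw [h4, map_mul, g6_C]
  simpa [h3] using mul_mem_Mon (g6_cst_mem (n := n) (algebraMap K D (coeff μ p))) (h2 μ)

/-- the telescoped relation modulo an ideal containing the labelled equations -/
theorem g6_rel (ha1 : ∀ i, 1 ≤ a i) (P : σ.Spn f) (K : Type) [Field K] [Algebra ℂ K]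
    [Algebra (MvPolynomial (σ.Par P.m) ℂ) K] [IsScalarTower ℂ (MvPolynomial (σ.Par P.m) ℂ) K]
    [IsFractionRing (MvPolynomial (σ.Par P.m) ℂ) K] (I : Ideal (Sym K n σ.Cv))
    (h3 : ∀ c k, labA K σ.lb c ((((P.rd ha1).toCD K).cv c).eqn k) ∈ I) (k : Fin n) :
    Ideal.Quotient.mk I (σ.ysym K k ^ bb a k) = Ideal.Quotient.mk I
      (∑ τ, MvPolynomial.C (algebraMap (MvPolynomial (σ.Par P.m) ℂ) K (X (Sum.inr (k, τ)))) *
        map (algebraMap ℂ K) (σ.labSum (P.T k τ))) := by
  classical
  set ι := algebraMap (MvPolynomial (σ.Par P.m) ℂ) K with hι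
  set mk := Ideal.Quotient.mk I with hmk
  have hb : bb a k ≠ 0 := Nat.one_le_iff_ne_zero.1 (ha1 _)
  have hE : ∀ c, mk (MvPolynomial.C (ι (σ.kap P.m c k))) * mk (X (Sum.inr (c, k))) ^ bb a k =
      mk (labA K σ.lb c (map ι (P.rhs c k))) := by
    intro c
    have h1 := congrArg (labA K σ.lb c) ((P.rd ha1).map_row K c k)
    have h2 : labA K σ.lb c (MvPolynomial.C (ι ((P.rd ha1).κ c k)) *
        (((P.rd ha1).toCD K).cv c).eqn k) ∈ I := by
      rw [map_mul]; exact I.mul_mem_left _ (h3 c k)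
    rw [← h1, ← Ideal.Quotient.eq_zero_iff_mem] at h2
    rw [← sub_eq_zero, ← h2]
    simp [labA, Sch.Spn.rd, hmk, hι]
  let π : σ.Par P.m → Sym K n σ.Cv ⧸ I := fun t => mk (MvPolynomial.C (ι (X t)))
  have hιC : ∀ r : ℂ, ι (MvPolynomial.C r) = algebraMap ℂ K r := fun r => by
    rw [hι, ← algebraMap_eq, ← IsScalarTower.algebraMap_apply]
  have hπ : ∀ p, aeval π p = mk (MvPolynomial.C (ι p)) := by
    intro p
    induction p using MvPolynomial.induction_on with
    | C r => rw [aeval_C, hιC]; rfl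
    | add p q hp hq => simp only [map_add, hp, hq]
    | mul_X p v hp => simp only [map_mul, hp, aeval_X, π]
  have hF : ∀ c : σ.Cv, NN σ.N0 k ≤ c.1 → mk (X (Sum.inr (c, k))) ^ bb a k =
      π (Sum.inl (c, k, 0)) * mk (labP K (σ.lb c 0)) ^ bb a k +
        π (Sum.inl (c, k, 1)) * mk (labP K (σ.lb c 1)) ^ bb a k := by
    intro c hc
    have h1 := hE c
    simp only [Sch.kap, Sch.Spn.rhs, if_neg (not_lt.2 hc), map_one, one_mul] at h1
    rw [h1]
    simp [labA, π]
  obtain ⟨η, hη, hW⟩ := σ.telescope P.m π k ⊥ (fun c => mk (X (Sum.inr (c, k))) ^ bb a k)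
    (fun c => mk (X (Sum.inr (c, k))) ^ bb a k) (fun _ => 1) (fun _ => 1)
    (fun _ => Submonoid.one_mem _) (fun _ => Submonoid.one_mem _)
    (fun c r hc hr => by
      rw [hF c hc.ge, σ.node00 k c hc, σ.node1 k c r (by omega) (by rw [hr]; exact NN_pos σ.pos _)]
      simp [labP, hb])
    (fun c c' r hc hc' hr hr' => by
      rw [hF c (by omega), σ.node0 k c c' hc hc' (by rw [NN_succ]; omega), σ.node1 k c r hr hr']
      simp [labP])
  have hη1 : ∀ r, η r = 1 := fun r => Submonoid.mem_bot.1 (hη r)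
  rw [map_pow, Sch.ysym, hW]
  simp only [hη1, one_mul, hπ, hE, σ.labSum_apply, map_sum, Finset.mul_sum]
  rw [Finset.sum_comm, Finset.sum_filter]
  refine Finset.sum_congr rfl fun r _ => ?_
  split_ifs with hr
  · simp only [Sch.Spn.rhs, if_pos hr, map_sum, map_mul, map_C, map_map, ← g6_labA_map]
    refine Finset.sum_congr rfl fun τ _ => ?_
    have : ι.comp MvPolynomial.C = algebraMap ℂ K := RingHom.ext hιC
    rw [this]
    simp [labA]
  · refine (Finset.sum_eq_zero fun τ _ => ?_).symm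
    rw [((σ.mem_AA.1 (P.T_mem k τ).1) r).2 (not_lt.1 hr)]
    simp

theorem Sch.Spn.hats (ha1 : ∀ i, 1 ≤ a i) (P : σ.Spn f) (K : Type) [Field K] [Algebra ℂ K]
    [Algebra (MvPolynomial (σ.Par P.m) ℂ) K] [IsScalarTower ℂ (MvPolynomial (σ.Par P.m) ℂ) K]
    [IsFractionRing (MvPolynomial (σ.Par P.m) ℂ) K] (D : Type) [DivisionRing D] [Algebra K D]
    (χ : Sym K n σ.Cv →ₐ[K] PR D (Fin n)) (h1 : ∀ i, χ (X (Sum.inl i)) = xv D i)
    (h2 : ∀ ck, χ (X (Sum.inr ck)) ∈ mon D (Mon Finset.univ 1))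
    (h3 : ∀ c k, χ (labA K σ.lb c ((((P.rd ha1).toCD K).cv c).eqn k)) = 0) : Hats a f := by
  classical
  let alg : Algebra ℂ D := ((algebraMap K D).comp (algebraMap ℂ K)).toAlgebra'
    fun c x => Algebra.commutes _ _
  have halg : ∀ r : ℂ, algebraMap ℂ D r = algebraMap K D (algebraMap ℂ K r) := fun _ => rfl
  have hX : ∀ v, χ (X v) ∈ mon D (Mon Finset.univ 1) := by
    rintro (i | ck)
    · rw [h1]
      intro ν hν
      have h := Finsupp.support_single_subset hν
      rw [Finset.mem_singleton] at h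
      subst h
      exact ⟨by simp, fun _ h => absurd (Finset.mem_univ _) h⟩
    · exact h2 ck
  have hincl : ∀ g : MvPolynomial (Fin n) ℂ,
      χ (map (algebraMap ℂ K) (rename Sum.inl g)) = incl D (Fin n) g := by
    intro g
    induction g using MvPolynomial.induction_on with
    | C r =>
      rw [rename_C, map_C, g6_C, ← halg]
      exact (incl_single 0 r).symm
    | add p q hp hq => simp only [map_add, hp, hq]
    | mul_X p v hp => rw [map_mul, map_mul, map_mul, hp, rename_X, map_X, h1, map_mul, incl_X]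
  refine ⟨D, inferInstance, alg, fun j => χ (σ.ysym K (Fin.rev j)), fun j => h2 _,
    fun i j => by rw [← map_mul, mul_comm, map_mul], fun j => ?_⟩
  obtain ⟨k, rfl⟩ := Fin.rev_surjective j
  set ι := algebraMap (MvPolynomial (σ.Par P.m) ℂ) K with hι
  have hrel := g6_rel ha1 P K (RingHom.ker χ) h3 k
  rw [Ideal.Quotient.eq, RingHom.mem_ker, map_sub, sub_eq_zero] at hrel
  set t : Fin P.m → K := fun τ => ι (X (Sum.inr (k, τ))) with ht
  refine ⟨algebraMap K D (∑ τ, t τ * algebraMap ℂ K (P.γ k τ)),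
    fun i => χ (∑ τ, MvPolynomial.C (t τ) * map (algebraMap ℂ K) (P.G k τ i)),
    fun l => χ (∑ τ, MvPolynomial.C (t τ) * map (algebraMap ℂ K) (P.H k τ (Fin.rev l))),
    ?_, fun i => ?_, fun l => ?_, ?_⟩
  · rw [map_ne_zero]
    have h4 : ∑ τ, t τ * algebraMap ℂ K (P.γ k τ) =
        ι (∑ τ, X (Sum.inr (k, τ)) * MvPolynomial.C (P.γ k τ)) := by
      simp only [map_sum, map_mul, ht]
      refine Finset.sum_congr rfl fun τ _ => ?_
      rw [hι, ← algebraMap_eq, ← IsScalarTower.algebraMap_apply]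
    rw [h4, hι, map_ne_zero_iff _ (IsFractionRing.injective _ K)]
    obtain ⟨τ₀, hτ₀⟩ := P.γ_ne k
    intro h0
    have h5 := congrArg (eval fun v : σ.Par P.m => if v = Sum.inr (k, τ₀) then (1 : ℂ) else 0) h0
    simp at h5
    exact hτ₀ h5
  · refine g6_hom χ hX (IsHomogeneous.sum _ _ _ fun τ _ => ?_)
    simpa [bb] using (isHomogeneous_C _ (t τ)).mul ((P.hG k τ i).map (algebraMap ℂ K))
  · refine g6_hom χ hX (IsHomogeneous.sum _ _ _ fun τ _ => ?_)
    simpa [bb] using (isHomogeneous_C _ (t τ)).mul ((P.hH k τ (Fin.rev l)).map (algebraMap ℂ K))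
  · have hy : ∀ l, map (algebraMap ℂ K) (σ.ysym ℂ l) = σ.ysym K l := fun l => by simp [Sch.ysym]
    have hre : ∑ l ∈ Finset.univ.filter (Fin.rev k < ·),
        χ (∑ τ, MvPolynomial.C (t τ) * map (algebraMap ℂ K) (P.H k τ (Fin.rev l))) *
          χ (σ.ysym K (Fin.rev l)) = ∑ l ∈ Finset.univ.filter (· < k),
        χ (∑ τ, MvPolynomial.C (t τ) * map (algebraMap ℂ K) (P.H k τ l)) * χ (σ.ysym K l) := by
      refine Finset.sum_equiv Fin.revPerm (fun l => ?_) fun l _ => rfl
      simp [Fin.rev_lt_iff]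
    simp only [Fin.rev_rev]
    rw [hre, ← map_pow, ← g6_C χ]
    simp only [← hincl, ← map_mul, ← map_sum, ← map_add]
    refine hrel.trans (congrArg χ ?_)
    simp only [P.dec, map_add, map_mul, map_sum, map_C, hy, mul_add, Finset.sum_add_distrib,
      Finset.mul_sum, Finset.sum_mul, mul_assoc]
    rw [Finset.sum_comm (s := Finset.univ.filter (· < Fin.rev k)),
      Finset.sum_comm (s := Finset.univ.filter (· < k))]

end Crest.Agent.R181
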