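import Crest.Agent.R181.KDefs

/-! # Row 181: the interface between the construction of the skew field and the Koszul part. -/

set_option autoImplicit false

namespace Crest.Agent.R181

/-- There is a division algebra `D` over `ℂ` and commuting linear forms `y_j ∈ D[x]` with
`y_j ^ a_j = γ f_j + ∑_{i<j} g_i f_i + ∑_{l>j} h_l y_l`, `γ ≠ 0`. -/
def Hats {n : ℕ} (a : Fin n → ℕ) (f : Fin n → MvPolynomial (Fin n) ℂ) : Prop :=
  ∃ (D : Type) (_ : DivisionRing D) (_ : Algebra ℂ D) (y : Fin n → PR D (Fin n)),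
    (∀ j, y j ∈ mon D (Mon Finset.univ 1)) ∧ (∀ i j, y i * y j = y j * y i) ∧
    ∀ j, ∃ (γ : D) (g h : Fin n → PR D (Fin n)), γ ≠ 0 ∧
      (∀ i, g i ∈ mon D (Mon Finset.univ (a j - a i))) ∧
      (∀ l, h l ∈ mon D (Mon Finset.univ (a j - 1))) ∧
      y j ^ a j = cst (Fin n) γ * incl D (Fin n) (f j) +
        ∑ i ∈ Finset.univ.filter (· < j), g i * incl D (Fin n) (f i) +
        ∑ l ∈ Finset.univ.filter (j < ·), h l * y l

/-- The ideal of the `f_i` contains all monomials of some degree. -/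
def Artin {n : ℕ} (f : Fin n → MvPolynomial (Fin n) ℂ) : Prop :=
  ∃ N : ℕ, ∀ μ : Fin n →₀ ℕ, μ.degree = N →
    MvPolynomial.monomial μ (1 : ℂ) ∈ Ideal.span (Set.range f)

end Crest.Agent.R181
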