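import Crest.Agent.R181.IDefs
import Crest.Agent.R181.HDefs

/-!
# Row 181, the family of curves.

Stage `k : Fin n` treats the form `f (rev k)` of degree `bb a k = a (rev k)` (largest first).
There are `NN N0 k = 2^k N0` curves before stage `k`; the first `N0` are *planes* labelled by pairs
of linear forms, the curve `NN N0 k + r` (`r < NN N0 k`) is a *node* of stage `k`, labelled by the
symbols `X(c-1, k)` (`0` if `r = 0`) and `X(r, k)`.  The equation `(c, k)` is a Fermat equation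
`w_k^b = α u^b + β v^b` with fresh parameters if `c ≥ NN N0 k`, and `κ w_k^b = A_c` otherwise, where
`(A_c)_c` is the generic member of the space `WW`.
-/

set_option autoImplicit false

namespace Crest.Agent.R181

open Module MvPolynomial

/-- Number of curves before stage `k`. -/
def NN (N0 k : ℕ) : ℕ := 2 ^ k * N0

/-- The degree treated at stage `k`. -/
def bb {n : ℕ} (a : Fin n → ℕ) (k : Fin n) : ℕ := a (Fin.rev k)

/-- The linear form with coefficient vector `z`. -/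
noncomputable def lin {n : ℕ} (z : Fin n → ℂ) : MvPolynomial (Fin n) ℂ :=
  ∑ i, MvPolynomial.C (z i) * X i

/-- Planes and labels. -/
structure Sch (n : ℕ) (a : Fin n → ℕ) where
  N0 : ℕ
  pos : 0 < N0
  zl : ℕ → Fin 2 → Fin n → ℂ
  pairs : ∀ c < N0, ∀ c' < N0, ∃ c'' < N0, zl c'' 0 = zl c 0 ∧ zl c'' 1 = zl c' 0
  span : ∀ j, homogeneousSubmodule (Fin n) ℂ (a j) ≤
    Submodule.span ℂ {p | ∃ c < N0, p = lin (zl c 0) ^ a j}
  lb : Fin (NN N0 n) → Fin 2 → Lab n (Fin (NN N0 n))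
  lt : ∀ c i c' k, lb c i = Sum.inr (c', k) → c' < c
  plane : ∀ (c : Fin (NN N0 n)) (i : Fin 2), c.1 < N0 → lb c i = Sum.inl (zl c i)
  node1 : ∀ (k : Fin n) (c r : Fin (NN N0 n)), c.1 = NN N0 k + r.1 → r.1 < NN N0 k →
    lb c 1 = Sum.inr (r, k)
  node0 : ∀ (k : Fin n) (c c' : Fin (NN N0 n)), c.1 = c'.1 + 1 → NN N0 k ≤ c'.1 →
    c.1 < NN N0 (k + 1) → lb c 0 = Sum.inr (c', k)
  node00 : ∀ (k : Fin n) (c : Fin (NN N0 n)), c.1 = NN N0 k → lb c 0 = Sum.inl 0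
  last : Fin n → Fin (NN N0 n)
  hlast : ∀ k, (last k).1 + 1 = NN N0 (k + 1)

namespace Sch

variable {n : ℕ} {a : Fin n → ℕ} (σ : Sch n a)

/-- The type of curves. -/
abbrev Cv := Fin (NN σ.N0 n)

/-- The symbol `y` produced by stage `l`. -/
noncomputable def ysym (R : Type) [CommRing R] (l : Fin n) : Sym R n σ.Cv :=
  X (Sum.inr (σ.last l, l))

/-- The degree `bb a k` part of `(f_i : i ≤ rev k) + (y_l : l < k)`. -/
noncomputable def WS (f : Fin n → MvPolynomial (Fin n) ℂ) (k : Fin n) :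
    Submodule ℂ (Sym ℂ n σ.Cv) :=
  Submodule.span ℂ
    ({p | ∃ i, i ≤ Fin.rev k ∧ ∃ G : Sym ℂ n σ.Cv, G.IsHomogeneous (bb a k - a i) ∧
        p = G * rename Sum.inl (f i)} ∪
      {p | ∃ l, l < k ∧ ∃ H : Sym ℂ n σ.Cv, H.IsHomogeneous (bb a k - 1) ∧ p = H * σ.ysym ℂ l})

/-- Families of forms of degree `bb a k` in `u, v, w_{<k}` on the curves before stage `k`. -/
noncomputable def AA (k : Fin n) : Submodule ℂ (σ.Cv → PP ℂ n) :=
  Submodule.pi Set.univ fun c => if c.1 < NN σ.N0 k then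
    homogeneousSubmodule (Var n) ℂ (bb a k) ⊓
      (supported ℂ {v : Var n | ∀ l, v = Sum.inr l → l < k}).toSubmodule
  else ⊥

/-- `(A_c)_c ↦ ∑_c lab_c (A_c)`. -/
noncomputable def labSum : (σ.Cv → PP ℂ n) →ₗ[ℂ] Sym ℂ n σ.Cv :=
  ∑ c, (labA ℂ σ.lb c).toLinearMap ∘ₗ LinearMap.proj c

/-- The constraint space of stage `k`. -/
noncomputable def WW (f : Fin n → MvPolynomial (Fin n) ℂ) (k : Fin n) :
    Submodule ℂ (σ.Cv → PP ℂ n) :=
  σ.AA k ⊓ (σ.WS f k).comap σ.labSum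

/-- Spanning families of the constraint spaces, with explicit decompositions. -/
structure Spn (f : Fin n → MvPolynomial (Fin n) ℂ) where
  m : ℕ
  T : Fin n → Fin m → σ.Cv → PP ℂ n
  span : ∀ k, Submodule.span ℂ (Set.range (T k)) = σ.WW f k
  γ : Fin n → Fin m → ℂ
  G : Fin n → Fin m → Fin n → Sym ℂ n σ.Cv
  H : Fin n → Fin m → Fin n → Sym ℂ n σ.Cv
  hG : ∀ k τ i, (G k τ i).IsHomogeneous (bb a k - a i)
  hH : ∀ k τ l, (H k τ l).IsHomogeneous (bb a k - 1)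
  dec : ∀ k τ, σ.labSum (T k τ) =
    MvPolynomial.C (γ k τ) * rename Sum.inl (f (Fin.rev k)) +
      ∑ i ∈ Finset.univ.filter (· < Fin.rev k), G k τ i * rename Sum.inl (f i) +
      ∑ l ∈ Finset.univ.filter (· < k), H k τ l * σ.ysym ℂ l
  γ_ne : ∀ k, ∃ τ, γ k τ ≠ 0

/-- Parameters: Fermat parameters `(c, k, i)` and block parameters `(k, τ)`. -/
abbrev Par (m : ℕ) := (σ.Cv × Fin n × Fin 2) ⊕ (Fin n × Fin m)

/-- The coefficient `β_r ∏_{r < r' < N_k} α_{r'}` of the telescoping sum. -/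
noncomputable def kap (m : ℕ) (c : σ.Cv) (k : Fin n) : MvPolynomial (σ.Par m) ℂ :=
  if c.1 < NN σ.N0 k then
    (∏ c' ∈ Finset.univ.filter (fun c' : σ.Cv => c'.1 = NN σ.N0 k + c.1),
        X (Sum.inl (c', k, 1))) *
      ∏ c' ∈ Finset.univ.filter
        (fun c' : σ.Cv => NN σ.N0 k + c.1 < c'.1 ∧ c'.1 < NN σ.N0 (k + 1)), X (Sum.inl (c', k, 0))
  else 1

variable {σ}

/-- The right-hand sides of the equations. -/
noncomputable def Spn.rhs {f : Fin n → MvPolynomial (Fin n) ℂ} (P : σ.Spn f) (c : σ.Cv)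
    (k : Fin n) : PP (MvPolynomial (σ.Par P.m) ℂ) n :=
  if c.1 < NN σ.N0 k then
    ∑ τ, MvPolynomial.C (X (Sum.inr (k, τ))) * map MvPolynomial.C (P.T k τ c)
  else
    ∑ i : Fin 2, MvPolynomial.C (X (Sum.inl (c, k, i))) * X (Sum.inl i) ^ bb a k

/-- Geometric points satisfying all Fermat equations and the constrained equations of the stages
before `k`. -/
structure Spn.Pts {f : Fin n → MvPolynomial (Fin n) ℂ} (P : σ.Spn f) {Ω : Type} [Field Ω]
    [Algebra ℂ Ω] (π : σ.Par P.m → Ω) (k : Fin n) (q : σ.Cv → Var n → Ω) : Prop where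
  fermat : ∀ (c : σ.Cv) (l : Fin n), NN σ.N0 l ≤ c.1 → q c (Sum.inr l) ^ bb a l =
    ∑ i : Fin 2, π (Sum.inl (c, l, i)) * q c (Sum.inl i) ^ bb a l
  constr : ∀ (c : σ.Cv) (l : Fin n), l < k → c.1 < NN σ.N0 l →
    aeval π (σ.kap P.m c l) * q c (Sum.inr l) ^ bb a l =
      ∑ τ, π (Sum.inr (l, τ)) * aeval (q c) (P.T l τ c)

/-- The compatibilities between the points forced by a linear relation at stage `k`. -/
structure Link (σ : Sch n a) (f : Fin n → MvPolynomial (Fin n) ℂ) {Ω : Type} [Field Ω]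
    [Algebra ℂ Ω] (k : Fin n) (q : σ.Cv → Var n → Ω) (p : Fin n → Ω) : Prop where
  zero : ∀ i, i ≤ Fin.rev k → aeval p (f i) = 0
  plane : ∀ (c : σ.Cv) (i : Fin 2), c.1 < σ.N0 →
    q c (Sum.inl i) ^ bb a k = aeval p (lin (σ.zl c i)) ^ bb a k
  node1 : ∀ (l : Fin n) (c r : σ.Cv), l < k → c.1 = NN σ.N0 l + r.1 → r.1 < NN σ.N0 l →
    q c (Sum.inl 1) ^ bb a k = q r (Sum.inr l) ^ bb a k
  node0 : ∀ (l : Fin n) (c c' : σ.Cv), l < k → c.1 = c'.1 + 1 → NN σ.N0 l ≤ c'.1 →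
    c.1 < NN σ.N0 (l + 1) → q c (Sum.inl 0) ^ bb a k = q c' (Sum.inr l) ^ bb a k
  node00 : ∀ (l : Fin n) (c : σ.Cv), l < k → c.1 = NN σ.N0 l → q c (Sum.inl 0) = 0
  last : ∀ l : Fin n, l < k → q (σ.last l) (Sum.inr l) = 0

end Sch

end Crest.Agent.R181
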