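import Crest.Agent.R181.IDefs

/-! # Row 181, I1 (first part): calculus of Hilbert series of multihomogeneous ideals. -/

set_option autoImplicit false
set_option linter.unusedSectionVars false

namespace Crest.Agent.R181

open Module MvPolynomial

variable {B : Type} [CommRing B] [IsDomain B] {n : ℕ} {C : Type} [Fintype C] [DecidableEq C]

theorem degree_weight_wt (μ : C × Var n →₀ ℕ) :
    Finsupp.degree (Finsupp.weight (wt n C) μ) = Finsupp.weight (fun _ => (1 : ℕ)) μ := by
  classical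
  rw [Finsupp.weight_apply, Finsupp.weight_apply, Finsupp.sum, Finsupp.sum, map_sum]
  refine Finset.sum_congr rfl fun v _ => ?_
  simp [wt]

theorem finite_wt (α : C →₀ ℕ) :
    Module.Finite B (weightedHomogeneousSubmodule B (wt n C) α) := by
  rw [weightedHomogeneousSubmodule_eq_finsupp_supported]
  have h : {d : C × Var n →₀ ℕ | Finsupp.weight (wt n C) d = α}.Finite := by
    refine (Finsupp.finite_of_nat_weight_eq (fun _ : C × Var n => (1 : ℕ)) (by simp)
      (Finsupp.degree α)).subset ?_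
    intro d hd
    simp only [Set.mem_setOf_eq] at hd ⊢
    rw [← hd, degree_weight_wt]
  have := h.to_subtype
  exact Module.Finite.of_basis
    (basisRestrictSupport B {d : C × Var n →₀ ℕ | Finsupp.weight (wt n C) d = α})

theorem isH_X (v : C × Var n) : IsH (X v : PA B n C) (Finsupp.single v.1 1) :=
  isWeightedHomogeneous_X B (wt n C) v

theorem weight_wt_mapDomain (c : C) (e : Var n →₀ ℕ) :
    Finsupp.weight (wt n C) (Finsupp.mapDomain (Prod.mk c) e) =
      Finsupp.single c (Finsupp.weight (fun _ => (1 : ℕ)) e) := by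
  classical
  induction e using Finsupp.induction_linear with
  | zero => simp
  | add f g hf hg => rw [Finsupp.mapDomain_add, map_add, map_add, hf, hg, Finsupp.single_add]
  | single a b => simp [Finsupp.mapDomain_single, Finsupp.weight_single, wt]

theorem isH_rename (c : C) {p : PP B n} {d : ℕ} (hp : p.IsHomogeneous d) :
    IsH (rename (Prod.mk c) p : PA B n C) (Finsupp.single c d) := by
  classical
  intro μ hμ
  obtain ⟨e, rfl, he⟩ := coeff_rename_ne_zero _ _ _ hμ
  rw [weight_wt_mapDomain]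
  congr 1
  exact hp he

theorem RD.isH_row (R : RD B n C) (r : C × Fin n) : IsH (R.row r) (R.deg r) := by
  refine isH_rename r.1 (IsHomogeneous.sub ?_ (R.hom r.1 r.2))
  simpa using (isHomogeneous_C _ (R.κ r.1 r.2)).mul
    ((isHomogeneous_X B (Sum.inr r.2 : Var n)).pow (R.b r.2))

theorem comp_mul_add {x : PA B n C} {α : C →₀ ℕ} (hx : IsH x α) (β : C →₀ ℕ) (q : PA B n C) :
    weightedHomogeneousComponent (wt n C) (α + β) (x * q) =
      x * weightedHomogeneousComponent (wt n C) β q := by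
  classical
  induction q using MvPolynomial.induction_on' with
  | monomial μ r =>
    have h1 : IsH (monomial μ r : PA B n C) (Finsupp.weight (wt n C) μ) :=
      isWeightedHomogeneous_monomial _ _ _ rfl
    rw [weightedHomogeneousComponent_of_mem (hx.mul h1), weightedHomogeneousComponent_of_mem h1]
    by_cases h : β = Finsupp.weight (wt n C) μ
    · rw [if_pos h, if_pos (by rw [h])]
    · rw [if_neg h, if_neg (fun h' => h (add_left_cancel h')), mul_zero]
  | add p q hp hq => rw [mul_add, map_add, map_add, hp, hq, mul_add]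

theorem comp_mul_of_not_le {x : PA B n C} {α : C →₀ ℕ} (hx : IsH x α) {γ : C →₀ ℕ}
    (hγ : ¬ α ≤ γ) (q : PA B n C) :
    weightedHomogeneousComponent (wt n C) γ (x * q) = 0 := by
  classical
  induction q using MvPolynomial.induction_on' with
  | monomial μ r =>
    have h1 : IsH (monomial μ r : PA B n C) (Finsupp.weight (wt n C) μ) :=
      isWeightedHomogeneous_monomial _ _ _ rfl
    rw [weightedHomogeneousComponent_of_mem (hx.mul h1), if_neg]
    intro h
    exact hγ (h ▸ le_add_right le_rfl)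
  | add p q hp hq => rw [mul_add, map_add, hp, hq, add_zero]

theorem IsHom.sup_span {𝔠 : Ideal (PA B n C)} (h : IsHom 𝔠) {x : PA B n C} {α : C →₀ ℕ}
    (hx : IsH x α) : IsHom (𝔠 ⊔ Ideal.span {x}) := by
  intro p hp γ
  obtain ⟨a, ha, b, hb, rfl⟩ := Submodule.mem_sup.mp hp
  obtain ⟨q, rfl⟩ := Ideal.mem_span_singleton.mp hb
  rw [map_add]
  refine Submodule.add_mem_sup (h a ha γ) ?_
  by_cases hγ : α ≤ γ
  · obtain ⟨β, rfl⟩ := exists_add_of_le hγ
    rw [comp_mul_add hx]
    exact Ideal.mem_span_singleton.mpr (dvd_mul_right _ _)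
  · rw [comp_mul_of_not_le hx hγ]
    exact Submodule.zero_mem _

theorem mem_colon_single {𝔠 : Ideal (PA B n C)} {x p : PA B n C} :
    p ∈ 𝔠.colon {x} ↔ x * p ∈ 𝔠 := by
  rw [Submodule.mem_colon_singleton, smul_eq_mul, mul_comm]

theorem IsHom.colon {𝔠 : Ideal (PA B n C)} (h : IsHom 𝔠) {x : PA B n C} {α : C →₀ ℕ}
    (hx : IsH x α) : IsHom (𝔠.colon {x}) := by
  intro p hp β
  rw [mem_colon_single] at hp ⊢
  rw [← comp_mul_add hx]
  exact h _ hp _

theorem coeff_HS (𝔠 : Ideal (PA B n C)) (α : C →₀ ℕ) :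
    MvPowerSeries.coeff α (HS 𝔠) =
      (finrank B (weightedHomogeneousSubmodule B (wt n C) α) : ℤ) -
        finrank B ↥(weightedHomogeneousSubmodule B (wt n C) α ⊓ 𝔠.restrictScalars B) := rfl

/-- A coefficient vanishes when the piece is torsion. -/
theorem coeff_HS_eq_zero {𝔠 : Ideal (PA B n C)} {α : C →₀ ℕ}
    (h : ∀ μ : C × Var n →₀ ℕ, Finsupp.weight (wt n C) μ = α →
      ∃ b : B, b ≠ 0 ∧ MvPolynomial.C b * monomial μ 1 ∈ 𝔠) :
    MvPowerSeries.coeff α (HS 𝔠) = 0 := by
  classical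
  rw [coeff_HS, sub_eq_zero]
  congr 1
  have := finite_wt (B := B) (n := n) α
  set P := weightedHomogeneousSubmodule B (wt n C) α with hP
  have key : ∀ p : PA B n C, IsH p α → ∃ b : B, b ≠ 0 ∧ MvPolynomial.C b * p ∈ 𝔠 := by
    intro p hp
    induction hp using IsWeightedHomogeneous.induction_on with
    | zero => exact ⟨1, one_ne_zero, by simp⟩
    | add p q _ _ hp hq =>
      obtain ⟨a, ha, hap⟩ := hp
      obtain ⟨b, hb, hbq⟩ := hq
      refine ⟨a * b, mul_ne_zero ha hb, ?_⟩
      have : (MvPolynomial.C (a * b) : PA B n C) * (p + q) =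
          MvPolynomial.C b * (MvPolynomial.C a * p) + MvPolynomial.C a * (MvPolynomial.C b * q) := by
        rw [map_mul]; ring
      rw [this]
      exact 𝔠.add_mem (𝔠.mul_mem_left _ hap) (𝔠.mul_mem_left _ hbq)
    | monomial d r hr =>
      obtain ⟨b, hb, hbm⟩ := h d hr
      refine ⟨b, hb, ?_⟩
      have : (MvPolynomial.C b : PA B n C) * monomial d r =
          MvPolynomial.C r * (MvPolynomial.C b * monomial d 1) := by
        simp [C_mul_monomial, mul_comm]
      rw [this]
      exact 𝔠.mul_mem_left _ hbm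
  let N : Submodule B P := (𝔠.restrictScalars B).comap P.subtype
  have h1 := Submodule.finrank_quotient_add_finrank N
  have h2 : finrank B (P ⧸ N) = 0 := by
    have : Module.rank B (P ⧸ N) = 0 := by
      rw [rank_eq_zero_iff]
      intro y
      obtain ⟨y, rfl⟩ := Submodule.Quotient.mk_surjective N y
      obtain ⟨b, hb, hby⟩ := key y.1 y.2
      refine ⟨b, hb, ?_⟩
      rw [← Submodule.Quotient.mk_smul, Submodule.Quotient.mk_eq_zero]
      change (b • y.1 : PA B n C) ∈ 𝔠
      rwa [smul_eq_C_mul]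
    simp [finrank, this]
  have h3 : finrank B N = finrank B ↥(P ⊓ 𝔠.restrictScalars B) := by
    rw [← Submodule.map_comap_subtype]
    exact (Submodule.equivMapOfInjective P.subtype P.injective_subtype N).finrank_eq
  omega

theorem HS_eq_zero {𝔠 : Ideal (PA B n C)} {b : B} (hb : b ≠ 0) (h : MvPolynomial.C b ∈ 𝔠) :
    HS 𝔠 = 0 := by
  ext α
  rw [coeff_HS_eq_zero fun μ _ => ⟨b, hb, 𝔠.mul_mem_right _ h⟩, map_zero]

theorem coeff_zz_smul (α γ : C →₀ ℕ) (H : MvPowerSeries C ℤ) :
    MvPowerSeries.coeff γ (zz α • H) =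
      if α ≤ γ then MvPowerSeries.coeff (γ - α) H else 0 := by
  rw [Algebra.smul_def, MvPowerSeries.algebraMap_apply', zz, coe_monomial]
  simp [MvPowerSeries.coeff_monomial_mul]

theorem finrank_sup_add_inf {M : Type} [AddCommGroup M] [Module B M] (P s t : Submodule B M)
    [Module.Finite B P] (hs : s ≤ P) (ht : t ≤ P) :
    finrank B ↥(s ⊔ t) + finrank B ↥(s ⊓ t) = finrank B s + finrank B t := by
  have hP := Module.rank_lt_aleph0 B P
  have hlt : ∀ u : Submodule B M, u ≤ P → Module.rank B u < Cardinal.aleph0 := fun u hu =>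
    (Submodule.rank_mono hu).trans_lt hP
  have key := congrArg Cardinal.toNat (Submodule.rank_sup_add_rank_inf_eq s t)
  rwa [Cardinal.toNat_add (hlt _ (sup_le hs ht)) (hlt _ (inf_le_left.trans hs)),
    Cardinal.toNat_add (hlt _ hs) (hlt _ ht)] at key

theorem HS_split {𝔠 : Ideal (PA B n C)} (h : IsHom 𝔠) {x : PA B n C} {α : C →₀ ℕ}
    (hx : IsH x α) : HS 𝔠 = HS (𝔠 ⊔ Ideal.span {x}) + zz α • HS (𝔠.colon {x}) := by
  classical
  by_cases hx0 : x = 0
  · subst hx0
    rw [HS_eq_zero (𝔠 := 𝔠.colon {0}) (b := 1) one_ne_zero (by rw [mem_colon_single]; simp)]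
    simp
  ext γ
  rw [map_add, coeff_zz_smul]
  by_cases hγ : α ≤ γ
  · obtain ⟨β, rfl⟩ := exists_add_of_le hγ
    rw [if_pos hγ, add_tsub_cancel_left, coeff_HS, coeff_HS, coeff_HS]
    have := finite_wt (B := B) (n := n) (α + β)
    set P := weightedHomogeneousSubmodule B (wt n C) (α + β) with hP
    set Q := weightedHomogeneousSubmodule B (wt n C) β with hQ
    let f : PA B n C →ₗ[B] PA B n C := LinearMap.mulLeft B x
    have hf : Function.Injective f := fun a b hab => mul_left_cancel₀ hx0 hab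
    have hV : Q.map f ≤ P := by
      rintro _ ⟨q, hq, rfl⟩
      exact hx.mul hq
    have h1 := finrank_sup_add_inf P (P ⊓ 𝔠.restrictScalars B) (Q.map f) inf_le_left hV
    have h2 : (P ⊓ 𝔠.restrictScalars B) ⊔ Q.map f =
        P ⊓ (𝔠 ⊔ Ideal.span {x}).restrictScalars B := by
      apply le_antisymm
      · refine sup_le (inf_le_inf_left _ fun p hp => Ideal.mem_sup_left hp) (le_inf hV ?_)
        rintro _ ⟨q, _, rfl⟩
        exact Ideal.mem_sup_right (Ideal.mem_span_singleton.mpr (dvd_mul_right _ _))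
      · rintro p ⟨hp, hp'⟩
        obtain ⟨a, ha, b, hb, rfl⟩ := Submodule.mem_sup.mp hp'
        obtain ⟨q, rfl⟩ := Ideal.mem_span_singleton.mp hb
        rw [← IsWeightedHomogeneous.weightedHomogeneousComponent_same hp, map_add,
          comp_mul_add hx]
        exact Submodule.add_mem_sup ⟨weightedHomogeneousComponent_mem _ _ _, h a ha _⟩
          ⟨_, weightedHomogeneousComponent_mem _ _ _, rfl⟩
    have h3 : (P ⊓ 𝔠.restrictScalars B) ⊓ Q.map f =
        (Q ⊓ (𝔠.colon {x}).restrictScalars B).map f := by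
      apply le_antisymm
      · rintro _ ⟨⟨_, hc⟩, ⟨q, hq, rfl⟩⟩
        exact ⟨q, ⟨hq, mem_colon_single.mpr hc⟩, rfl⟩
      · rintro _ ⟨q, ⟨hq, hc⟩, rfl⟩
        exact ⟨⟨hx.mul hq, mem_colon_single.mp hc⟩, ⟨q, hq, rfl⟩⟩
    rw [h2, h3, ← (Submodule.equivMapOfInjective f hf Q).finrank_eq,
      ← (Submodule.equivMapOfInjective f hf (Q ⊓ (𝔠.colon {x}).restrictScalars B)).finrank_eq]
      at h1
    have h4 : finrank B ↥(P ⊓ (𝔠 ⊔ Ideal.span {x}).restrictScalars B) +
        finrank B ↥(Q ⊓ (𝔠.colon {x}).restrictScalars B) =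
        finrank B ↥(P ⊓ 𝔠.restrictScalars B) + finrank B Q := h1
    omega
  · rw [if_neg hγ, add_zero, coeff_HS, coeff_HS]
    have : weightedHomogeneousSubmodule B (wt n C) γ ⊓ 𝔠.restrictScalars B =
        weightedHomogeneousSubmodule B (wt n C) γ ⊓ (𝔠 ⊔ Ideal.span {x}).restrictScalars B := by
      apply le_antisymm
      · exact inf_le_inf_left _ fun p hp => Ideal.mem_sup_left hp
      · rintro p ⟨hp, hp'⟩
        refine ⟨hp, ?_⟩
        obtain ⟨a, ha, b, hb, rfl⟩ := Submodule.mem_sup.mp hp'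
        obtain ⟨q, rfl⟩ := Ideal.mem_span_singleton.mp hb
        rw [← IsWeightedHomogeneous.weightedHomogeneousComponent_same hp, map_add,
          comp_mul_of_not_le hx hγ, add_zero]
        exact h a ha _
    rw [this]

theorem HS_mem {S : Set (PA B n C)} {𝔠 : Ideal (PA B n C)} (h : IsHom 𝔠) (hS : S ⊆ 𝔠) :
    HS 𝔠 ∈ HSpan S :=
  Submodule.subset_span ⟨𝔠, h, hS, rfl⟩

theorem HSpan_anti {S S' : Set (PA B n C)} (h : S ⊆ S') : HSpan S' ≤ HSpan S := by
  refine Submodule.span_mono ?_
  rintro _ ⟨𝔢, h1, h2, rfl⟩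
  exact ⟨𝔢, h1, h.trans h2, rfl⟩

theorem HS_pow {S : Set (PA B n C)} {𝔠 : Ideal (PA B n C)} (h : IsHom 𝔠) (hS : S ⊆ 𝔠)
    {x : PA B n C} {α : C →₀ ℕ} (hx : IsH x α) {k : ℕ} (hk : x ^ k ∈ 𝔠) :
    HS 𝔠 ∈ HSpan (insert x S) := by
  induction k generalizing 𝔠 with
  | zero =>
    rw [HS_eq_zero (b := 1) one_ne_zero (by simpa using hk)]
    exact Submodule.zero_mem _
  | succ k ih =>
    rw [HS_split h hx]
    refine Submodule.add_mem _ (HS_mem (h.sup_span hx) ?_) (Submodule.smul_mem _ _ ?_)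
    · rintro y (rfl | hy)
      · exact Ideal.mem_sup_right (Ideal.mem_span_singleton_self _)
      · exact Ideal.mem_sup_left (hS hy)
    · refine ih (h.colon hx) (fun y hy => ?_) ?_
      · exact mem_colon_single.mpr (𝔠.mul_mem_left _ (hS hy))
      · rw [mem_colon_single, ← pow_succ']
        exact hk

end Crest.Agent.R181
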