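import Crest.Agent.R181.IDefs

/-! # Row 181, I2: the flow lemma; I3: Gaussian elimination. -/

set_option autoImplicit false

namespace Crest.Agent.R181

open Module MvPolynomial

section Flow

variable {Pa : Type} [DecidableEq Pa] {n : ℕ} {Cu : Type}

/-- the flow `τ ↦ τ + ε v_τ` -/
noncomputable def i2T (β : Finset Pa) (v : Pa → PA (MvPolynomial Pa ℂ) n Cu) :
    PA (MvPolynomial Pa ℂ) n Cu →+* Polynomial (PA (MvPolynomial Pa ℂ) n Cu) :=
  eval₂Hom (eval₂Hom (Polynomial.C.comp (MvPolynomial.C.comp MvPolynomial.C))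
    fun τ => Polynomial.C (MvPolynomial.C (X τ)) +
      if τ ∈ β then Polynomial.X * Polynomial.C (v τ) else 0)
    fun x => Polynomial.C (X x)

omit [DecidableEq Pa] in
theorem i2_ext {A : Type} [Semiring A] {f g : PA (MvPolynomial Pa ℂ) n Cu →+* A}
    (h1 : ∀ a, f (MvPolynomial.C (MvPolynomial.C a)) = g (MvPolynomial.C (MvPolynomial.C a)))
    (h2 : ∀ τ, f (MvPolynomial.C (X τ)) = g (MvPolynomial.C (X τ)))
    (h3 : ∀ x, f (X x) = g (X x)) : f = g :=
  MvPolynomial.ringHom_ext' (MvPolynomial.ringHom_ext h1 h2) h3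

variable (β : Finset Pa) (v : Pa → PA (MvPolynomial Pa ℂ) n Cu)

theorem i2T_CC (a : ℂ) : i2T β v (MvPolynomial.C (MvPolynomial.C a)) =
    Polynomial.C (MvPolynomial.C (MvPolynomial.C a)) := by
  simp only [i2T, eval₂Hom_C, RingHom.comp_apply]

theorem i2T_CX (τ : Pa) : i2T β v (MvPolynomial.C (X τ)) =
    Polynomial.C (MvPolynomial.C (X τ)) +
      if τ ∈ β then Polynomial.X * Polynomial.C (v τ) else 0 := by
  simp only [i2T, eval₂Hom_C, eval₂Hom_X']

theorem i2T_X (x : Cu × Var n) : i2T β v (X x) = Polynomial.C (X x) := by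
  simp only [i2T, eval₂Hom_X']

theorem i2_kil_CC (a : ℂ) : kil n Cu β (MvPolynomial.C (MvPolynomial.C a)) =
    MvPolynomial.C (MvPolynomial.C a) := by
  simp [kil]

theorem i2_kil_CX (τ : Pa) : kil n Cu β (MvPolynomial.C (X τ)) =
    if τ ∈ β then 0 else MvPolynomial.C (X τ) := by
  by_cases h : τ ∈ β <;> simp [kil, h]

theorem i2_kil_X (x : Cu × Var n) : kil n Cu β (X x) = X x := by
  simp [kil]

theorem i2T_kil (x : PA (MvPolynomial Pa ℂ) n Cu) :
    i2T β v (kil n Cu β x) = Polynomial.C (kil n Cu β x) := by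
  have : (i2T β v).comp (kil n Cu β) = Polynomial.C.comp (kil n Cu β) := by
    refine i2_ext (fun a => ?_) (fun τ => ?_) fun x => ?_
    · simp only [RingHom.comp_apply, i2_kil_CC, i2T_CC]
    · by_cases h : τ ∈ β
      · simp only [RingHom.comp_apply, i2_kil_CX, if_pos h, map_zero]
      · simp only [RingHom.comp_apply, i2_kil_CX, if_neg h, i2T_CX, add_zero]
    · simp only [RingHom.comp_apply, i2_kil_X, i2T_X]
  exact RingHom.congr_fun this x

theorem i2T_of_kil {x : PA (MvPolynomial Pa ℂ) n Cu} (hx : kil n Cu β x = x) :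
    i2T β v x = Polynomial.C x := by
  have := i2T_kil β v x
  rwa [hx] at this

theorem i2T_coeff_zero (x : PA (MvPolynomial Pa ℂ) n Cu) : (i2T β v x).coeff 0 = x := by
  have : Polynomial.constantCoeff.comp (i2T β v) = RingHom.id _ := by
    refine i2_ext (fun a => ?_) (fun τ => ?_) fun x => ?_
    · simp [i2T_CC]
    · by_cases h : τ ∈ β <;> simp [i2T_CX, h]
    · simp [i2T_X]
  exact RingHom.congr_fun this x

theorem i2T_group (hv : ∀ τ, kil n Cu β (v τ) = v τ) (x : PA (MvPolynomial Pa ℂ) n Cu) :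
    Polynomial.eval₂ (i2T β v) (-Polynomial.X) (i2T β v x) = Polynomial.C x := by
  have : (Polynomial.eval₂RingHom (i2T β v) (-Polynomial.X)).comp (i2T β v) = Polynomial.C := by
    refine i2_ext (fun a => ?_) (fun τ => ?_) fun x => ?_
    · simp only [RingHom.comp_apply, i2T_CC, Polynomial.coe_eval₂RingHom, Polynomial.eval₂_C]
    · by_cases h : τ ∈ β
      · simp only [RingHom.comp_apply, i2T_CX, if_pos h, Polynomial.coe_eval₂RingHom,
          Polynomial.eval₂_add, Polynomial.eval₂_mul, Polynomial.eval₂_C, Polynomial.eval₂_X,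
          i2T_of_kil β v (hv τ)]
        ring
      · simp only [RingHom.comp_apply, i2T_CX, if_neg h, add_zero, Polynomial.coe_eval₂RingHom,
          Polynomial.eval₂_C]
    · simp only [RingHom.comp_apply, i2T_X, Polynomial.coe_eval₂RingHom, Polynomial.eval₂_C]
  exact RingHom.congr_fun this x

theorem i2T_aff {h : PA (MvPolynomial Pa ℂ) n Cu} {g : Pa → PA (MvPolynomial Pa ℂ) n Cu}
    (hh : kil n Cu β h = h) (hg : ∀ τ, kil n Cu β (g τ) = g τ) :
    i2T β v (aff β h g) =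
      Polynomial.C (aff β h g) + Polynomial.X * Polynomial.C (∑ τ ∈ β, g τ * v τ) := by
  unfold aff
  rw [map_add, map_add, map_sum, map_sum, map_sum, i2T_of_kil β v hh, Finset.mul_sum, add_assoc,
    ← Finset.sum_add_distrib]
  congr 1
  refine Finset.sum_congr rfl fun τ hτ => ?_
  rw [map_mul, i2T_CX, if_pos hτ, i2T_of_kil β v (hg τ), map_mul, map_mul]
  ring

/-- polynomials in `ε` that are homogeneous when `ε` has degree `-e` -/
def i2H (e α : Cu →₀ ℕ) (q : Polynomial (PA (MvPolynomial Pa ℂ) n Cu)) : Prop :=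
  ∀ k, IsH (q.coeff k) (α + k • e)

omit [DecidableEq Pa] in
theorem i2H.add {e α : Cu →₀ ℕ} {q r : Polynomial (PA (MvPolynomial Pa ℂ) n Cu)}
    (hq : i2H e α q) (hr : i2H e α r) : i2H e α (q + r) := fun k => by
  rw [Polynomial.coeff_add]
  exact (hq k).add (hr k)

omit [DecidableEq Pa] in
theorem i2H.mul {e α γ : Cu →₀ ℕ} {q r : Polynomial (PA (MvPolynomial Pa ℂ) n Cu)}
    (hq : i2H e α q) (hr : i2H e γ r) : i2H e (α + γ) (q * r) := fun k => by
  rw [Polynomial.coeff_mul]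
  refine IsWeightedHomogeneous.sum _ _ _ fun c hc => ?_
  have := (hq c.1).mul (hr c.2)
  rw [← Finset.HasAntidiagonal.mem_antidiagonal.1 hc, add_smul]
  convert this using 1
  abel

omit [DecidableEq Pa] in
theorem i2H_C {e α : Cu →₀ ℕ} {x : PA (MvPolynomial Pa ℂ) n Cu} (hx : IsH x α) :
    i2H e α (Polynomial.C x) := fun k => by
  rw [Polynomial.coeff_C]
  split_ifs with h
  · subst h
    simpa using hx
  · exact isWeightedHomogeneous_zero _ _ _

theorem i2H_T_C {e : Cu →₀ ℕ} (hv : ∀ τ, IsH (v τ) e) (b : MvPolynomial Pa ℂ) :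
    i2H e 0 (i2T β v (MvPolynomial.C b)) := by
  induction b using MvPolynomial.induction_on with
  | C a =>
    rw [i2T_CC]
    exact i2H_C (isWeightedHomogeneous_C _ _)
  | add p q hp hq =>
    rw [map_add, map_add]
    exact hp.add hq
  | mul_X p τ hp =>
    rw [map_mul, map_mul]
    have : i2H e 0 (i2T β v (MvPolynomial.C (X τ))) := by
      rw [i2T_CX]
      refine (i2H_C (isWeightedHomogeneous_C _ _)).add fun k => ?_
      split_ifs
      · rw [Polynomial.X_mul, Polynomial.coeff_C_mul, Polynomial.coeff_X]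
        split_ifs with h
        · subst h
          simpa using hv τ
        · rw [mul_zero]
          exact isWeightedHomogeneous_zero _ _ _
      · exact isWeightedHomogeneous_zero _ _ _
    simpa using hp.mul this

theorem i2T_comp {e : Cu →₀ ℕ} (hv : ∀ τ, IsH (v τ) e) (α : Cu →₀ ℕ) (k : ℕ)
    (p : PA (MvPolynomial Pa ℂ) n Cu) :
    (i2T β v (weightedHomogeneousComponent (wt n Cu) α p)).coeff k =
      weightedHomogeneousComponent (wt n Cu) (α + k • e) ((i2T β v p).coeff k) := by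
  classical
  induction p using MvPolynomial.induction_on' with
  | monomial d b =>
    have h1 : IsH (monomial d b : PA (MvPolynomial Pa ℂ) n Cu) (Finsupp.weight (wt n Cu) d) :=
      isWeightedHomogeneous_monomial _ _ _ rfl
    have h2 : i2H e (Finsupp.weight (wt n Cu) d) (i2T β v (monomial d b)) := by
      have e1 : (monomial d b : PA (MvPolynomial Pa ℂ) n Cu) = MvPolynomial.C b * monomial d 1 := by
        rw [C_mul_monomial, mul_one]
      have e2 : kil n Cu β (monomial d 1) = monomial d 1 := by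
        simp [kil, map_monomial]
      rw [e1, map_mul, i2T_of_kil β v e2]
      simpa using (i2H_T_C β v hv b).mul
        (i2H_C (isWeightedHomogeneous_monomial (wt n Cu) d (1 : MvPolynomial Pa ℂ) rfl))
    rw [weightedHomogeneousComponent_of_mem h1, weightedHomogeneousComponent_of_mem (h2 k)]
    by_cases h : α = Finsupp.weight (wt n Cu) d
    · rw [if_pos h, if_pos (by rw [h])]
    · rw [if_neg h, if_neg fun h' => h (add_right_cancel h'), map_zero, Polynomial.coeff_zero]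
  | add p q hp hq => simp only [map_add, Polynomial.coeff_add, hp, hq]

end Flow

theorem i2_alg {P : Type} [CommRing P] (T : P →+* Polynomial P) (𝔠 : Ideal P) (Φ δ : P)
    (hΦ : Φ ∈ 𝔠) (hT : T Φ = Polynomial.C Φ + Polynomial.X * Polynomial.C δ)
    (hTδ : T δ = Polynomial.C δ) (h0 : ∀ x, (T x).coeff 0 = x)
    (hgrp : ∀ x, Polynomial.eval₂ T (-Polynomial.X) (T x) = Polynomial.C x) :
    (δ ∈ 𝔠 → Φ ∈ (𝔠.map Polynomial.C).comap T) ∧
      (∀ m, Φ * m ∈ (𝔠.map Polynomial.C).comap T → δ * m ∈ (𝔠.map Polynomial.C).comap T) ∧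
      ∀ x ∈ 𝔠, ∃ k : ℕ, δ ^ k * x ∈ (𝔠.map Polynomial.C).comap T ⊔ Ideal.span {Φ} := by
  have hCΦ : Polynomial.C Φ ∈ 𝔠.map Polynomial.C := Ideal.mem_map_of_mem _ hΦ
  refine ⟨fun hd => ?_, fun m hm => ?_, fun x hx => ?_⟩
  · rw [Ideal.mem_comap, hT]
    exact Ideal.add_mem _ hCΦ (Ideal.mul_mem_left _ _ (Ideal.mem_map_of_mem _ hd))
  · rw [Ideal.mem_comap, map_mul, hT, add_mul] at hm
    have h1 := (Ideal.add_mem_iff_right _ (Ideal.mul_mem_right _ _ hCΦ)).1 hm
    rw [Ideal.mem_comap, map_mul, hTδ]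
    rw [Ideal.mem_map_C_iff] at h1 ⊢
    intro k
    have := h1 (k + 1)
    rwa [mul_assoc, Polynomial.coeff_X_mul] at this
  · set q := T x with hq
    refine ⟨q.natDegree, ?_⟩
    have h1 : ∑ j ∈ Finset.range (q.natDegree + 1), q.coeff j * (-Φ) ^ j * δ ^ (q.natDegree - j) ∈
        (𝔠.map Polynomial.C).comap (T) := by
      rw [Ideal.mem_comap, ← Ideal.Quotient.eq_zero_iff_mem]
      set π := Ideal.Quotient.mk (𝔠.map (Polynomial.C (R := P)))
      have e0 : π (Polynomial.C Φ) = 0 := Ideal.Quotient.eq_zero_iff_mem.2 hCΦ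
      have e1 : π (Polynomial.C x) = 0 :=
        Ideal.Quotient.eq_zero_iff_mem.2 (Ideal.mem_map_of_mem _ hx)
      have e2 := hgrp x
      rw [← hq, Polynomial.eval₂_eq_sum_range] at e2
      have e3 : π (Polynomial.C δ) ^ q.natDegree * π (Polynomial.C x) = 0 := by
        rw [e1, mul_zero]
      rw [← e3, ← e2, map_sum, map_sum, map_sum, Finset.mul_sum]
      refine Finset.sum_congr rfl fun j hj => ?_
      have hj' : j ≤ q.natDegree := Nat.lt_succ_iff.1 (Finset.mem_range.1 hj)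
      simp only [map_mul, map_pow, map_neg, hT, hTδ, map_add, e0, zero_add]
      conv_rhs => rw [← Nat.add_sub_cancel' hj', pow_add]
      ring
    have h2 : δ ^ q.natDegree * x - ∑ j ∈ Finset.range (q.natDegree + 1),
        q.coeff j * (-Φ) ^ j * δ ^ (q.natDegree - j) ∈ Ideal.span {Φ} := by
      rw [Finset.sum_range_succ', hq, h0, ← hq]
      simp only [pow_zero, mul_one, Nat.sub_zero]
      rw [mul_comm x, ← sub_sub, sub_right_comm, sub_self, zero_sub]
      refine neg_mem (Ideal.sum_mem _ fun j _ => ?_)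
      refine Ideal.mul_mem_right _ _ (Ideal.mul_mem_left _ _ ?_)
      exact Ideal.pow_mem_of_mem _ (neg_mem (Ideal.mem_span_singleton_self _)) _ (Nat.succ_pos _)
    have := Ideal.add_mem _ (Ideal.mem_sup_left h1) (Ideal.mem_sup_right h2)
    rwa [add_sub_cancel] at this

/-- `T : τ ↦ τ + ε v_τ (τ ∈ β)`, `𝔡 = T⁻¹ (𝔠[ε])`. -/
theorem exists_flow {Pa : Type} [DecidableEq Pa] {n : ℕ} {C : Type} (β : Finset Pa)
    (v : Pa → PA (MvPolynomial Pa ℂ) n C) (e : C →₀ ℕ)
    (hv : ∀ τ, kil n C β (v τ) = v τ ∧ IsH (v τ) e)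
    {𝔠 : Ideal (PA (MvPolynomial Pa ℂ) n C)} (h𝔠 : IsHom 𝔠) :
    ∃ 𝔡 : Ideal (PA (MvPolynomial Pa ℂ) n C), IsHom 𝔡 ∧ 𝔡 ≤ 𝔠 ∧
      (∀ x ∈ 𝔠, kil n C β x = x → x ∈ 𝔡) ∧
      ∀ (h : PA (MvPolynomial Pa ℂ) n C) (g : Pa → PA (MvPolynomial Pa ℂ) n C),
        kil n C β h = h → (∀ τ, kil n C β (g τ) = g τ) → aff β h g ∈ 𝔠 →
          ((∑ τ ∈ β, g τ * v τ) ∈ 𝔠 → aff β h g ∈ 𝔡) ∧
          (∀ m, aff β h g * m ∈ 𝔡 → (∑ τ ∈ β, g τ * v τ) * m ∈ 𝔡) ∧
          ∀ x ∈ 𝔠, ∃ k : ℕ, (∑ τ ∈ β, g τ * v τ) ^ k * x ∈ 𝔡 ⊔ Ideal.span {aff β h g} := by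
  refine ⟨(𝔠.map Polynomial.C).comap (i2T β v), fun p hp α => ?_, fun p hp => ?_,
    fun x hx hk => ?_, fun h g hh hg hΦ => ?_⟩
  · rw [Ideal.mem_comap, Ideal.mem_map_C_iff] at hp ⊢
    intro k
    rw [i2T_comp β v fun τ => (hv τ).2]
    exact h𝔠 _ (hp k) _
  · rw [Ideal.mem_comap, Ideal.mem_map_C_iff] at hp
    have := hp 0
    rwa [i2T_coeff_zero] at this
  · rw [Ideal.mem_comap, i2T_of_kil β v hk]
    exact Ideal.mem_map_of_mem _ hx
  have hT := i2T_aff β v hh hg
  have hδ : kil n C β (∑ τ ∈ β, g τ * v τ) = ∑ τ ∈ β, g τ * v τ := by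
    rw [map_sum]
    exact Finset.sum_congr rfl fun τ _ => by rw [map_mul, hg τ, (hv τ).1]
  have hTδ := i2T_of_kil β v hδ
  exact i2_alg (i2T β v) 𝔠 _ _ hΦ hT hTδ (i2T_coeff_zero β v) (i2T_group β v fun τ => (hv τ).1)

/-- Gaussian elimination with homogeneous entries. -/
theorem exists_perp {R Ω M Pa ι : Type} [CommRing R] [Field Ω] [AddCommMonoid M] [Fintype ι]
    (ψ : R →+* Ω) (Q : M → R → Prop) (Q1 : Q 0 1) (Q0 : ∀ a, Q a 0)
    (Qmul : ∀ a b x y, Q a x → Q b y → Q (a + b) (x * y))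
    (Qsub : ∀ a x y, Q a x → Q a y → Q a (x - y))
    (β : Finset Pa) (δ : ι → M) (g : ι → Pa → R) (hg : ∀ l τ, Q (δ l) (g l τ)) (g₀ : Pa → R)
    (h : ∀ s : ι → Ω, ∃ τ ∈ β, ψ (g₀ τ) ≠ ∑ l, s l * ψ (g l τ)) :
    ∃ (e : M) (v : Pa → R), (∀ τ, Q e (v τ)) ∧ (∀ l, ψ (∑ τ ∈ β, g l τ * v τ) = 0) ∧
      ψ (∑ τ ∈ β, g₀ τ * v τ) ≠ 0 := by
  classical
  have Qsum : ∀ a (t : Finset Pa) (f : Pa → R), (∀ τ, Q a (f τ)) → Q a (∑ τ ∈ t, f τ) := by
    intro a t f hf
    induction t using Finset.induction_on with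
    | empty => simpa using Q0 a
    | insert τ t hτ ih =>
      rw [Finset.sum_insert hτ]
      have := Qsub a _ _ (hf τ) (Qsub a _ _ (Q0 a) ih)
      simpa using this
  have key : ∀ (t : Finset ι) (g₀ : Pa → R),
      (∀ s : ι → Ω, ∃ τ ∈ β, ψ (g₀ τ) ≠ ∑ l ∈ t, s l * ψ (g l τ)) →
      ∃ (e : M) (v : Pa → R), (∀ τ, Q e (v τ)) ∧ (∀ l ∈ t, ψ (∑ τ ∈ β, g l τ * v τ) = 0) ∧
        ψ (∑ τ ∈ β, g₀ τ * v τ) ≠ 0 := by
    intro t
    induction t using Finset.induction_on with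
    | empty =>
      intro g₀ h
      obtain ⟨τ₀, hτ₀, hne⟩ := h 0
      refine ⟨0, fun τ => if τ = τ₀ then 1 else 0, fun τ => ?_, by simp, ?_⟩
      · by_cases hτ : τ = τ₀
        · simpa [hτ] using Q1
        · simpa [hτ] using Q0 0
      · simpa [hτ₀] using hne
    | insert l₀ t hl₀ ih =>
      intro g₀ h
      by_cases hsp : ∀ s : ι → Ω, ∃ τ ∈ β, ψ (g l₀ τ) ≠ ∑ l ∈ t, s l * ψ (g l τ)
      · obtain ⟨e₀, v₀, hv₀, hp₀, hd₀⟩ := ih (g l₀) hsp
        set d₀ := ∑ τ ∈ β, g l₀ τ * v₀ τ with hd₀'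
        set c₀ := ∑ τ ∈ β, g₀ τ * v₀ τ with hc₀'
        obtain ⟨e, v, hv, hp, hd⟩ := ih (fun τ => d₀ * g₀ τ - c₀ * g l₀ τ) fun s => by
          obtain ⟨τ, hτ, hne⟩ := h fun l => if l = l₀ then ψ c₀ / ψ d₀ else s l / ψ d₀
          refine ⟨τ, hτ, fun heq => hne ?_⟩
          rw [Finset.sum_insert hl₀, if_pos rfl]
          have e1 : ∑ l ∈ t, (if l = l₀ then ψ c₀ / ψ d₀ else s l / ψ d₀) * ψ (g l τ) =
              (∑ l ∈ t, s l * ψ (g l τ)) / ψ d₀ := by
            rw [Finset.sum_div]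
            refine Finset.sum_congr rfl fun l hl => ?_
            rw [if_neg (ne_of_mem_of_not_mem hl hl₀)]
            ring
          rw [e1, ← heq, map_sub, map_mul, map_mul]
          field_simp
          ring
        set d := ∑ τ ∈ β, g l₀ τ * v τ with hd'
        have hlin : ∀ f : Pa → R, ∑ τ ∈ β, f τ * (d₀ * v τ - d * v₀ τ) =
            d₀ * ∑ τ ∈ β, f τ * v τ - d * ∑ τ ∈ β, f τ * v₀ τ := by
          intro f
          rw [Finset.mul_sum, Finset.mul_sum, ← Finset.sum_sub_distrib]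
          exact Finset.sum_congr rfl fun τ _ => by ring
        refine ⟨δ l₀ + e₀ + e, fun τ => d₀ * v τ - d * v₀ τ, fun τ => ?_, fun l hl => ?_, ?_⟩
        · refine Qsub _ _ _ (Qmul _ _ _ _ (Qsum _ _ _ fun τ => Qmul _ _ _ _ (hg l₀ τ) (hv₀ τ))
            (hv τ)) ?_
          rw [add_right_comm]
          exact Qmul _ _ _ _ (Qsum _ _ _ fun τ => Qmul _ _ _ _ (hg l₀ τ) (hv τ)) (hv₀ τ)
        · rw [hlin]
          rcases Finset.mem_insert.1 hl with rfl | hl
          · rw [← hd', ← hd₀', mul_comm, sub_self, map_zero]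
          · rw [map_sub, map_mul, map_mul, hp l hl, hp₀ l hl]
            simp
        · rw [hlin, ← hc₀']
          convert hd using 2
          rw [hd', Finset.mul_sum, Finset.sum_mul, ← Finset.sum_sub_distrib]
          exact Finset.sum_congr rfl fun τ _ => by ring
      · push Not at hsp
        obtain ⟨c, hc⟩ := hsp
        obtain ⟨e, v, hv, hp, hd⟩ := ih g₀ fun s => by
          obtain ⟨τ, hτ, hne⟩ := h fun l => if l = l₀ then 0 else s l
          refine ⟨τ, hτ, fun heq => hne ?_⟩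
          rw [Finset.sum_insert hl₀, if_pos rfl, zero_mul, zero_add, heq]
          exact Finset.sum_congr rfl fun l hl => by rw [if_neg (ne_of_mem_of_not_mem hl hl₀)]
        refine ⟨e, v, hv, fun l hl => ?_, hd⟩
        rcases Finset.mem_insert.1 hl with rfl | hl
        · have e1 : ψ (∑ τ ∈ β, g l τ * v τ) = ∑ l' ∈ t, c l' * ψ (∑ τ ∈ β, g l' τ * v τ) := by
            simp only [map_sum, map_mul, Finset.mul_sum]
            rw [Finset.sum_comm]
            refine Finset.sum_congr rfl fun τ hτ => ?_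
            rw [hc τ hτ, Finset.sum_mul]
            exact Finset.sum_congr rfl fun l' _ => by ring
          rw [e1]
          exact Finset.sum_eq_zero fun l' hl' => by rw [hp l' hl', mul_zero]
        · exact hp l hl
  obtain ⟨e, v, h1, h2, h3⟩ := key Finset.univ g₀ h
  exact ⟨e, v, h1, fun l => h2 l (Finset.mem_univ l), h3⟩

end Crest.Agent.R181
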