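import Crest.Agent.R181.I1
import Crest.Agent.R181.I2

/-! # Row 181, I4: the row lemma and its iteration. -/

set_option autoImplicit false

namespace Crest.Agent.R181

open Module MvPolynomial

variable {Pa : Type} [Fintype Pa] [DecidableEq Pa] {n : ℕ} {C : Type} [Fintype C] [DecidableEq C]

theorem row_point {R : Type} [CommRing R] (q : Ideal R) [q.IsPrime] :
    ∃ (Ω : Type) (_ : Field Ω) (_ : IsAlgClosed Ω) (ψ : R →+* Ω), ∀ x, ψ x = 0 ↔ x ∈ q := by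
  refine ⟨AlgebraicClosure (FractionRing (R ⧸ q)), inferInstance, inferInstance,
    (algebraMap (FractionRing (R ⧸ q)) _).comp
      ((algebraMap (R ⧸ q) _).comp (Ideal.Quotient.mk q)), fun x => ?_⟩
  rw [RingHom.comp_apply, RingHom.comp_apply, map_eq_zero,
    map_eq_zero_iff _ (IsFractionRing.injective _ _), Ideal.Quotient.eq_zero_iff_mem]

/-- The flow step: with `𝔡` as in `exists_flow`, the series of `𝔠` lies in
`(1 - z^α) HSpan S + HSpan (insert δ₀ S')`. -/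
theorem row_flow {B : Type} [CommRing B] [IsDomain B] [IsNoetherianRing B]
    {S S' : Set (PA B n C)} {Φ δ₀ : PA B n C} {α γ : C →₀ ℕ} (hΦ : IsH Φ α) (hδ : IsH δ₀ γ)
    {𝔠 𝔡 : Ideal (PA B n C)} (h𝔠 : IsHom 𝔠) (h𝔡 : IsHom 𝔡) (hle : 𝔡 ≤ 𝔠) (hΦc : Φ ∈ 𝔠)
    (hS : S ⊆ 𝔡) (hS' : S' ⊆ insert Φ (𝔡 : Set (PA B n C)))
    (h1 : ∀ m, Φ * m ∈ 𝔡 → δ₀ * m ∈ 𝔡)
    (h2 : ∀ x ∈ 𝔠, ∃ k : ℕ, δ₀ ^ k * x ∈ 𝔡 ⊔ Ideal.span {Φ}) :
    HS 𝔠 ∈ smulSub (1 - zz α) (HSpan S) ⊔ HSpan (insert δ₀ S') := by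
  obtain ⟨k, hk⟩ : ∃ k : ℕ, ∀ x ∈ 𝔠, δ₀ ^ k * x ∈ 𝔡 ⊔ Ideal.span {Φ} := by
    obtain ⟨s, hs⟩ := (isNoetherianRing_iff_ideal_fg _).1 inferInstance 𝔠
    choose! k hk using h2
    refine ⟨s.sup k, fun x hx => ?_⟩
    have : 𝔠 ≤ (𝔡 ⊔ Ideal.span {Φ}).colon {δ₀ ^ s.sup k} := by
      rw [← hs]
      refine Ideal.span_le.2 fun y hy => Submodule.mem_colon_singleton.2 ?_
      obtain ⟨j, hj⟩ := Nat.exists_eq_add_of_le (Finset.le_sup (f := k) hy)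
      rw [hj, smul_eq_mul, pow_add, mul_comm y, mul_right_comm]
      exact Ideal.mul_mem_right _ _ (hk y (hs ▸ Ideal.subset_span hy))
    have := Submodule.mem_colon_singleton.1 (this hx)
    rwa [smul_eq_mul, mul_comm] at this
  have hΦs : Φ ∈ 𝔡 ⊔ Ideal.span {Φ} := Ideal.mem_sup_right (Ideal.mem_span_singleton_self Φ)
  have a1 : HS 𝔡 - HS (𝔡.colon {Φ}) ∈ HSpan (insert δ₀ S') := by
    refine HSpan_anti ?_ (HS_sub_mem (S := {Φ, δ₀}) h𝔡 (h𝔡.colon hΦ)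
      (fun x hx => Submodule.mem_colon_singleton.2 (𝔡.mul_mem_right _ hx)) fun x hx m hm => ?_)
    · rintro x (rfl | hx)
      · exact Or.inl (Or.inr rfl)
      · exact (hS' hx).elim (fun h => Or.inl (Or.inl h)) Or.inr
    · have hm' : Φ * m ∈ 𝔡 := by
        have := Submodule.mem_colon_singleton.1 hm
        rwa [smul_eq_mul, mul_comm] at this
      rcases hx with rfl | rfl
      · exact hm'
      · exact h1 m hm'
  have a2 : HS (𝔡 ⊔ Ideal.span {Φ}) - HS 𝔠 ∈ HSpan (insert δ₀ S') := by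
    have := HS_sub_mem (S := {δ₀ ^ k}) (h𝔡.sup_span hΦ) h𝔠
      (sup_le hle ((Ideal.span_singleton_le_iff_mem _).2 hΦc))
      (by rintro _ rfl m hm; exact hk m hm)
    refine (Submodule.span_le.2 ?_ : _ ≤ HSpan (insert δ₀ S')) this
    rintro _ ⟨𝔢, he, hs, rfl⟩
    refine HS_pow he (fun x hx => hs (Or.inr ?_)) hδ (hs (Or.inl rfl))
    exact (hS' hx).elim (fun h => h ▸ hΦs) fun h => Ideal.mem_sup_left h
  have e : HS 𝔠 = (1 - zz α) • HS 𝔡 + (zz α • (HS 𝔡 - HS (𝔡.colon {Φ})) -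
      (HS (𝔡 ⊔ Ideal.span {Φ}) - HS 𝔠)) := by
    have := HS_split h𝔡 hΦ
    rw [sub_smul, one_smul, smul_sub]
    linear_combination -this
  rw [e]
  exact Submodule.add_mem_sup ⟨_, HS_mem h𝔡 hS, rfl⟩ (sub_mem (Submodule.smul_mem _ _ a1) a2)

theorem row_lemma (L : Finset C) {S : Set (PA (MvPolynomial Pa ℂ) n C)}
    (hS : ∀ x ∈ S, ∃ δ, IsH x δ) {Φ : PA (MvPolynomial Pa ℂ) n C} {α : C →₀ ℕ} (hΦ : IsH Φ α)
    (h : BPF L S Φ α) :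
    HSpan (insert Φ S) ≤ smulSub (1 - zz α) (HSpan S) ⊔ Negl L (insert Φ S) := by
  obtain ⟨β, ι, _, δ, h, g, h₀, g₀, hSa, hΦe, hh, hg, hh₀, hg₀, hψ⟩ := h
  let Q : (C →₀ ℕ) → PA (MvPolynomial Pa ℂ) n C → Prop := fun a x => kil n C β x = x ∧ IsH x a
  have Q1 : Q 0 1 := ⟨map_one _, isWeightedHomogeneous_one _ _⟩
  have Q0 : ∀ a, Q a 0 := fun a => ⟨map_zero _, isWeightedHomogeneous_zero _ _ _⟩
  have Qmul : ∀ a b x y, Q a x → Q b y → Q (a + b) (x * y) := fun a b x y hx hy =>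
    ⟨by rw [map_mul, hx.1, hy.1], hx.2.mul hy.2⟩
  have Qsub : ∀ a x y, Q a x → Q a y → Q a (x - y) := fun a x y hx hy =>
    ⟨by rw [map_sub, hx.1, hy.1], hx.2.sub hy.2⟩
  have Qsum : ∀ a (f : Pa → PA (MvPolynomial Pa ℂ) n C), (∀ τ, Q a (f τ)) → Q a (∑ τ ∈ β, f τ) :=
    fun a f hf => ⟨by rw [map_sum]; exact Finset.sum_congr rfl fun τ _ => (hf τ).1,
      IsWeightedHomogeneous.sum _ _ _ fun τ _ => (hf τ).2⟩
  let F : Ideal (PA (MvPolynomial Pa ℂ) n C) → Set (PA (MvPolynomial Pa ℂ) n C) :=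
    fun 𝔠 => {x | x ∈ 𝔠 ∧ ∃ a, Q a x}
  suffices key : ∀ (I 𝔠 : Ideal (PA (MvPolynomial Pa ℂ) n C)), Ideal.span (F 𝔠) = I → IsHom 𝔠 →
      insert Φ S ⊆ 𝔠 → HS 𝔠 ∈ smulSub (1 - zz α) (HSpan S) ⊔ Negl L (insert Φ S) by
    refine Submodule.span_le.2 ?_
    rintro _ ⟨𝔢, he, hs, rfl⟩
    exact key _ 𝔢 rfl he hs
  intro I
  induction I using WellFoundedGT.induction with | ind I ih
  intro 𝔠 hI h𝔠 hs
  have IH : ∀ a x, Q a x → x ∉ 𝔠 → HSpan (insert x (F 𝔠 ∪ insert Φ S)) ≤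
      smulSub (1 - zz α) (HSpan S) ⊔ Negl L (insert Φ S) := fun a x hx hxc => by
    refine Submodule.span_le.2 ?_
    rintro _ ⟨𝔢, he, hse, rfl⟩
    refine ih _ ?_ 𝔢 rfl he fun y hy => hse (Or.inr (Or.inr hy))
    rw [← hI]
    refine lt_of_le_of_ne (Ideal.span_mono fun y hy => ⟨hse (Or.inr (Or.inl hy)), hy.2⟩)
      fun e => hxc ?_
    have : x ∈ Ideal.span (F 𝔠) := e ▸ Ideal.subset_span ⟨hse (Or.inl rfl), a, hx⟩
    exact (Ideal.span_le.2 fun y hy => hy.1 : Ideal.span (F 𝔠) ≤ 𝔠) this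
  have hFc : F 𝔠 ∪ insert Φ S ⊆ 𝔠 := Set.union_subset (fun y hy => hy.1) hs
  by_cases c1 : ∃ a b x y, Q a x ∧ Q b y ∧ x ∉ 𝔠 ∧ y ∉ 𝔠 ∧ x * y ∈ 𝔠
  · obtain ⟨a, b, x, y, hx, hy, hxc, hyc, hxy⟩ := c1
    rw [HS_split h𝔠 hx.2]
    refine add_mem (IH a x hx hxc (HS_mem (h𝔠.sup_span hx.2) ?_))
      (Submodule.smul_mem _ _ (IH b y hy hyc (HS_mem (h𝔠.colon hx.2) ?_)))
    · exact Set.insert_subset (Ideal.mem_sup_right (Ideal.mem_span_singleton_self x))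
        fun z hz => Ideal.mem_sup_left (hFc hz)
    · refine Set.insert_subset (Submodule.mem_colon_singleton.2 ?_)
        fun z hz => Submodule.mem_colon_singleton.2 (𝔠.mul_mem_right _ (hFc hz))
      rwa [smul_eq_mul, mul_comm]
  by_cases c2 : ∃ b : MvPolynomial Pa ℂ, b ≠ 0 ∧ MvPolynomial.C b ∈ 𝔠
  · obtain ⟨b, hb, hbc⟩ := c2
    rw [HS_eq_zero hb hbc]
    exact zero_mem _
  by_cases c3 : ∃ c ∈ L, X (c, Sum.inl 0) ∈ 𝔠 ∧ X (c, Sum.inl 1) ∈ 𝔠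
  · obtain ⟨c, hc, h0, h1⟩ := c3
    refine Submodule.mem_sup_right (Submodule.mem_iSup_of_mem c (Submodule.mem_iSup_of_mem hc
      (HS_mem h𝔠 (Set.union_subset hs ?_))))
    exact Set.insert_subset h0 (Set.singleton_subset_iff.2 h1)
  let T : Submonoid (PA (MvPolynomial Pa ℂ) n C) :=
    { carrier := {x | x ∉ 𝔠 ∧ ∃ a, Q a x}
      one_mem' := ⟨fun h1 => c2 ⟨1, one_ne_zero, by rwa [map_one]⟩, 0, Q1⟩
      mul_mem' := fun {x y} ⟨hxc, a, hx⟩ ⟨hyc, b, hy⟩ =>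
        ⟨fun hxy => c1 ⟨a, b, x, y, hx, hy, hxc, hyc, hxy⟩, _, Qmul a b x y hx hy⟩ }
  obtain ⟨q, hq, hcq, hqT⟩ := 𝔠.exists_le_prime_disjoint T
    (Set.disjoint_left.2 fun x hx hT => hT.1 hx)
  have hqc : ∀ a x, Q a x → x ∈ q → x ∈ 𝔠 := fun a x hx hxq =>
    by_contra fun hxc => Set.disjoint_left.1 hqT hxq ⟨hxc, a, hx⟩
  obtain ⟨Ω, _, _, ψ, hker⟩ := row_point q
  have hX : ∀ v, ψ (X v) = 0 → X v ∈ 𝔠 := fun v hv =>
    hqc _ _ ⟨map_X _ _, isH_X v⟩ ((hker _).1 hv)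
  obtain ⟨e, v, hv, hp, hp₀⟩ := exists_perp ψ Q Q1 Q0 Qmul Qsub β δ g hg g₀
    (hψ Ω ψ (fun b hb hk h0 => c2 ⟨b, hb, hqc 0 _ ⟨hk, isWeightedHomogeneous_C _ _⟩
      ((hker _).1 h0)⟩) (fun x hx _ => (hker x).2 (hcq (hs (Or.inr hx))))
      fun c hc => by
        by_contra! h0
        exact c3 ⟨c, hc, hX _ h0.1, hX _ h0.2⟩)
  have Qδ : Q (α + e) (∑ τ ∈ β, g₀ τ * v τ) := Qsum _ _ fun τ => Qmul _ _ _ _ (hg₀ τ) (hv τ)
  obtain ⟨𝔡, h𝔡, hle, hk, hfl⟩ := exists_flow β v e hv h𝔠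
  have hSd : S ⊆ 𝔡 := fun x hx => by
    rcases hSa x hx with h1 | ⟨l, rfl⟩
    · exact hk x (hs (Or.inr hx)) h1
    · exact (hfl _ _ (hh l) (fun τ => (hg l τ).1) (hs (Or.inr hx))).1
        (hqc _ _ (Qsum _ _ fun τ => Qmul _ _ _ _ (hg l τ) (hv τ)) ((hker _).1 (hp l)))
  have hΦc : Φ ∈ 𝔠 := hs (Or.inl rfl)
  obtain ⟨-, f1, f2⟩ := hfl h₀ g₀ hh₀ (fun τ => (hg₀ τ).1) (hΦe ▸ hΦc)
  rw [← hΦe] at f1 f2
  refine sup_le le_sup_left (IH _ _ Qδ fun hc => hp₀ ((hker _).2 (hcq hc)))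
    (row_flow hΦ Qδ.2 h𝔠 h𝔡 hle hΦc hSd ?_ f1 f2)
  rintro x (⟨hx, a, ha⟩ | rfl | hx)
  · exact Or.inr (hk x hx ha.1)
  · exact Or.inl rfl
  · exact Or.inr (hSd hx)

/-- Removing the rows one at a time, in the order given by `key`. -/
theorem rows_iter (R : RD (MvPolynomial Pa ℂ) n C) (L : Finset C) (key : C × Fin n → ℕ)
    (h : ∀ (S : Finset (C × Fin n)) (i : C × Fin n), (∀ r ∈ S, r.1 ∈ L) → i.1 ∈ L → i ∉ S →
      (∀ r ∈ S, key r ≤ key i) → (∀ r : C × Fin n, r.1 ∈ L → key r < key i → r ∈ S) →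
      BPF L (outV _ n L ∪ R.row '' S) (R.row i) (R.deg i)) :
    HSpan (outV _ n L ∪ R.rows L) ≤
      smulSub (∏ c ∈ L, ∏ k, (1 - X c ^ R.b k)) (HSpan (outV (MvPolynomial Pa ℂ) n L)) ⊔
        Negl L (outV _ n L ∪ R.rows L) := by
  have key : ∀ S : Finset (C × Fin n), (∀ r ∈ S, r.1 ∈ L) →
      (∀ r ∈ S, ∀ r' : C × Fin n, r'.1 ∈ L → key r' < key r → r' ∈ S) →
      HSpan (outV _ n L ∪ R.row '' S) ≤
        smulSub (∏ r ∈ S, (1 - zz (R.deg r))) (HSpan (outV (MvPolynomial Pa ℂ) n L)) ⊔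
          Negl L (outV _ n L ∪ R.row '' S) := by
    intro S
    induction S using Finset.induction_on_max_value key with
    | empty =>
      intro _ _ H hH
      refine Submodule.mem_sup_left ⟨H, HSpan_anti Set.subset_union_left hH, ?_⟩
      simp
    | insert i S hi hle ih =>
      intro h1 h2
      have hL : ∀ r ∈ S, r.1 ∈ L := fun r hr => h1 r (Finset.mem_insert_of_mem hr)
      have hlow : ∀ r : C × Fin n, r.1 ∈ L → key r < key i → r ∈ S := fun r hr hlt =>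
        (Finset.mem_insert.1 (h2 i (Finset.mem_insert_self _ _) r hr hlt)).resolve_left
          fun e => lt_irrefl _ (e ▸ hlt)
      have ih := ih hL fun r hr r' hr' hlt => hlow r' hr' (hlt.trans_le (hle r hr))
      rw [Finset.coe_insert, Set.image_insert_eq, Set.union_insert, Finset.prod_insert hi]
      refine (row_lemma L ?_ (R.isH_row i)
        (h S i hL (h1 i (Finset.mem_insert_self _ _)) hi hle hlow)).trans (sup_le ?_ le_sup_right)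
      · rintro _ (⟨c, v, -, rfl⟩ | ⟨r, -, rfl⟩)
        · exact ⟨_, isH_X _⟩
        · exact ⟨_, R.isH_row r⟩
      · rintro _ ⟨H, hH, rfl⟩
        obtain ⟨_, ⟨H₁, hH₁, rfl⟩, H₂, hH₂, rfl⟩ := Submodule.mem_sup.1 (ih hH)
        rw [map_add]
        exact Submodule.add_mem_sup ⟨H₁, hH₁, mul_smul _ _ _⟩
          (one_sub_smul_negl L (R.isH_row i) hH₂)
  have e1 : R.rows L = R.row '' (L ×ˢ Finset.univ : Finset (C × Fin n)) := by
    ext p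
    constructor
    · rintro ⟨c, hc, k, rfl⟩
      exact ⟨(c, k), by simpa using hc, rfl⟩
    · rintro ⟨⟨c, k⟩, hc, rfl⟩
      exact ⟨c, by simpa using hc, k, rfl⟩
  have e2 : (∏ c ∈ L, ∏ k, (1 - X c ^ R.b k) : MvPolynomial C ℤ) =
      ∏ r ∈ L ×ˢ Finset.univ, (1 - zz (R.deg r)) := by
    rw [Finset.prod_product]
    simp only [X_pow_eq_monomial, zz, RD.deg]
  rw [e1, e2]
  exact key _ (fun r hr => (Finset.mem_product.1 hr).1)
    fun _ _ r' hr' _ => Finset.mem_product.2 ⟨hr', Finset.mem_univ _⟩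

end Crest.Agent.R181
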