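import Crest.Agent.R181.I1
import Crest.Agent.R181.DGood

/-! # Row 181, I5: reading off the eventual Hilbert function. -/

set_option autoImplicit false

namespace Crest.Agent.R181

open Module MvPolynomial

variable {n : ℕ} {C : Type} [Fintype C] [DecidableEq C]

/-- The embedding of the one-point set at `c`. -/
def i5e (c : C) : Unit ↪ C := ⟨fun _ => c, fun _ _ _ => rfl⟩

/-- A univariate power series in the variable `c`. -/
noncomputable def i5emb (c : C) : PowerSeries ℤ →ₐ[ℤ] MvPowerSeries C ℤ :=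
  MvPowerSeries.rename (i5e c)

omit [Fintype C] [DecidableEq C] in
theorem i5emb_X (c : C) : i5emb c PowerSeries.X = MvPowerSeries.X c :=
  MvPowerSeries.rename_X (i5e c) ()

omit [Fintype C] [DecidableEq C] in
theorem i5emb_single (c : C) (g : PowerSeries ℤ) (t : ℕ) :
    MvPowerSeries.coeff (Finsupp.single c t) (i5emb c g) = PowerSeries.coeff t g := by
  have := MvPowerSeries.coeff_embDomain_rename (i5e c) g (Finsupp.single () t)
  rw [Finsupp.embDomain_single] at this
  exact this

omit [Fintype C] [DecidableEq C] in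
theorem i5emb_zero (c : C) (g : PowerSeries ℤ) {p : C →₀ ℕ} (hp : p ≠ Finsupp.single c (p c)) :
    MvPowerSeries.coeff p (i5emb c g) = 0 := by
  refine MvPowerSeries.coeff_rename_eq_zero (i5e c) g ?_
  rintro ⟨x, rfl⟩
  apply hp
  rw [Finsupp.unique_single x, Finsupp.mapDomain_single]
  change Finsupp.single c _ = Finsupp.single c (Finsupp.single c _ c)
  rw [Finsupp.single_eq_same]

theorem i5prod (g : PowerSeries ℤ) (L : Finset C) (α : C →₀ ℕ) :
    MvPowerSeries.coeff α (∏ c ∈ L, i5emb c g) =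
      if ∀ c, c ∉ L → α c = 0 then ∏ c ∈ L, PowerSeries.coeff (α c) g else 0 := by
  induction L using Finset.induction_on generalizing α with
  | empty =>
    rw [Finset.prod_empty, Finset.prod_empty, MvPowerSeries.coeff_one]
    refine if_congr ⟨fun h c _ => by rw [h]; rfl, fun h => ?_⟩ rfl rfl
    ext c
    exact h c (Finset.notMem_empty c)
  | insert c L hc ih =>
    rw [Finset.prod_insert hc, Finset.prod_insert hc, MvPowerSeries.coeff_mul,
      Finset.sum_eq_single (Finsupp.single c (α c), α.erase c)]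
    · rw [i5emb_single, ih]
      have e1 : (∀ c', c' ∉ L → α.erase c c' = 0) ↔ ∀ c', c' ∉ insert c L → α c' = 0 := by
        constructor
        · intro h c' hc'
          rw [Finset.mem_insert, not_or] at hc'
          rw [← Finsupp.erase_ne hc'.1]
          exact h c' hc'.2
        · intro h c' hc'
          by_cases e : c' = c
          · rw [e, Finsupp.erase_same]
          · rw [Finsupp.erase_ne e]
            exact h c' fun h' => (Finset.mem_insert.1 h').elim e hc'
      have e2 : ∏ c' ∈ L, PowerSeries.coeff (α.erase c c') g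
          = ∏ c' ∈ L, PowerSeries.coeff (α c') g :=
        Finset.prod_congr rfl fun c' hc' => by
          rw [Finsupp.erase_ne (ne_of_mem_of_not_mem hc' hc)]
      rw [if_congr e1 e2 rfl, mul_ite, mul_zero]
    · rintro ⟨p, q⟩ hpq hne
      have hα : p + q = α := Finset.HasAntidiagonal.mem_antidiagonal.1 hpq
      by_cases hp : p = Finsupp.single c (p c)
      · rw [ih, if_neg, mul_zero]
        intro hq
        apply hne
        have h1 : q c = 0 := hq c hc
        have h2 : p c = α c := by rw [← hα, Finsupp.add_apply, h1, add_zero]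
        rw [h2] at hp
        refine Prod.ext hp ?_
        have h3 := Finsupp.single_add_erase c α
        rw [← hp, ← hα] at h3
        rw [← hα]
        exact (add_left_cancel h3).symm
      · rw [i5emb_zero c g hp, zero_mul]
    · intro h
      exact absurd (Finset.HasAntidiagonal.mem_antidiagonal.2 (Finsupp.single_add_erase c α)) h

theorem i5uni (b : Fin n → ℕ) {t : ℕ} (ht : ∑ k, b k ≤ t) :
    PowerSeries.coeff t ((PowerSeries.mk 1 : PowerSeries ℤ) ^ (n + 2) *
      ∏ k, (1 - PowerSeries.X ^ b k)) = hB b t := by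
  have e1 : (PowerSeries.mk 1 : PowerSeries ℤ) ^ (n + 2) * ∏ k, (1 - PowerSeries.X ^ b k)
      = (∏ k, ∑ i : Fin (b k), PowerSeries.X ^ (i : ℕ)) * PowerSeries.mk 1 ^ (1 + 1) := by
    have e2 : ∀ k, (∑ i : Fin (b k), PowerSeries.X ^ (i : ℕ) : PowerSeries ℤ)
        = PowerSeries.mk 1 * (1 - PowerSeries.X ^ b k) := fun k => by
      rw [← mul_neg_geom_sum, ← mul_assoc, PowerSeries.mk_one_mul_one_sub_eq_one, one_mul,
        Fin.sum_univ_eq_sum_range (fun i => (PowerSeries.X : PowerSeries ℤ) ^ i)]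
    simp only [e2, Finset.prod_mul_distrib, Finset.prod_const, Finset.card_univ, Fintype.card_fin]
    ring
  rw [e1, PowerSeries.mk_one_pow_eq_mk_choose_add, Finset.prod_univ_sum, Fintype.piFinset_univ,
    Finset.sum_mul, map_sum]
  have e3 : ∀ β : ∀ k, Fin (b k), PowerSeries.coeff t ((∏ k, PowerSeries.X ^ (β k : ℕ)) *
      (PowerSeries.mk fun m => ((1 + m).choose 1 : ℕ) : PowerSeries ℤ))
      = (t : ℤ) + (1 - ∑ k, ((β k : ℕ) : ℤ)) := fun β => by
    have h1 : ∑ k, (β k : ℕ) ≤ t := (Finset.sum_le_sum fun k _ => (β k).2.le).trans ht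
    rw [Finset.prod_pow_eq_pow_sum, PowerSeries.coeff_X_pow_mul', if_pos h1, PowerSeries.coeff_mk,
      Nat.choose_one_right]
    push_cast [h1]
    ring
  simp only [e3, Finset.sum_add_distrib, Finset.sum_const, Finset.card_univ, Fintype.card_pi,
    Fintype.card_fin, hB, dB, eB, nsmul_eq_mul, Nat.cast_prod]

omit [Fintype C] [DecidableEq C] in
theorem i5smul (r : MvPolynomial C ℤ) (H : MvPowerSeries C ℤ) :
    r • H = (r : MvPowerSeries C ℤ) * H := by
  rw [Algebra.smul_def]
  congr 1

omit [DecidableEq C] in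
theorem i5toF (s : C → ℤ) (c : C) : toF s c = (s c).toNat := rfl

theorem i5mono (b : Fin n → ℕ) (L : Finset C) {g : PowerSeries ℤ} {T : ℕ}
    (hg : ∀ t, T ≤ t → PowerSeries.coeff t g = hB b t) (μ : C →₀ ℕ) (a : ℤ) :
    Good b L fun s => MvPowerSeries.coeff (toF s)
      (MvPowerSeries.monomial μ a * ∏ c ∈ L, i5emb c g) := by
  by_cases hμ : ∀ c, c ∉ L → μ c = 0
  · have h1 := ((Good.prod_hB b L).shift (fun c => (μ c : ℤ))
      (fun c hc => by rw [hμ c hc]; rfl)).const_mul a
    refine h1.congr ((T + ∑ c, μ c : ℕ) : ℤ) fun s hs hs' => ?_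
    have h2 : ∀ c ∈ L, T + μ c ≤ (s c).toNat ∧ ((s c).toNat : ℤ) = s c := fun c hc => by
      have a1 := hs c hc
      have a2 : μ c ≤ ∑ c, μ c :=
        Finset.single_le_sum (f := fun c => μ c) (fun _ _ => Nat.zero_le _) (Finset.mem_univ c)
      omega
    have h3 : μ ≤ toF s := fun c => by
      by_cases hc : c ∈ L
      · have := (h2 c hc).1
        change μ c ≤ (s c).toNat
        omega
      · rw [hμ c hc]
        exact Nat.zero_le _
    rw [MvPowerSeries.coeff_monomial_mul, if_pos h3, i5prod, if_pos]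
    · congr 1
      refine Finset.prod_congr rfl fun c hc => ?_
      obtain ⟨a1, a2⟩ := h2 c hc
      rw [Finsupp.tsub_apply, i5toF, hg _ (by omega), Pi.sub_apply]
      congr 1
      omega
    · intro c hc
      rw [Finsupp.tsub_apply, i5toF, hs' c hc]
      simp
  · refine (Good.zero b L).congr 0 fun s _ hs' => ?_
    rw [MvPowerSeries.coeff_monomial_mul, if_neg]
    intro h
    refine hμ fun c hc => ?_
    have := h c
    rw [i5toF, hs' c hc] at this
    simpa using this

/-- Pure power series statement: `∏_k (1 - X^{b_k}) / (1 - X)^{n+2}` has coefficients `hB b t`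
for large `t`. -/
theorem good_of_series (b : Fin n → ℕ) (hb : ∀ k, 1 ≤ b k) (L : Finset C)
    {G : MvPowerSeries C ℤ} {γ : MvPolynomial C ℤ}
    (h : (∏ c ∈ L, (1 - X c : MvPolynomial C ℤ) ^ (n + 2)) • G =
      ((∏ c ∈ L, ∏ k, (1 - X c ^ b k)) * γ : MvPolynomial C ℤ)) :
    Good b L fun s => MvPowerSeries.coeff (toF s) G := by
  have hP : (∏ c ∈ L, i5emb c (PowerSeries.mk 1 ^ (n + 2))) *
      ((∏ c ∈ L, (1 - X c : MvPolynomial C ℤ) ^ (n + 2) : MvPolynomial C ℤ) : MvPowerSeries C ℤ)
      = 1 := by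
    rw [← MvPolynomial.coeToMvPowerSeries.ringHom_apply, map_prod, ← Finset.prod_mul_distrib]
    refine Finset.prod_eq_one fun c _ => ?_
    rw [map_pow, map_pow, map_sub, map_one, MvPolynomial.coeToMvPowerSeries.ringHom_apply,
      MvPolynomial.coe_X, ← i5emb_X, ← map_one (i5emb c), ← map_sub, ← mul_pow, ← map_mul,
      PowerSeries.mk_one_mul_one_sub_eq_one, map_one, one_pow]
  have hQ : (∏ c ∈ L, i5emb c (PowerSeries.mk 1 ^ (n + 2))) *
      ((∏ c ∈ L, ∏ k, (1 - X c ^ b k) : MvPolynomial C ℤ) : MvPowerSeries C ℤ)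
      = ∏ c ∈ L, i5emb c (PowerSeries.mk 1 ^ (n + 2) * ∏ k, (1 - PowerSeries.X ^ b k)) := by
    rw [← MvPolynomial.coeToMvPowerSeries.ringHom_apply, map_prod, ← Finset.prod_mul_distrib]
    refine Finset.prod_congr rfl fun c _ => ?_
    simp only [map_mul, map_prod, map_sub, map_one, map_pow, i5emb_X,
      MvPolynomial.coeToMvPowerSeries.ringHom_apply, MvPolynomial.coe_X]
  have hG : G = ∑ μ ∈ γ.support, MvPowerSeries.monomial μ (coeff μ γ) *
      ∏ c ∈ L, i5emb c (PowerSeries.mk 1 ^ (n + 2) * ∏ k, (1 - PowerSeries.X ^ b k)) := by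
    have e : (γ : MvPowerSeries C ℤ) = ∑ μ ∈ γ.support, MvPowerSeries.monomial μ (coeff μ γ) := by
      conv_lhs => rw [γ.as_sum]
      rw [← MvPolynomial.coeToMvPowerSeries.ringHom_apply, map_sum]
      simp only [MvPolynomial.coeToMvPowerSeries.ringHom_apply, MvPolynomial.coe_monomial]
    rw [i5smul, MvPolynomial.coe_mul] at h
    rw [← Finset.sum_mul, ← e, ← hQ, mul_comm, mul_assoc, ← h, ← mul_assoc, hP, one_mul]
  simp only [hG, map_sum]
  exact Good.sum _ fun μ _ => i5mono b L (fun t ht => i5uni b ht) μ _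

variable {B : Type} [CommRing B] [IsDomain B] [IsNoetherianRing B]

/-- Series that vanish in large degrees. -/
noncomputable def i5Ev (L : Finset C) : Submodule (MvPolynomial C ℤ) (MvPowerSeries C ℤ) where
  carrier := {H | ∃ T : ℕ, ∀ α : C →₀ ℕ, (∀ c ∈ L, T ≤ α c) → MvPowerSeries.coeff α H = 0}
  add_mem' := by
    rintro H H' ⟨T, hT⟩ ⟨T', hT'⟩
    refine ⟨max T T', fun α hα => ?_⟩
    rw [map_add, hT α fun c hc => (le_max_left _ _).trans (hα c hc),
      hT' α fun c hc => (le_max_right _ _).trans (hα c hc), add_zero]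
  zero_mem' := ⟨0, fun _ _ => map_zero _⟩
  smul_mem' := by
    rintro r H ⟨T, hT⟩
    refine ⟨T + r.totalDegree, fun α hα => ?_⟩
    rw [i5smul, MvPowerSeries.coeff_mul]
    refine Finset.sum_eq_zero ?_
    rintro ⟨p, q⟩ hpq
    have h1 : p + q = α := Finset.HasAntidiagonal.mem_antidiagonal.1 hpq
    by_cases hp : p ∈ r.support
    · rw [hT q, mul_zero]
      intro c hc
      have h2 := hα c hc
      have h3 : p c ≤ r.totalDegree :=
        (monomial_le_degreeOf c hp).trans (degreeOf_le_totalDegree r c)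
      rw [← h1, Finsupp.add_apply] at h2
      omega
    · rw [MvPolynomial.coeff_coe, notMem_support_iff.1 hp, zero_mul]

/-- Saturation with respect to the nonzero constants. -/
def i5sat (𝔢 : Ideal (PA B n C)) : Ideal (PA B n C) where
  carrier := {x | ∃ b : B, b ≠ 0 ∧ MvPolynomial.C b * x ∈ 𝔢}
  add_mem' := by
    rintro x y ⟨b, hb, hx⟩ ⟨b', hb', hy⟩
    refine ⟨b * b', mul_ne_zero hb hb', ?_⟩
    have e : MvPolynomial.C (b * b') * (x + y) =
        MvPolynomial.C b' * (MvPolynomial.C b * x) + MvPolynomial.C b * (MvPolynomial.C b' * y) := by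
      rw [map_mul]
      ring
    rw [e]
    exact 𝔢.add_mem (𝔢.mul_mem_left _ hx) (𝔢.mul_mem_left _ hy)
  zero_mem' := ⟨1, one_ne_zero, by simp⟩
  smul_mem' := by
    rintro r x ⟨b, hb, hx⟩
    refine ⟨b, hb, ?_⟩
    rw [smul_eq_mul, mul_left_comm]
    exact 𝔢.mul_mem_left _ hx

omit [Fintype C] [DecidableEq C] [IsNoetherianRing B] in
theorem i5rad (R : RD B n C) {c : C} {𝔢 : Ideal (PA B n C)} (hrow : ∀ k, R.row (c, k) ∈ 𝔢)
    (huv : ∀ i, X (c, Sum.inl i) ∈ 𝔢) (v : Var n) : X (c, v) ∈ (i5sat 𝔢).radical := by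
  have hle : 𝔢 ≤ (i5sat 𝔢).radical := fun x hx =>
    Ideal.le_radical ⟨1, one_ne_zero, by simpa using hx⟩
  rcases v with i | k
  · exact hle (huv i)
  induction k using WellFoundedLT.induction with
  | ind k ih =>
    have h1 : rename (Prod.mk c) (R.A c k) ∈ (i5sat 𝔢).radical := by
      have h2 : R.A c k ∈ Ideal.span
          (X '' {v : Var n | X (c, v) ∈ (i5sat 𝔢).radical} : Set (PP B n)) := by
        rw [mem_ideal_span_X_image]
        intro m hm
        have hm0 : m ≠ 0 := by
          rintro rfl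
          have h3 := R.hom c k (mem_support_iff.1 hm)
          have h4 := R.hb k
          rw [map_zero] at h3
          omega
        obtain ⟨v, hv⟩ := Finsupp.support_nonempty_iff.2 hm0
        refine ⟨v, ?_, Finsupp.mem_support_iff.1 hv⟩
        rcases v with i | l
        · exact hle (huv i)
        · refine ih l (lt_of_not_ge fun hkl => R.supp c k l hkl ?_)
          exact (mem_vars_iff_mem_support _).2 ⟨m, hm, hv⟩
      have h5 : Ideal.span (X '' {v : Var n | X (c, v) ∈ (i5sat 𝔢).radical} : Set (PP B n)) ≤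
          (i5sat 𝔢).radical.comap (rename (Prod.mk c) : PP B n →ₐ[B] PA B n C) := by
        rw [Ideal.span_le]
        rintro _ ⟨v, hv, rfl⟩
        change rename (Prod.mk c) (X v) ∈ (i5sat 𝔢).radical
        rw [rename_X]
        exact hv
      exact h5 h2
    have h6 := Ideal.add_mem _ (hle (hrow k)) h1
    simp only [RD.row, map_sub, map_mul, map_pow, rename_C, rename_X, sub_add_cancel] at h6
    obtain ⟨m, b, hb, hm⟩ := h6
    refine ⟨R.b k * m, b * R.κ c k ^ m, mul_ne_zero hb (pow_ne_zero _ (R.hκ c k)), ?_⟩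
    rw [map_mul, map_pow, pow_mul, mul_assoc, ← mul_pow]
    exact hm

/-- Negligible series vanish in large degrees. -/
theorem negl_eventually (R : RD B n C) (L : Finset C) {S : Set (PA B n C)} (hS : R.rows L ⊆ S)
    {H : MvPowerSeries C ℤ} (hH : H ∈ Negl L S) :
    ∃ T : ℕ, ∀ α : C →₀ ℕ, (∀ c ∈ L, T ≤ α c) → MvPowerSeries.coeff α H = 0 := by
  have key : Negl L S ≤ i5Ev L := by
    refine iSup₂_le fun c hc => Submodule.span_le.2 ?_
    rintro _ ⟨𝔢, -, h𝔢, rfl⟩
    have h1 := i5rad R (c := c) (𝔢 := 𝔢) (fun k => h𝔢 (Or.inl (hS ⟨c, hc, k, rfl⟩))) fun i => by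
      fin_cases i
      · exact h𝔢 (Or.inr (Or.inl rfl))
      · exact h𝔢 (Or.inr (Or.inr rfl))
    choose N hN using h1
    refine ⟨∑ v, N v, fun α hα => coeff_HS_eq_zero fun μ hμ => ?_⟩
    have h2 : α c = ∑ v, μ (c, v) := by
      rw [← hμ, Finsupp.weight_apply, Finsupp.sum_fintype μ (fun i m => m • wt n C i) (fun _ => zero_smul _ _),
        Finsupp.finsetSum_apply, Fintype.sum_prod_type, Finset.sum_eq_single c]
      · simp [wt]
      · intro c' _ hc'
        simp [wt, Finsupp.single_eq_of_ne hc'.symm]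
      · simp
    obtain ⟨v, -, hv⟩ := Finset.exists_le_of_sum_le (s := Finset.univ) (f := N)
      (g := fun v => μ (c, v)) Finset.univ_nonempty (h2 ▸ hα c hc)
    have h3 : (monomial μ 1 : PA B n C)
        = monomial (μ - Finsupp.single (c, v) (N v)) 1 * X (c, v) ^ N v := by
      rw [X_pow_eq_monomial, monomial_mul, mul_one,
        tsub_add_cancel_of_le (Finsupp.single_le_iff.2 hv)]
    change monomial μ 1 ∈ i5sat 𝔢
    rw [h3]
    exact Ideal.mul_mem_left _ _ (hN v)
  exact key hH

theorem good_HS (R : RD B n C) (L : Finset C)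
    (h : HSpan (outV B n L ∪ R.rows L) ≤
      smulSub (∏ c ∈ L, ∏ k, (1 - X c ^ R.b k)) (HSpan (outV B n L)) ⊔
        Negl L (outV B n L ∪ R.rows L))
    {𝔠 : Ideal (PA B n C)} (h𝔠 : IsHom 𝔠) (hS : outV B n L ∪ R.rows L ⊆ 𝔠) :
    Good R.b L fun s => MvPowerSeries.coeff (toF s) (HS 𝔠) := by
  obtain ⟨_, ⟨H₀, hH₀, rfl⟩, N, hN, e⟩ := Submodule.mem_sup.1 (h (HS_mem h𝔠 hS))
  obtain ⟨γ, hγ⟩ := hilbert_serre L hH₀
  obtain ⟨T, hT⟩ := negl_eventually R L Set.subset_union_right hN
  have h1 := good_of_series R.b R.hb L (γ := γ)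
    (G := (∏ c ∈ L, ∏ k, (1 - X c ^ R.b k) : MvPolynomial C ℤ) • H₀) (by
      rw [smul_comm, hγ, i5smul, MvPolynomial.coe_mul])
  refine h1.congr T fun s hs _ => ?_
  rw [← e, map_add, hT (toF s) fun c hc => ?_, add_zero, LinearMap.lsmul_apply]
  have := hs c hc
  rw [i5toF]
  omega

end Crest.Agent.R181
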