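import Crest.Agent.R181.DDefs

/-!
# Row 181, geometric integrality: definitions.

`𝓟 = B[variables of all curves]`, multigraded by `C →₀ ℕ`; Hilbert series are computed with
ranks over the domain `B` (a polynomial ring in the parameters).
-/

set_option autoImplicit false

namespace Crest.Agent.R181

open Module MvPolynomial

/-- Polynomials in the variables of all curves. -/
abbrev PA (B : Type) [CommSemiring B] (n : ℕ) (C : Type) := MvPolynomial (C × Var n) B

section

variable {B : Type} [CommRing B] {n : ℕ} {C : Type}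

/-- The multidegree of a variable. -/
noncomputable def wt (n : ℕ) (C : Type) : C × Var n → (C →₀ ℕ) := fun v => Finsupp.single v.1 1

/-- Multihomogeneous polynomial. -/
abbrev IsH (p : PA B n C) (α : C →₀ ℕ) : Prop := IsWeightedHomogeneous (wt n C) p α

/-- Multihomogeneous ideal. -/
def IsHom (𝔠 : Ideal (PA B n C)) : Prop :=
  ∀ p ∈ 𝔠, ∀ α, weightedHomogeneousComponent (wt n C) α p ∈ 𝔠

/-- Hilbert series of the quotient. -/
noncomputable def HS (𝔠 : Ideal (PA B n C)) : MvPowerSeries C ℤ := fun α =>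
  (finrank B (weightedHomogeneousSubmodule B (wt n C) α) : ℤ) -
    finrank B ↥(weightedHomogeneousSubmodule B (wt n C) α ⊓ 𝔠.restrictScalars B)

/-- The monomial `z ^ α`. -/
noncomputable def zz (α : C →₀ ℕ) : MvPolynomial C ℤ := monomial α 1

/-- The span of the Hilbert series of the homogeneous ideals containing `S`. -/
noncomputable def HSpan (S : Set (PA B n C)) :
    Submodule (MvPolynomial C ℤ) (MvPowerSeries C ℤ) :=
  Submodule.span _ {H | ∃ 𝔢 : Ideal (PA B n C), IsHom 𝔢 ∧ S ⊆ 𝔢 ∧ H = HS 𝔢}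

/-- Negligible series: those of ideals containing `u_c, v_c` for some `c ∈ L`. -/
noncomputable def Negl (L : Finset C) (S : Set (PA B n C)) :
    Submodule (MvPolynomial C ℤ) (MvPowerSeries C ℤ) :=
  ⨆ c ∈ L, HSpan (S ∪ {X (c, Sum.inl 0), X (c, Sum.inl 1)})

/-- `r • N`. -/
noncomputable def smulSub (r : MvPolynomial C ℤ)
    (N : Submodule (MvPolynomial C ℤ) (MvPowerSeries C ℤ)) :
    Submodule (MvPolynomial C ℤ) (MvPowerSeries C ℤ) :=
  N.map (LinearMap.lsmul (MvPolynomial C ℤ) (MvPowerSeries C ℤ) r)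

/-- The variables of the curves outside `L`. -/
def outV (B : Type) [CommRing B] (n : ℕ) (L : Finset C) : Set (PA B n C) :=
  {p | ∃ c v, c ∉ L ∧ p = X (c, v)}

/-- An integer degree vector as an exponent. -/
noncomputable def toF [Finite C] (s : C → ℤ) : C →₀ ℕ :=
  Finsupp.equivFunOnFinite.symm fun c => (s c).toNat

end

/-- Rows `κ w_k ^ b_k - A` with coefficients in `B`. -/
structure RD (B : Type) [CommRing B] (n : ℕ) (C : Type) where
  b : Fin n → ℕ
  hb : ∀ k, 1 ≤ b k
  κ : C → Fin n → B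
  hκ : ∀ c k, κ c k ≠ 0
  A : C → Fin n → PP B n
  hom : ∀ c k, (A c k).IsHomogeneous (b k)
  supp : ∀ c k l, k ≤ l → Sum.inr l ∉ (A c k).vars

namespace RD

variable {B : Type} [CommRing B] {n : ℕ} {C : Type} (R : RD B n C)

/-- The row `(c, k)`. -/
noncomputable def row (r : C × Fin n) : PA B n C :=
  rename (Prod.mk r.1) (MvPolynomial.C (R.κ r.1 r.2) * X (Sum.inr r.2) ^ R.b r.2 - R.A r.1 r.2)

/-- Its multidegree. -/
noncomputable def deg (r : C × Fin n) : C →₀ ℕ := Finsupp.single r.1 (R.b r.2)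

/-- The rows of the curves in `L`. -/
def rows (L : Finset C) : Set (PA B n C) := {p | ∃ c ∈ L, ∃ k, p = R.row (c, k)}

/-- The curves over the fraction field. -/
noncomputable def toCD (K : Type) [Field K] [Algebra B K] : CD K n C where
  b := R.b
  hb := R.hb
  A c k := MvPolynomial.C (algebraMap B K (R.κ c k))⁻¹ * map (algebraMap B K) (R.A c k)
  hom c k := by
    simpa using (isHomogeneous_C _ _).mul ((R.hom c k).map (algebraMap B K))
  supp c k l hl h := by
    classical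
    have h1 := vars_mul _ _ h
    rw [vars_C, Finset.empty_union] at h1
    exact R.supp c k l hl (vars_map _ _ h1)

end RD

section BPF

variable {Pa : Type} [DecidableEq Pa] {n : ℕ} {C : Type}

/-- Setting the parameters in `β` to zero. -/
noncomputable def kil (n : ℕ) (C : Type) (β : Finset Pa) :
    PA (MvPolynomial Pa ℂ) n C →+* PA (MvPolynomial Pa ℂ) n C :=
  map (aeval fun τ => if τ ∈ β then 0 else X τ :
    MvPolynomial Pa ℂ →ₐ[ℂ] MvPolynomial Pa ℂ).toRingHom

/-- `h + ∑_{τ ∈ β} τ g_τ`. -/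
noncomputable def aff (β : Finset Pa) (h : PA (MvPolynomial Pa ℂ) n C)
    (g : Pa → PA (MvPolynomial Pa ℂ) n C) : PA (MvPolynomial Pa ℂ) n C :=
  h + ∑ τ ∈ β, MvPolynomial.C (X τ) * g τ

/-- Base-point-freeness of the new row `Φ` on the locus cut out by `S`: `Φ` and the members of
`S` that involve the block `β` of parameters are affine-linear in `β`, and at every geometric
point the linear part of `Φ` is independent of the linear parts of the others. -/
def BPF (L : Finset C) (S : Set (PA (MvPolynomial Pa ℂ) n C)) (Φ : PA (MvPolynomial Pa ℂ) n C)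
    (α : C →₀ ℕ) : Prop :=
  ∃ (β : Finset Pa) (ι : Type) (_ : Fintype ι) (δ : ι → (C →₀ ℕ))
    (h : ι → PA (MvPolynomial Pa ℂ) n C) (g : ι → Pa → PA (MvPolynomial Pa ℂ) n C)
    (h₀ : PA (MvPolynomial Pa ℂ) n C) (g₀ : Pa → PA (MvPolynomial Pa ℂ) n C),
    (∀ x ∈ S, kil n C β x = x ∨ ∃ l, x = aff β (h l) (g l)) ∧ Φ = aff β h₀ g₀ ∧
    (∀ l, kil n C β (h l) = h l) ∧ (∀ l τ, kil n C β (g l τ) = g l τ ∧ IsH (g l τ) (δ l)) ∧
    kil n C β h₀ = h₀ ∧ (∀ τ, kil n C β (g₀ τ) = g₀ τ ∧ IsH (g₀ τ) α) ∧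
    ∀ (Ω : Type) [Field Ω] [IsAlgClosed Ω] (ψ : PA (MvPolynomial Pa ℂ) n C →+* Ω),
      (∀ b : MvPolynomial Pa ℂ, b ≠ 0 → kil n C β (MvPolynomial.C b) = MvPolynomial.C b →
        ψ (MvPolynomial.C b) ≠ 0) →
      (∀ x ∈ S, kil n C β x = x → ψ x = 0) →
      (∀ c ∈ L, ψ (X (c, Sum.inl 0)) ≠ 0 ∨ ψ (X (c, Sum.inl 1)) ≠ 0) →
      ∀ s : ι → Ω, ∃ τ ∈ β, ψ (g₀ τ) ≠ ∑ l, s l * ψ (g l τ)

end BPF

end Crest.Agent.R181
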