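import Crest.Agent.R181.K2

/-! # Row 181, K11: comparing the Koszul complexes on `y` and on `x`. -/

set_option autoImplicit false

namespace Crest.Agent.R181

open Module

variable {D : Type} [DivisionRing D] [CharZero D] {n : ℕ}

section Aux
omit [CharZero D]

theorem k11_const {k : PR D (Fin n)} (hk : k ∈ mon D (Mon Finset.univ 0)) :
    ∃ c, k = cst (Fin n) c := by
  refine ⟨k.coeff 0, ?_⟩
  ext μ
  rw [cst, AddMonoidAlgebra.coeff_single]
  rcases eq_or_ne μ 0 with rfl | h
  · simp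
  · rw [Finsupp.single_eq_of_ne h]
    exact AddMonoidAlgebra.mem_supported'.1 hk μ fun hμ => h ((Finsupp.degree_eq_zero_iff _).1 hμ.1)

theorem k11_cst_mem (c : D) : cst (Fin n) c ∈ mon D (Mon Finset.univ 0) := by
  refine AddMonoidAlgebra.mem_supported'.2 fun μ hμ => ?_
  rw [cst, AddMonoidAlgebra.coeff_single, Finsupp.single_eq_of_ne]
  rintro rfl
  exact hμ ⟨map_zero _, fun _ _ => rfl⟩

theorem k11_cst_mul (c : D) (w : PR D (Fin n)) : cst (Fin n) c * w = c • w := by
  ext μ
  simp [cst, AddMonoidAlgebra.coeff_single_zero_mul]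

theorem k11_single_mem {p : ℕ} {T : Finset (Fin n)} (hT : T.card = p) :
    (Pi.single T 1 : Finset (Fin n) → PR D (Fin n)) ∈
      ch Finset.univ p (mon D (Mon Finset.univ 0)) := by
  refine mem_ch.2 fun U => ⟨fun _ => ?_, fun h => Pi.single_eq_of_ne ?_ _⟩
  · rw [Pi.single_apply]
    split_ifs
    · exact k11_cst_mem 1
    · exact zero_mem _
  · rintro rfl
    exact h ⟨Finset.subset_univ _, hT⟩

/-- The Koszul differential of right multiplications is left linear. -/
noncomputable def k11d (y : Fin n → PR D (Fin n)) :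
    (Finset (Fin n) → PR D (Fin n)) →ₗ[PR D (Fin n)] (Finset (Fin n) → PR D (Fin n)) where
  toFun := kd Finset.univ fun j => LinearMap.mulRight D (y j)
  map_add' := map_add _
  map_smul' r f := by
    funext U
    simp only [kd_apply, RingHom.id_apply, Pi.smul_apply, smul_eq_mul, Finset.mul_sum,
      LinearMap.mulRight_apply]
    refine Finset.sum_congr rfl fun i _ => ?_
    split_ifs
    · rw [mul_zero]
    · rw [mul_smul_comm, mul_assoc]

theorem k11_expand (ψ : (Finset (Fin n) → PR D (Fin n)) →ₗ[PR D (Fin n)]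
    (Finset (Fin n) → PR D (Fin n))) (f : Finset (Fin n) → PR D (Fin n)) (U : Finset (Fin n)) :
    ψ f U = ∑ T, f T * ψ (Pi.single T 1) U := by
  conv_lhs => rw [pi_eq_sum_univ' f]
  simp only [map_sum, map_smul, Finset.sum_apply, Pi.smul_apply, smul_eq_mul]

theorem k11_ext {ψ ψ' : (Finset (Fin n) → PR D (Fin n)) →ₗ[PR D (Fin n)]
    (Finset (Fin n) → PR D (Fin n))} {p : ℕ}
    (h : ∀ T : Finset (Fin n), T.card = p → ψ (Pi.single T 1) = ψ' (Pi.single T 1))
    {f : Finset (Fin n) → PR D (Fin n)} (hf : f ∈ ch Finset.univ p (⊤ : Submodule D _)) :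
    ψ f = ψ' f := by
  funext U
  rw [k11_expand ψ, k11_expand ψ']
  refine Finset.sum_congr rfl fun T _ => ?_
  by_cases hT : T.card = p
  · rw [h T hT]
  · rw [(mem_ch.1 hf T).2 fun h => hT h.2, zero_mul, zero_mul]

theorem k11_maps {ψ : (Finset (Fin n) → PR D (Fin n)) →ₗ[PR D (Fin n)]
    (Finset (Fin n) → PR D (Fin n))} {p : ℕ}
    (h : ∀ T : Finset (Fin n), T.card = p →
      ψ (Pi.single T 1) ∈ ch Finset.univ p (mon D (Mon Finset.univ 0)))
    {W : Submodule D (PR D (Fin n))} (hW : ∀ w ∈ W, ∀ c : D, w * cst (Fin n) c ∈ W)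
    {f : Finset (Fin n) → PR D (Fin n)} (hf : f ∈ ch Finset.univ p W) :
    ψ f ∈ ch Finset.univ p W := by
  refine mem_ch.2 fun U => ⟨fun hU => ?_, fun hU => ?_⟩ <;> rw [k11_expand]
  · refine W.sum_mem fun T _ => ?_
    by_cases hT : T.card = p
    · obtain ⟨c, hc⟩ := k11_const ((mem_ch.1 (h T hT) U).1 hU)
      rw [hc]
      exact hW _ ((mem_ch.1 hf T).1 ⟨Finset.subset_univ _, hT⟩) c
    · rw [(mem_ch.1 hf T).2 fun h => hT h.2, zero_mul]
      exact zero_mem _
  · refine Finset.sum_eq_zero fun T _ => ?_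
    by_cases hT : T.card = p
    · rw [(mem_ch.1 (h T hT) U).2 hU, mul_zero]
    · rw [(mem_ch.1 hf T).2 fun h => hT h.2, zero_mul]

theorem k11_inj {ψ : (Finset (Fin n) → PR D (Fin n)) →ₗ[PR D (Fin n)]
    (Finset (Fin n) → PR D (Fin n))} {p : ℕ}
    (h : ∀ T : Finset (Fin n), T.card = p →
      ψ (Pi.single T 1) ∈ ch Finset.univ p (mon D (Mon Finset.univ 0)))
    (hi : ∀ f ∈ ch Finset.univ p (mon D (Mon Finset.univ 0)), ψ f = 0 → f = 0)
    {f : Finset (Fin n) → PR D (Fin n)} (hf : f ∈ ch Finset.univ p (⊤ : Submodule D _))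
    (h0 : ψ f = 0) : f = 0 := by
  funext T
  ext μ
  have h1 := hi (fun T => cst (Fin n) ((f T).coeff μ)) (mem_ch.2 fun T =>
    ⟨fun _ => k11_cst_mem _, fun hT => by simp [(mem_ch.1 hf T).2 hT, cst]⟩) (by
      funext U
      have h2 := congrArg (fun w : PR D (Fin n) => cst (Fin n) (w.coeff μ)) (congrFun h0 U)
      simp only [k11_expand ψ f, Pi.zero_apply, AddMonoidAlgebra.coeff_zero, Finsupp.zero_apply,
        cst, AddMonoidAlgebra.single_zero, AddMonoidAlgebra.coeff_sum,
        Finsupp.finset_sum_apply] at h2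
      rw [k11_expand, Pi.zero_apply, ← h2,
        ← AddMonoidAlgebra.singleAddHom_apply, map_sum]
      refine Finset.sum_congr rfl fun T _ => ?_
      by_cases hT : T.card = p
      · by_cases hU : U.card = p
        · obtain ⟨c, hc⟩ := k11_const ((mem_ch.1 (h T hT) U).1 ⟨Finset.subset_univ _, hU⟩)
          simp [hc, cst, AddMonoidAlgebra.single_mul_single, AddMonoidAlgebra.coeff_mul_single_zero]
        · simp [(mem_ch.1 (h T hT) U).2 fun h => hU h.2]
      · simp [(mem_ch.1 hf T).2 fun h => hT h.2, cst])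
  simpa [cst] using congrFun h1 T

theorem k11_d_inj {y : Fin n → PR D (Fin n)} (hind : LinearIndependent D y) {p : ℕ}
    {f : Finset (Fin n) → PR D (Fin n)}
    (hf : f ∈ ch Finset.univ (p + 1) (mon D (Mon Finset.univ 0))) (h0 : k11d y f = 0) : f = 0 := by
  have hc : ∀ T, ∃ c, f T = cst (Fin n) c := fun T => by
    by_cases hT : T.card = p + 1
    · exact k11_const ((mem_ch.1 hf T).1 ⟨Finset.subset_univ _, hT⟩)
    · exact ⟨0, by simp [(mem_ch.1 hf T).2 fun h => hT h.2, cst]⟩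
  choose c hc using hc
  funext T
  by_cases hT : T.card = p + 1
  · obtain ⟨i, hi⟩ : T.Nonempty := Finset.card_pos.1 (by omega)
    have h1 : kd Finset.univ (fun j => LinearMap.mulRight D (y j)) f (T.erase i) = 0 :=
      congrFun h0 _
    rw [kd_apply] at h1
    have h2 := Fintype.linearIndependent_iff.1 hind (fun j => if j ∈ T.erase i then 0 else
      sgn j (T.erase i) • c (insert j (T.erase i))) (by
        rw [← h1]
        refine Finset.sum_congr rfl fun j _ => ?_
        split_ifs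
        · rw [zero_smul]
        · rw [LinearMap.mulRight_apply, hc, k11_cst_mul, smul_assoc]) i
    rw [if_neg (Finset.notMem_erase i T), Finset.insert_erase hi] at h2
    have h3 : c T = 0 := by
      rcases neg_one_pow_eq_or ℤ ((T.erase i).filter (· < i)).card with h | h
      · rwa [sgn, h, one_smul] at h2
      · rwa [sgn, h, neg_smul, one_smul, neg_eq_zero] at h2
    simp [hc, h3, cst]
  · exact (mem_ch.1 hf T).2 fun h => hT h.2

theorem k11_d_mem (y : Fin n → PR D (Fin n)) {p : ℕ} {f : Finset (Fin n) → PR D (Fin n)}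
    (hf : f ∈ ch Finset.univ (p + 1) (⊤ : Submodule D _)) :
    k11d y f ∈ ch Finset.univ p (⊤ : Submodule D _) :=
  kd_mem_ch _ (fun _ _ _ _ => Submodule.mem_top) hf

end Aux

theorem k11_step {y : Fin n → PR D (Fin n)} (hy1 : ∀ j, y j ∈ mon D (Mon Finset.univ 1))
    (hind : LinearIndependent D y) {p : ℕ}
    {ψ : (Finset (Fin n) → PR D (Fin n)) →ₗ[PR D (Fin n)] (Finset (Fin n) → PR D (Fin n))}
    (h : ∀ T : Finset (Fin n), T.card = p →
      ψ (Pi.single T 1) ∈ ch Finset.univ p (mon D (Mon Finset.univ 0)))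
    (hi : ∀ f ∈ ch Finset.univ p (⊤ : Submodule D _), ψ f = 0 → f = 0)
    (hc : ∀ f ∈ ch Finset.univ (p + 1) (⊤ : Submodule D _), k11d (xv D) (ψ (k11d y f)) = 0) :
    ∃ ψ' : (Finset (Fin n) → PR D (Fin n)) →ₗ[PR D (Fin n)] (Finset (Fin n) → PR D (Fin n)),
      (∀ T : Finset (Fin n), T.card = p + 1 →
        ψ' (Pi.single T 1) ∈ ch Finset.univ (p + 1) (mon D (Mon Finset.univ 0))) ∧
      (∀ f ∈ ch Finset.univ (p + 1) (⊤ : Submodule D _), ψ' f = 0 → f = 0) ∧
      ∀ f ∈ ch Finset.univ (p + 1) (⊤ : Submodule D _), k11d (xv D) (ψ' f) = ψ (k11d y f) := by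
  have h1 : ∀ T : Finset (Fin n), ∃ g, T.card = p + 1 →
      g ∈ ch Finset.univ (p + 1) (mon D (Mon Finset.univ 0)) ∧
        k11d (xv D) g = ψ (k11d y (Pi.single T 1)) := fun T => by
    by_cases hT : T.card = p + 1
    · have h2 : k11d y (Pi.single T 1) ∈ ch Finset.univ p (mon D (Mon Finset.univ (0 + 1))) :=
        kd_mem_ch _ (fun j _ w hw => mul_mem_Mon hw (hy1 j)) (k11_single_mem hT)
      obtain ⟨g, hg, e⟩ := exact_kd Finset.univ p 0
        (k11_maps h (fun w hw c => mul_mem_Mon hw (k11_cst_mem c)) h2)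
        (hc _ (ch_mono _ _ le_top (k11_single_mem hT)))
      exact ⟨g, fun _ => ⟨hg, e⟩⟩
    · exact ⟨0, fun h => absurd h hT⟩
  choose g hg using h1
  have h2 : ∀ T, Fintype.linearCombination (PR D (Fin n)) g (Pi.single T 1) = g T := fun T => by
    simp
  have h3 : ∀ f ∈ ch Finset.univ (p + 1) (⊤ : Submodule D _),
      k11d (xv D) (Fintype.linearCombination (PR D (Fin n)) g f) = ψ (k11d y f) := fun f hf =>
    k11_ext (ψ := k11d (xv D) ∘ₗ Fintype.linearCombination (PR D (Fin n)) g) (ψ' := ψ ∘ₗ k11d y)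
      (fun T hT => by rw [LinearMap.comp_apply, h2, (hg T hT).2, LinearMap.comp_apply]) hf
  have h4 : ∀ T : Finset (Fin n), T.card = p + 1 →
      Fintype.linearCombination (PR D (Fin n)) g (Pi.single T 1) ∈
        ch Finset.univ (p + 1) (mon D (Mon Finset.univ 0)) := fun T hT => by
    rw [h2]
    exact (hg T hT).1
  refine ⟨_, h4, fun f hf => k11_inj h4 (fun f hf h0 => k11_d_inj hind hf ?_) hf, h3⟩
  have hf' := ch_mono _ _ le_top hf
  exact hi _ (k11_d_mem y hf') (by rw [← h3 f hf', h0, map_zero])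

theorem k11_exists {y : Fin n → PR D (Fin n)} (hy1 : ∀ j, y j ∈ mon D (Mon Finset.univ 1))
    (hyc : ∀ i j, y i * y j = y j * y i) (hind : LinearIndependent D y) (p : ℕ) :
    ∃ ψ : (Finset (Fin n) → PR D (Fin n)) →ₗ[PR D (Fin n)] (Finset (Fin n) → PR D (Fin n)),
      (∀ T : Finset (Fin n), T.card = p →
        ψ (Pi.single T 1) ∈ ch Finset.univ p (mon D (Mon Finset.univ 0))) ∧
      (∀ f ∈ ch Finset.univ p (⊤ : Submodule D _), ψ f = 0 → f = 0) ∧
      ∀ f ∈ ch Finset.univ (p + 1) (⊤ : Submodule D _), k11d (xv D) (ψ (k11d y f)) = 0 := by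
  induction p with
  | zero =>
    exact ⟨LinearMap.id, fun T hT => k11_single_mem hT, fun _ _ h => h,
      fun f hf => kd_ch_zero _ (k11_d_mem y hf)⟩
  | succ p ih =>
    obtain ⟨ψ, h1, h2, h3⟩ := ih
    obtain ⟨ψ', k1, k2, k3⟩ := k11_step hy1 hind h1 h2 h3
    refine ⟨ψ', k1, k2, fun f hf => ?_⟩
    have : k11d y (k11d y f) = 0 := kd_kd _ _ (fun i _ j _ x => by
      simp only [LinearMap.mulRight_apply, mul_assoc, hyc i j]) f
    rw [k3 _ (k11_d_mem y hf), this, map_zero]

/-- Build by induction on `p` matrices `m_p : Finset → Finset → D` such that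
`ψ_p f U = ∑_T f T * cst (m_p T U)` satisfies `d^x ψ_{p+1} = ψ_p d^y` on `ch univ (p+1) ⊤`, maps
`ch univ p ⊤` to itself, and is injective there. -/
theorem sg_change (y : Fin n → PR D (Fin n)) (hy1 : ∀ j, y j ∈ mon D (Mon Finset.univ 1))
    (hyc : ∀ i j, y i * y j = y j * y i) (hind : LinearIndependent D y)
    (W : Submodule D (PR D (Fin n))) [Module.Finite D W]
    (hW : ∀ w ∈ W, ∀ c : D, w * cst (Fin n) c ∈ W) (p : ℕ) :
    sg Finset.univ (fun j => LinearMap.mulRight D (y j)) p W ≤ sg Finset.univ (tx D) p W := by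
  cases p with
  | zero => rw [sg_zero]; exact Nat.zero_le _
  | succ p =>
    obtain ⟨ψ, h1, h2, h3⟩ := k11_exists hy1 hyc hind p
    obtain ⟨ψ', k1, -, k3⟩ := k11_step hy1 hind h1 h2 h3
    exact sg_le_of_chainMap _ _ _ _ W W (ψ'.restrictScalars D) (ψ.restrictScalars D)
      (fun f hf => k11_maps k1 hW hf) (fun f hf => (k3 f (ch_mono _ _ le_top hf)).symm)
      fun f hf => h2 _ (k11_d_mem y (ch_mono _ _ le_top hf))

end Crest.Agent.R181
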