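import Crest.Agent.R181.K1

/-! # Row 181, K12a: commuting linear forms whose left ideal has finite colength are a basis. -/

set_option autoImplicit false

namespace Crest.Agent.R181

open Module

variable {D : Type} [DivisionRing D] {n : ℕ}

/-- Monomials in commuting elements. -/
theorem k12a_exists_pow {R : Type} [Monoid R] (y : Fin n → R) (hyc : ∀ i j, y i * y j = y j * y i) :
    ∃ Y : (Fin n →₀ ℕ) → R, Y 0 = 1 ∧ ∀ μ j, Y (μ + Finsupp.single j 1) = Y μ * y j := by
  have comm : ∀ s : Multiset (Fin n), {x | x ∈ s.map y}.Pairwise Commute := by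
    intro s a ha b hb _
    obtain ⟨i, -, rfl⟩ := Multiset.mem_map.1 ha
    obtain ⟨j, -, rfl⟩ := Multiset.mem_map.1 hb
    exact hyc i j
  have key : ∀ (s t : Multiset R) (hs : {x | x ∈ s}.Pairwise Commute)
      (ht : {x | x ∈ t}.Pairwise Commute) (a : R), s = a ::ₘ t →
      s.noncommProd hs = t.noncommProd ht * a := by
    rintro _ t hs ht a rfl
    exact Multiset.noncommProd_cons' t a hs
  refine ⟨fun μ => ((Finsupp.toMultiset μ).map y).noncommProd (comm _), ?_, fun μ j => ?_⟩
  · exact Multiset.noncommProd_empty _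
  · refine key _ _ _ _ _ ?_
    rw [Finsupp.toMultiset_add, Finsupp.toMultiset_single, one_smul, add_comm,
      Multiset.singleton_add, Multiset.map_cons]

/-- The linear map with prescribed values on the monomials. -/
noncomputable def k12aLift (f : (Fin n →₀ ℕ) → PR D (Fin n)) : PR D (Fin n) →ₗ[D] PR D (Fin n) :=
  Finsupp.linearCombination D f ∘ₗ (AddMonoidAlgebra.coeffLinearEquiv D).toLinearMap

theorem k12aLift_single (f : (Fin n →₀ ℕ) → PR D (Fin n)) (μ : Fin n →₀ ℕ) (c : D) :
    k12aLift f (AddMonoidAlgebra.single μ c) = c • f μ := by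
  simp [k12aLift]

theorem k12a_single_mem {X : Set (Fin n →₀ ℕ)} {μ : Fin n →₀ ℕ} (h : μ ∈ X) (c : D) :
    (AddMonoidAlgebra.single μ c : PR D (Fin n)) ∈ mon D X := by
  rw [AddMonoidAlgebra.mem_supported, AddMonoidAlgebra.coeff_single]
  exact (Finset.coe_subset.2 Finsupp.support_single_subset).trans (by simpa using h)

theorem k12a_mem_Mon {μ : Fin n →₀ ℕ} {d : ℕ} : μ ∈ Mon Finset.univ d ↔ μ.degree = d := by
  simp [Mon]

theorem k12a_mon_le {X : Set (Fin n →₀ ℕ)} {W : Submodule D (PR D (Fin n))}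
    (h : ∀ μ ∈ X, (AddMonoidAlgebra.single μ (1 : D) : PR D (Fin n)) ∈ W) : mon D X ≤ W := by
  rw [mon, AddMonoidAlgebra.supported_eq_span_single, Submodule.span_le]
  rintro _ ⟨μ, hμ, rfl⟩
  exact h μ hμ

theorem k12a_one_mem : (1 : PR D (Fin n)) ∈ mon D (Mon Finset.univ 0) :=
  k12a_single_mem (k12a_mem_Mon.2 (map_zero _)) 1

theorem k12a_succ {μ : Fin n →₀ ℕ} {d : ℕ} (h : μ.degree = d + 1) :
    ∃ ν j, ν.degree = d ∧ μ = ν + Finsupp.single j 1 := by
  obtain ⟨g, hg, h1⟩ := Finsupp.exists_le_degree_eq μ 1 (by omega)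
  have h2 : g ∈ Set.range fun a : Fin n => Finsupp.single a 1 := by
    rw [Finsupp.range_single_one]
    exact h1
  obtain ⟨j, rfl⟩ := h2
  have h3 := tsub_add_cancel_of_le hg
  refine ⟨_, j, ?_, h3.symm⟩
  have h4 := congrArg Finsupp.degree h3
  rw [map_add, h1] at h4
  omega

/-- The homogeneous component of degree `d`. -/
noncomputable def k12aPi (d : ℕ) : PR D (Fin n) →ₗ[D] PR D (Fin n) :=
  k12aLift fun μ => if μ.degree = d then AddMonoidAlgebra.single μ 1 else 0

theorem k12aPi_single (d : ℕ) (μ : Fin n →₀ ℕ) (c : D) :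
    k12aPi d (AddMonoidAlgebra.single μ c) =
      if μ.degree = d then AddMonoidAlgebra.single μ c else 0 := by
  rw [k12aPi, k12aLift_single]
  split_ifs <;> simp

theorem k12aPi_mem (d : ℕ) (w : PR D (Fin n)) : k12aPi d w ∈ mon D (Mon Finset.univ d) := by
  induction w using AddMonoidAlgebra.induction_linear with
  | zero => simp
  | add a b ha hb => rw [map_add]; exact add_mem ha hb
  | single μ c =>
    rw [k12aPi_single]
    split_ifs with h
    · exact k12a_single_mem (k12a_mem_Mon.2 h) c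
    · exact zero_mem _

theorem k12aPi_of_mem (d : ℕ) {k : ℕ} {w : PR D (Fin n)} (hw : w ∈ mon D (Mon Finset.univ k)) :
    k12aPi d w = if k = d then w else 0 := by
  have h : mon D (Mon (Finset.univ : Finset (Fin n)) k) ≤
      LinearMap.eqLocus (k12aPi d) (if k = d then LinearMap.id else 0) := by
    refine k12a_mon_le fun μ hμ => ?_
    rw [LinearMap.mem_eqLocus, k12aPi_single, k12a_mem_Mon.1 hμ]
    split_ifs <;> rfl
  rw [LinearMap.mem_eqLocus.1 (h hw)]
  split_ifs <;> rfl

theorem k12aPi_coeff (w : PR D (Fin n)) (μ : Fin n →₀ ℕ) :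
    (k12aPi μ.degree w).coeff μ = w.coeff μ := by
  induction w using AddMonoidAlgebra.induction_linear with
  | zero => simp
  | add a b ha hb => simp [ha, hb]
  | single ν c =>
    rw [k12aPi_single]
    split_ifs with h
    · rfl
    · have : μ ≠ ν := fun e => h (by rw [e])
      simp [Finsupp.single_eq_of_ne this]

theorem k12aPi_mul (d : ℕ) (w : PR D (Fin n)) {z : PR D (Fin n)}
    (hz : z ∈ mon D (Mon Finset.univ 1)) : k12aPi (d + 1) (w * z) = k12aPi d w * z := by
  induction w using AddMonoidAlgebra.induction_linear with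
  | zero => simp
  | add a b ha hb => rw [add_mul, map_add, map_add, ha, hb, add_mul]
  | single μ c =>
    rw [k12aPi_of_mem _ (mul_mem_Mon (k12a_single_mem (k12a_mem_Mon.2 rfl) c) hz), k12aPi_single]
    by_cases h : μ.degree = d
    · rw [if_pos h, if_pos (by rw [h])]
    · rw [if_neg h, if_neg (by omega), zero_mul]

/-- Right multiplication by a linear combination. -/
theorem k12a_mul_span {d : ℕ} {s : Set (PR D (Fin n))} {W : Submodule D (PR D (Fin n))}
    (h : ∀ z ∈ s, ∀ w ∈ mon D (Mon Finset.univ d), w * z ∈ W) {z : PR D (Fin n)}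
    (hz : z ∈ Submodule.span D s) : ∀ w ∈ mon D (Mon Finset.univ d), w * z ∈ W := by
  induction hz using Submodule.span_induction with
  | mem z hz => exact h z hz
  | zero => intro w _; rw [mul_zero]; exact zero_mem _
  | add a b _ _ ha hb => intro w hw; rw [mul_add]; exact add_mem (ha w hw) (hb w hw)
  | smul c a _ ha =>
    intro w hw
    have h1 : w * (c • a) = w * (c • (1 : PR D (Fin n))) * a := by
      rw [mul_assoc, smul_mul_assoc, one_mul]
    rw [h1]
    exact ha _ (mul_mem_Mon (e := 0) hw (Submodule.smul_mem _ c k12a_one_mem))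

theorem k12a_card_Iic (b : Fin n →₀ ℕ) : (Finset.Iic b).card = ∏ i, (b i + 1) := by
  rw [Finsupp.card_Iic]
  simp only [Nat.card_Iic]
  refine Finset.prod_subset (Finset.subset_univ _) fun i _ hi => ?_
  rw [Finsupp.notMem_support_iff.1 hi, zero_add]

theorem k12a_pow_mem {y : Fin n → PR D (Fin n)} (hy1 : ∀ j, y j ∈ mon D (Mon Finset.univ 1))
    {Y : (Fin n →₀ ℕ) → PR D (Fin n)} (h0 : Y 0 = 1)
    (hY : ∀ μ j, Y (μ + Finsupp.single j 1) = Y μ * y j) (d : ℕ) :
    ∀ μ : Fin n →₀ ℕ, μ.degree = d → Y μ ∈ mon D (Mon Finset.univ d) := by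
  induction d with
  | zero =>
    intro μ hμ
    rw [(Finsupp.degree_eq_zero_iff μ).1 hμ, h0]
    exact k12a_one_mem
  | succ d ih =>
    intro μ hμ
    obtain ⟨ν, j, hν, rfl⟩ := k12a_succ hμ
    rw [hY]
    exact mul_mem_Mon (ih ν hν) (hy1 j)

/-- Growth argument: `𝒮_d` is spanned by the `x^g y^α`, `|g| < N`; a linear relation among the
`y_j` would eliminate one `y_j`, giving `dim 𝒮_d ≤ const · d^{n-2}`. -/
theorem indep_of_finite_colength (y : Fin n → PR D (Fin n))
    (hy1 : ∀ j, y j ∈ mon D (Mon Finset.univ 1)) (hyc : ∀ i j, y i * y j = y j * y i) (N : ℕ)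
    (hN : ∀ μ : Fin n →₀ ℕ, μ.degree = N →
      (AddMonoidAlgebra.single μ (1 : D) : PR D (Fin n)) ∈ Ideal.span (Set.range y)) :
    LinearIndependent D y := by
  classical
  rw [linearIndependent_iff_notMem_span]
  intro j₀ hj₀
  obtain ⟨Y, h0, hY⟩ := k12a_exists_pow y hyc
  let bN : Fin n →₀ ℕ := Finsupp.equivFunOnFinite.symm fun _ => N
  let bL : ℕ → Fin n →₀ ℕ := fun L =>
    Finsupp.equivFunOnFinite.symm fun j => if j = j₀ then 0 else L
  let F : (Fin n →₀ ℕ) × (Fin n →₀ ℕ) → PR D (Fin n) := fun p =>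
    AddMonoidAlgebra.single p.1 (1 : D) * Y p.2
  let T : ℕ → Submodule D (PR D (Fin n)) := fun L =>
    Submodule.span D ((Finset.Iic bN ×ˢ Finset.Iic (bL L)).image F : Set (PR D (Fin n)))
  have hmem : ∀ (L : ℕ) (g α : Fin n →₀ ℕ), (∀ i, g i ≤ N) → α j₀ = 0 → (∀ i, α i ≤ L) →
      F (g, α) ∈ T L := by
    intro L g α hg h1 h2
    refine Submodule.subset_span (Finset.mem_coe.2 (Finset.mem_image_of_mem F
      (Finset.mem_product.2 ⟨Finset.mem_Iic.2 hg, Finset.mem_Iic.2 fun i => ?_⟩)))
    change α i ≤ if i = j₀ then 0 else L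
    split_ifs with h
    · rw [h, h1]
    · exact h2 i
  have hle : ∀ (L : ℕ) (W : Submodule D (PR D (Fin n))),
      (∀ g α : Fin n →₀ ℕ, (∀ i, g i ≤ N) → α j₀ = 0 → (∀ i, α i ≤ L) → F (g, α) ∈ W) →
      T L ≤ W := by
    intro L W h
    refine Submodule.span_le.2 fun w hw => ?_
    obtain ⟨⟨g, α⟩, hp, rfl⟩ := Finset.mem_image.1 (Finset.mem_coe.1 hw)
    obtain ⟨h1, h2⟩ := Finset.mem_product.1 hp
    have h3 : ∀ i, α i ≤ if i = j₀ then 0 else L := Finset.mem_Iic.1 h2
    refine h g α (Finset.mem_Iic.1 h1) ?_ fun i => (h3 i).trans ?_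
    · simpa using h3 j₀
    · split_ifs <;> omega
  have hmono : ∀ {L L' : ℕ}, L ≤ L' → T L ≤ T L' := fun h =>
    hle _ _ fun g α h1 h2 h3 => hmem _ g α h1 h2 fun i => (h3 i).trans h
  have hstep : ∀ (L : ℕ) (j : Fin n), j ≠ j₀ → ∀ w ∈ T L, w * y j ∈ T (L + 1) := by
    intro L j hj
    refine hle L ((T (L + 1)).comap (LinearMap.mulRight D (y j))) fun g α h1 h2 h3 => ?_
    have h4 := hmem (L + 1) g (α + Finsupp.single j 1) h1
      (by rw [Finsupp.add_apply, h2, Finsupp.single_eq_of_ne hj.symm, add_zero])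
      (fun i => by
        have := h3 i
        rw [Finsupp.add_apply, Finsupp.single_apply]
        split_ifs <;> omega)
    simp only [F, hY, ← mul_assoc] at h4
    exact h4
  have hy : ∀ j, y j ∈ Submodule.span D (y '' (Set.univ \ {j₀})) := by
    intro j
    by_cases h : j = j₀
    · rw [h]; exact hj₀
    · exact Submodule.subset_span ⟨j, ⟨trivial, h⟩, rfl⟩
  have hS : ∀ d, mon D (Mon Finset.univ d) ≤ T d := by
    intro d
    induction d with
    | zero =>
      refine k12a_mon_le fun μ hμ => ?_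
      have h1 := hmem 0 0 0 (fun _ => Nat.zero_le _) rfl fun _ => le_rfl
      rw [(Finsupp.degree_eq_zero_iff μ).1 (k12a_mem_Mon.1 hμ)]
      simpa only [F, h0, mul_one] using h1
    | succ d ih =>
      refine k12a_mon_le fun μ hμ => ?_
      have hd := k12a_mem_Mon.1 hμ
      rcases le_total (d + 1) N with h | h
      · have h1 := hmem (d + 1) μ 0 (fun i => (Finsupp.le_degree i μ).trans (hd.trans_le h)) rfl
          fun _ => Nat.zero_le _
        simpa only [F, h0, mul_one] using h1
      · obtain ⟨g, hg, h1⟩ := Finsupp.exists_le_degree_eq μ N (by omega)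
        have h2 := Ideal.mul_mem_left _ (AddMonoidAlgebra.single (μ - g) (1 : D)) (hN g h1)
        rw [AddMonoidAlgebra.single_mul_single, tsub_add_cancel_of_le hg, one_mul] at h2
        obtain ⟨c, hc⟩ := (Submodule.mem_span_range_iff_exists_fun _).1 h2
        have h3 := congrArg (k12aPi (d + 1)) hc
        rw [k12aPi_single, if_pos hd, map_sum] at h3
        rw [← h3]
        refine Submodule.sum_mem _ fun j _ => ?_
        rw [smul_eq_mul, k12aPi_mul d _ (hy1 j)]
        refine k12a_mul_span ?_ (hy j) _ (k12aPi_mem d _)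
        rintro _ ⟨i, hi, rfl⟩ w hw
        exact hstep d i hi.2 w (ih hw)
  obtain ⟨k, rfl⟩ : ∃ k, n = k + 1 := ⟨n - 1, by have := j₀.pos; omega⟩
  set m := (N + 1) ^ (k + 1) * (k + 1) ^ k with hm
  let bm : Fin (k + 1) →₀ ℕ := Finsupp.equivFunOnFinite.symm fun _ => m
  have h1 : mon D (Finset.Iic bm : Set (Fin (k + 1) →₀ ℕ)) ≤ T ((k + 1) * m) := by
    refine k12a_mon_le fun μ hμ => hmono ?_ (hS _ (k12a_single_mem (k12a_mem_Mon.2 rfl) 1))
    have h2 : ∀ i, μ i ≤ m := Finset.mem_Iic.1 (Finset.mem_coe.1 hμ)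
    rw [Finsupp.degree_eq_sum]
    simpa using Finset.sum_le_card_nsmul Finset.univ μ m fun i _ => h2 i
  have : Module.Finite D (T ((k + 1) * m)) := Module.Finite.span_finset _ _
  have h2 := (Submodule.finrank_mono h1).trans
    ((finrank_span_finset_le_card _).trans Finset.card_image_le)
  rw [finrank_mon (Finset.finite_toSet _), Set.ncard_coe_finset, Finset.card_product,
    k12a_card_Iic, k12a_card_Iic, k12a_card_Iic] at h2
  have e1 : ∏ i, (bm i + 1) = (m + 1) ^ (k + 1) := by simp [bm]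
  have e2 : ∏ i, (bN i + 1) = (N + 1) ^ (k + 1) := by simp [bN]
  have e3 : ∏ i, (bL ((k + 1) * m) i + 1) = ((k + 1) * m + 1) ^ k := by
    rw [Fin.prod_univ_succAbove _ j₀]
    simp [bL]
  rw [e1, e2, e3] at h2
  have h3 : ((k + 1) * m + 1) ^ k ≤ (k + 1) ^ k * (m + 1) ^ k := by
    rw [← mul_pow]
    exact Nat.pow_le_pow_left (by nlinarith) k
  have h4 := h2.trans (Nat.mul_le_mul_left _ h3)
  rw [← mul_assoc, ← hm, pow_succ'] at h4
  have h5 := Nat.le_of_mul_le_mul_right h4 (by positivity)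
  omega

/-- `Θ (c x^α) = c y^α`. -/
theorem exists_theta (y : Fin n → PR D (Fin n))
    (hy1 : ∀ j, y j ∈ mon D (Mon Finset.univ 1)) (hyc : ∀ i j, y i * y j = y j * y i)
    (hind : LinearIndependent D y) :
    ∃ Θ : PR D (Fin n) ≃ₗ[D] PR D (Fin n), Θ 1 = 1 ∧ (∀ w j, Θ (w * xv D j) = Θ w * y j) ∧
      ∀ d, (mon D (Mon Finset.univ d)).map (Θ : PR D (Fin n) →ₗ[D] PR D (Fin n)) =
        mon D (Mon Finset.univ d) := by
  obtain ⟨Y, h0, hY⟩ := k12a_exists_pow y hyc
  have hYm := k12a_pow_mem hy1 h0 hY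
  have h1 : k12aLift Y 1 = 1 := by
    rw [AddMonoidAlgebra.one_def, k12aLift_single, h0, one_smul]
    rfl
  have h2 : ∀ w j, k12aLift Y (w * xv D j) = k12aLift Y w * y j := by
    intro w j
    induction w using AddMonoidAlgebra.induction_linear with
    | zero => simp
    | add a b ha hb => rw [add_mul, map_add, map_add, ha, hb, add_mul]
    | single μ c =>
      rw [xv, AddMonoidAlgebra.single_mul_single, mul_one, k12aLift_single, k12aLift_single, hY,
        smul_mul_assoc]
  have h3 : ∀ d, ∀ w ∈ mon D (Mon Finset.univ d), k12aLift Y w ∈ mon D (Mon Finset.univ d) := by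
    intro d
    refine k12a_mon_le (W := (mon D (Mon Finset.univ d)).comap (k12aLift Y)) fun μ hμ => ?_
    rw [Submodule.mem_comap, k12aLift_single, one_smul]
    exact hYm d μ (k12a_mem_Mon.1 hμ)
  have : ∀ d, Module.Finite D (mon D (Mon (Finset.univ : Finset (Fin n)) d)) := fun d =>
    mon_finite (Mon_finite _ d)
  have hx : ∀ j, xv D j ∈ mon D (Mon (Finset.univ : Finset (Fin n)) 1) := fun j =>
    k12a_single_mem (k12a_mem_Mon.2 (Finsupp.degree_single j 1)) 1
  have h4 : Submodule.span D (Set.range y) = mon D (Mon Finset.univ 1) := by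
    refine Submodule.eq_of_le_of_finrank_le (Submodule.span_le.2 ?_) ?_
    · rintro _ ⟨j, rfl⟩
      exact hy1 j
    · rw [finrank_span_eq_card hind]
      have h5 : mon D (Mon Finset.univ 1) ≤ Submodule.span D (Set.range (xv D (σ := Fin n))) := by
        refine k12a_mon_le fun μ hμ => Submodule.subset_span ?_
        obtain ⟨ν, j, hν, rfl⟩ := k12a_succ (d := 0) (k12a_mem_Mon.1 hμ)
        rw [(Finsupp.degree_eq_zero_iff ν).1 hν, zero_add]
        exact ⟨j, rfl⟩
      have : Module.Finite D (Submodule.span D (Set.range (xv D (σ := Fin n)))) :=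
        Module.Finite.span_of_finite _ (Set.finite_range _)
      exact (Submodule.finrank_mono h5).trans (finrank_range_le_card _)
  have h5 : ∀ d, mon D (Mon Finset.univ d) ≤ (mon D (Mon Finset.univ d)).map (k12aLift Y) := by
    intro d
    induction d with
    | zero =>
      refine k12a_mon_le fun μ hμ => ?_
      rw [(Finsupp.degree_eq_zero_iff μ).1 (k12a_mem_Mon.1 hμ)]
      exact ⟨1, k12a_one_mem, h1⟩
    | succ d ih =>
      refine k12a_mon_le fun μ hμ => ?_
      obtain ⟨ν, j, hν, rfl⟩ := k12a_succ (k12a_mem_Mon.1 hμ)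
      have h6 := k12a_mul_span (d := d) (s := Set.range y)
        (W := (mon D (Mon Finset.univ (d + 1))).map (k12aLift Y)) (by
          rintro _ ⟨i, rfl⟩ w hw
          obtain ⟨w', hw', rfl⟩ := ih hw
          exact ⟨w' * xv D i, mul_mem_Mon hw' (hx i), h2 w' i⟩) (h4 ▸ hx j) _
        (k12a_single_mem (k12a_mem_Mon.2 hν) 1)
      rwa [xv, AddMonoidAlgebra.single_mul_single, mul_one] at h6
  have h6 : ∀ d w, k12aPi d (k12aLift Y w) = k12aLift Y (k12aPi d w) := by
    intro d w
    induction w using AddMonoidAlgebra.induction_linear with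
    | zero => simp
    | add a b ha hb => simp only [map_add, ha, hb]
    | single μ c =>
      rw [k12aPi_of_mem d (h3 _ _ (k12a_single_mem (k12a_mem_Mon.2 rfl) c)), k12aPi_single]
      split_ifs
      · rfl
      · rw [map_zero]
  have h7 : Function.Injective (k12aLift Y) := by
    rw [injective_iff_map_eq_zero]
    intro w hw
    refine AddMonoidAlgebra.coeff_injective (Finsupp.ext fun μ => ?_)
    have hs : Function.Surjective ((k12aLift Y).restrict (h3 μ.degree)) := by
      rintro ⟨z, hz⟩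
      obtain ⟨z', hz', rfl⟩ := h5 _ hz
      exact ⟨⟨z', hz'⟩, rfl⟩
    have h8 := (injective_iff_map_eq_zero _).1 (LinearMap.injective_iff_surjective.2 hs)
      ⟨_, k12aPi_mem μ.degree w⟩ (Subtype.ext (by
        change k12aLift Y (k12aPi μ.degree w) = 0
        rw [← h6, hw, map_zero]))
    have h9 : k12aPi μ.degree w = 0 := congrArg Subtype.val h8
    rw [← k12aPi_coeff, h9]
  have h8 : Function.Surjective (k12aLift Y) := by
    intro w
    induction w using AddMonoidAlgebra.induction_linear with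
    | zero => exact ⟨0, map_zero _⟩
    | add a b ha hb =>
      obtain ⟨a', rfl⟩ := ha
      obtain ⟨b', rfl⟩ := hb
      exact ⟨a' + b', map_add _ _ _⟩
    | single μ c =>
      obtain ⟨z, -, hz⟩ := h5 _ (k12a_single_mem (k12a_mem_Mon.2 (rfl : μ.degree = _)) c)
      exact ⟨z, hz⟩
  exact ⟨LinearEquiv.ofBijective (k12aLift Y) ⟨h7, h8⟩, h1, h2,
    fun d => le_antisymm (Submodule.map_le_iff_le_comap.2 (h3 d)) (h5 d)⟩

end Crest.Agent.R181
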