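import Crest.Agent.R181.K1

/-! # Row 181, K4: passing to initial monomials. -/

set_option autoImplicit false

namespace Crest.Agent.R181

open Module

variable {D : Type} [DivisionRing D] {n : ℕ} {Λ : Type} [LinearOrder Λ]

/-- Vectors with independent initial forms are independent. -/
theorem k4_indep {V J ι : Type} [AddCommGroup V] [Module D V] (c : J → V →ₗ[D] D)
    (hc : ∀ x, (∀ j, c j x = 0) → x = 0) (wt : J → Λ) (u v : ι → V) (l : ι → Λ)
    (h1 : ∀ i j, wt j < l i → c j (u i) = 0) (h2 : ∀ i j, wt j = l i → c j (u i) = c j (v i))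
    (h3 : ∀ i j, wt j ≠ l i → c j (v i) = 0) (hv : LinearIndependent D v) :
    LinearIndependent D u := by
  classical
  rw [linearIndependent_iff'] at hv ⊢
  intro s g hg
  by_contra hne
  push Not at hne
  obtain ⟨i1, hi1, hg1⟩ := hne
  obtain ⟨i0, hi0, hmin⟩ := (s.filter fun i => g i ≠ 0).exists_min_image l
    ⟨i1, Finset.mem_filter.2 ⟨hi1, hg1⟩⟩
  obtain ⟨hi0s, hg0⟩ := Finset.mem_filter.1 hi0
  refine hg0 (hv (s.filter fun i => l i = l i0) g (hc _ fun j => ?_) i0
    (Finset.mem_filter.2 ⟨hi0s, rfl⟩))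
  rw [map_sum]
  by_cases hj : wt j = l i0
  · have h4 := congrArg (c j) hg
    rw [map_sum, map_zero] at h4
    rw [Finset.sum_filter]
    refine (Finset.sum_congr rfl fun i hi => ?_).trans h4
    rw [map_smul, map_smul]
    split_ifs with h
    · rw [h2 i j (hj.trans h.symm)]
    · by_cases h5 : g i = 0
      · rw [h5, zero_smul]
      · rw [h1 i j, smul_zero]
        rw [hj]
        exact lt_of_le_of_ne (hmin i (Finset.mem_filter.2 ⟨hi, h5⟩)) (Ne.symm h)
  · refine Finset.sum_eq_zero fun i hi => ?_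
    rw [map_smul, h3 i j, smul_zero]
    rwa [(Finset.mem_filter.1 hi).2]

/-- The coefficient of a monomial as a linear form. -/
noncomputable def k4Co (D : Type) [DivisionRing D] {σ : Type} (μ : σ →₀ ℕ) : PR D σ →ₗ[D] D :=
  Finsupp.lapply μ ∘ₗ (AddMonoidAlgebra.coeffLinearEquiv D).toLinearMap

theorem k4Co_apply {σ : Type} (μ : σ →₀ ℕ) (w : PR D σ) : k4Co D μ w = w.coeff μ := rfl

theorem k4_monic {key : (Fin n →₀ ℕ) → Λ} {W : Submodule D (PR D (Fin n))} {α : Fin n →₀ ℕ}
    (h : α ∈ inS key W) : ∃ w ∈ W, w.coeff α = 1 ∧ ∀ ν, w.coeff ν ≠ 0 → key α ≤ key ν := by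
  obtain ⟨w, hw, h0, h1⟩ := h
  refine ⟨(w.coeff α)⁻¹ • w, W.smul_mem _ hw, ?_, fun ν hν => h1 ν fun e => hν ?_⟩
  · rw [AddMonoidAlgebra.coeff_smul_apply, smul_eq_mul, inv_mul_cancel₀ h0]
  · rw [AddMonoidAlgebra.coeff_smul_apply, e, smul_zero]

theorem k4_kd_coeff (s T U : Finset (Fin n)) (w : PR D (Fin n)) (μ : Fin n →₀ ℕ) :
    (kd s (tx D) (Pi.single T w) U).coeff μ =
      ∑ i ∈ s, if i ∉ U ∧ insert i U = T then sgn i U • (tx D i w).coeff μ else 0 := by
  rw [kd_apply, ← k4Co_apply, map_sum]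
  refine Finset.sum_congr rfl fun i _ => ?_
  by_cases h : i ∈ U
  · simp [h]
  · by_cases h' : insert i U = T
    · rw [if_neg h, if_pos ⟨h, h'⟩, h', Pi.single_eq_same, map_zsmul, k4Co_apply]
    · rw [if_neg h, if_neg (fun e => h' e.2), Pi.single_eq_of_ne h', map_zero, smul_zero, map_zero]

theorem inS_subset (key : (Fin n →₀ ℕ) → Λ) {X : Set (Fin n →₀ ℕ)}
    {W : Submodule D (PR D (Fin n))} (hW : W ≤ mon D X) : inS key W ⊆ X := by
  rintro μ ⟨w, hw, h0, -⟩
  by_contra h
  exact h0 (AddMonoidAlgebra.mem_supported'.1 (hW hw) μ h)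

theorem ncard_inS (key : (Fin n →₀ ℕ) → Λ) (hinj : Function.Injective key)
    (W : Submodule D (PR D (Fin n))) [Module.Finite D W] : (inS key W).ncard = finrank D W := by
  classical
  choose w hwW hw1 hw2 using fun α : inS key W => k4_monic α.2
  have hv : LinearIndependent D fun α : inS key W =>
      (AddMonoidAlgebra.single α.1 1 : PR D (Fin n)) := by
    have := (AddMonoidAlgebra.basis (Fin n →₀ ℕ) D).linearIndependent.comp
      (Subtype.val : inS key W → _) Subtype.val_injective
    simpa [Function.comp_def] using this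
  have hu : LinearIndependent D w := by
    refine k4_indep (k4Co D) (fun x hx => ?_) key w _ (fun α => key α.1) (fun α μ h => ?_)
      (fun α μ h => ?_) (fun α μ h => ?_) hv
    · rw [← AddMonoidAlgebra.coeff_eq_zero]
      exact Finsupp.ext hx
    · by_contra h0
      exact absurd (hw2 α μ h0) (not_le.2 h)
    · rw [hinj h, k4Co_apply, k4Co_apply, hw1, AddMonoidAlgebra.coeff_single,
        Finsupp.single_eq_same]
    · rw [k4Co_apply, AddMonoidAlgebra.coeff_single, Finsupp.single_eq_of_ne]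
      exact fun e => h (congrArg key e)
  have hu' : LinearIndependent D fun α : inS key W => (⟨w α, hwW α⟩ : W) :=
    LinearIndependent.of_comp W.subtype hu
  have := hu'.finite
  have := Fintype.ofFinite (inS key W)
  rw [← Nat.card_coe_set_eq, Nat.card_eq_fintype_card]
  refine le_antisymm hu'.fintype_card_le_finrank ?_
  rw [← Module.finrank_fintype_fun_eq_card D]
  refine LinearMap.finrank_le_finrank_of_injective
    (f := LinearMap.pi fun α : inS key W => k4Co D α.1 ∘ₗ W.subtype) ?_
  rw [injective_iff_map_eq_zero]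
  intro x hx
  by_contra h0
  have hne : x.1.coeff.support.Nonempty := by
    rw [Finsupp.support_nonempty_iff, Ne, AddMonoidAlgebra.coeff_eq_zero]
    exact fun e => h0 (Subtype.ext e)
  obtain ⟨μ, hμ, hmin⟩ := x.1.coeff.support.exists_min_image key hne
  have hμ0 := Finsupp.mem_support_iff.1 hμ
  exact hμ0 (congrFun hx ⟨μ, x.1, x.2, hμ0, fun ν hν => hmin ν (Finsupp.mem_support_iff.2 hν)⟩)

/-- Semicontinuity of the rank: grade `C_p` by the multidegree `μ + e_T`; the differential
preserves it, and initial forms of independent initial forms are independent. -/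
theorem sg_inS_le (key : (Fin n →₀ ℕ) → Λ) (hinj : Function.Injective key)
    (hadd : ∀ μ ν lam, key μ ≤ key ν → key (μ + lam) ≤ key (ν + lam))
    (s : Finset (Fin n)) (p : ℕ) (W : Submodule D (PR D (Fin n))) [Module.Finite D W] :
    sg s (tx D) p (mon D (inS key W)) ≤ sg s (tx D) p W := by
  classical
  have := ch_finite s p W
  unfold sg
  rw [mon, AddMonoidAlgebra.supported_eq_span_single, ch_span, Submodule.map_span]
  obtain ⟨b, hb, hspan, hli⟩ := exists_linearIndependent D ((kd s (tx D)) ''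
    {f : Finset (Fin n) → PR D (Fin n) | ∃ T, T ⊆ s ∧ T.card = p ∧
      ∃ w ∈ (fun m => (AddMonoidAlgebra.single m 1 : PR D (Fin n))) '' inS key W,
        f = Pi.single T w})
  rw [← hspan]
  have hex : ∀ x : b, ∃ (T : Finset (Fin n)) (α : Fin n →₀ ℕ) (w : PR D (Fin n)),
      T ⊆ s ∧ T.card = p ∧ w ∈ W ∧ w.coeff α = 1 ∧ (∀ ν, w.coeff ν ≠ 0 → key α ≤ key ν) ∧
        x.1 = kd s (tx D) (Pi.single T (AddMonoidAlgebra.single α 1)) := by
    intro x
    obtain ⟨_, ⟨T, h1, h2, _, ⟨α, hα, rfl⟩, rfl⟩, h3⟩ := hb x.2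
    obtain ⟨w, h4, h5, h6⟩ := k4_monic hα
    exact ⟨T, α, w, h1, h2, h4, h5, h6, h3.symm⟩
  choose T α w hT hc hw hw1 hw2 hx using hex
  have hins : ∀ {i : Fin n} {U : Finset (Fin n)} (μ : Fin n →₀ ℕ), i ∉ U →
      μ + Finsupp.single i 1 + ∑ k ∈ U, Finsupp.single k 1 =
        μ + ∑ k ∈ insert i U, Finsupp.single k 1 := fun μ h => by
    rw [Finset.sum_insert h, add_assoc]
  have hu : LinearIndependent D fun x : b => kd s (tx D) (Pi.single (T x) (w x)) := by
    refine k4_indep
      (fun j : Finset (Fin n) × (Fin n →₀ ℕ) => k4Co D j.2 ∘ₗ LinearMap.proj j.1)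
      (fun y hy => ?_) (fun j => key (j.2 + ∑ k ∈ j.1, Finsupp.single k 1)) _ _
      (fun x => key (α x + ∑ k ∈ T x, Finsupp.single k 1)) (fun x j h => ?_) (fun x j h => ?_)
      (fun x j h => ?_) hli
    · funext U
      rw [Pi.zero_apply, ← AddMonoidAlgebra.coeff_eq_zero]
      exact Finsupp.ext fun μ => hy (U, μ)
    · rw [LinearMap.comp_apply, LinearMap.proj_apply, k4Co_apply, k4_kd_coeff]
      refine Finset.sum_eq_zero fun i _ => ?_
      split_ifs with hi
      · by_contra h0
        obtain ⟨μ, e, hμ⟩ := tx_coeff_ne_zero i (w x) j.2 fun e => h0 (by rw [e, smul_zero])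
        rw [e, hins μ hi.1, hi.2] at h
        exact absurd (hadd _ _ _ (hw2 x μ hμ)) (not_le.2 h)
      · rfl
    · rw [LinearMap.comp_apply, LinearMap.proj_apply, k4Co_apply, k4_kd_coeff,
        LinearMap.comp_apply, LinearMap.proj_apply, k4Co_apply, hx x, k4_kd_coeff]
      refine Finset.sum_congr rfl fun i _ => ?_
      split_ifs with hi
      · have e := hinj h
        rw [← hi.2, ← hins _ hi.1] at e
        rw [add_right_cancel e, tx_coeff_add, tx_coeff_add, hw1, AddMonoidAlgebra.coeff_single,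
          Finsupp.single_eq_same]
      · rfl
    · rw [LinearMap.comp_apply, LinearMap.proj_apply, k4Co_apply, hx x, k4_kd_coeff]
      refine Finset.sum_eq_zero fun i _ => ?_
      split_ifs with hi
      · by_contra h0
        obtain ⟨μ, e, hμ⟩ := tx_coeff_ne_zero i _ j.2 fun e => h0 (by rw [e, smul_zero])
        rw [AddMonoidAlgebra.coeff_single] at hμ
        have e2 : μ = α x := by
          by_contra h1
          exact hμ (Finsupp.single_eq_of_ne h1)
        exact h (by rw [e, hins μ hi.1, hi.2, e2])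
      · rfl
  have hmem : ∀ x : b, kd s (tx D) (Pi.single (T x) (w x)) ∈ (ch s p W).map (kd s (tx D)) := by
    intro x
    refine Submodule.mem_map_of_mem (mem_ch.2 fun U => ?_)
    by_cases e : U = T x
    · subst e
      rw [Pi.single_eq_same]
      exact ⟨fun _ => hw x, fun h => absurd ⟨hT x, hc x⟩ h⟩
    · rw [Pi.single_eq_of_ne e]
      exact ⟨fun _ => W.zero_mem, fun _ => rfl⟩
  have hu' : LinearIndependent D fun x : b => (⟨_, hmem x⟩ : (ch s p W).map (kd s (tx D))) :=
    LinearIndependent.of_comp ((ch s p W).map (kd s (tx D))).subtype hu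
  have := hu'.finite
  have := Fintype.ofFinite b
  rw [finrank_span_set_eq_card hli, Set.toFinset_card]
  exact hu'.fintype_card_le_finrank

end Crest.Agent.R181
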