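import Crest.Agent.R181.HDefs
import Crest.Agent.R181.K4
import Crest.Agent.R181.K10
import Crest.Agent.R181.K11
import Crest.Agent.R181.K12a
import Crest.Prelude.Def_LexPlusPowers

/-! # Row 181, K12: reduction to monomial sets containing the pure powers. -/

set_option autoImplicit false

namespace Crest.Agent.R181

open Module Crest.AlgebraR.LPP

section aux
variable {D : Type} [DivisionRing D] {n : ℕ}

theorem k12_single_mem (μ : Fin n →₀ ℕ) (c : D) :
    (AddMonoidAlgebra.single μ c : PR D (Fin n)) ∈ mon D (Mon Finset.univ μ.degree) := by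
  classical
  refine AddMonoidAlgebra.mem_supported'.2 fun m hm => ?_
  rw [AddMonoidAlgebra.coeff_single, Finsupp.single_apply, if_neg]
  rintro rfl
  exact hm ⟨rfl, fun i hi => absurd (Finset.mem_univ i) hi⟩

theorem k12_xv_pow (j : Fin n) (k : ℕ) :
    xv D j ^ k = AddMonoidAlgebra.single (Finsupp.single j k) 1 := by
  simp [xv, AddMonoidAlgebra.single_pow]

theorem k12_theta_pow {y : Fin n → PR D (Fin n)} (Θ : PR D (Fin n) ≃ₗ[D] PR D (Fin n))
    (h : ∀ w j, Θ (w * xv D j) = Θ w * y j) (w : PR D (Fin n)) (j : Fin n) (k : ℕ) :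
    Θ (w * xv D j ^ k) = Θ w * y j ^ k := by
  induction k with
  | zero => simp
  | succ k ih => rw [pow_succ, ← mul_assoc, h, ih, pow_succ, mul_assoc]

theorem k12_theta_mul {y : Fin n → PR D (Fin n)} (Θ : PR D (Fin n) ≃ₗ[D] PR D (Fin n))
    (h1 : Θ 1 = 1) (h : ∀ w j, Θ (w * xv D j) = Θ w * y j) (β : Fin n →₀ ℕ) (w : PR D (Fin n)) :
    Θ (w * AddMonoidAlgebra.single β 1) = Θ w * Θ (AddMonoidAlgebra.single β 1) := by
  induction β using Finsupp.induction_linear generalizing w with
  | zero => rw [← AddMonoidAlgebra.one_def, h1, mul_one, mul_one]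
  | add β β' hβ hβ' =>
    have e : (AddMonoidAlgebra.single (β + β') 1 : PR D (Fin n)) =
        AddMonoidAlgebra.single β 1 * AddMonoidAlgebra.single β' 1 := by
      rw [AddMonoidAlgebra.single_mul_single, one_mul]
    rw [e, ← mul_assoc, hβ', hβ, hβ', mul_assoc]
  | single j k =>
    have := k12_theta_pow Θ h 1 j k
    rw [one_mul, h1, one_mul] at this
    rw [← k12_xv_pow, k12_theta_pow Θ h, this]

theorem k12_colex {j l : Fin n} (hjl : j < l) (k : ℕ) (β : Fin n →₀ ℕ) (H : PR D (Fin n)) :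
    H * xv D l * AddMonoidAlgebra.single β 1 ∈
      mon D {ν | toColex (Finsupp.single j k + β) < toColex ν} := by
  refine AddMonoidAlgebra.mem_supported'.2 fun m hm => ?_
  rw [mul_assoc, xv, AddMonoidAlgebra.single_mul_single]
  refine AddMonoidAlgebra.coeff_mul_single_of_forall_add_ne _ _ ?_
  rintro η rfl
  refine hm ?_
  have h1 : toColex (Finsupp.single j k) < toColex (Finsupp.single l 1) := by
    refine ⟨l, fun i hi => ?_, ?_⟩
    · have hi' : l < i := hi
      change Finsupp.single j k i = Finsupp.single l 1 i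
      rw [Finsupp.single_eq_of_ne (hjl.trans hi').ne', Finsupp.single_eq_of_ne hi'.ne']
    · change Finsupp.single j k l < Finsupp.single l 1 l
      rw [Finsupp.single_eq_of_ne hjl.ne', Finsupp.single_eq_same]
      exact one_pos
  have h2 : toColex (Finsupp.single l 1 + β) ≤ toColex (η + (Finsupp.single l 1 + β)) :=
    Finsupp.toColex_monotone le_add_self
  exact (add_lt_add_left h1 (toColex β)).trans_le h2

variable [Algebra ℂ D]

theorem k12_mul_incl (I : Ideal (MvPolynomial (Fin n) ℂ)) {f : MvPolynomial (Fin n) ℂ} {a e d : ℕ}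
    (hf : f.IsHomogeneous a) (hfI : f ∈ I) (hd : e + a = d) {u : PR D (Fin n)}
    (hu : u ∈ mon D (Mon Finset.univ e)) : u * incl D (Fin n) f ∈ bc D (degreePiece I d) := by
  have : mon D (Mon (Finset.univ : Finset (Fin n)) e) ≤
      (bc D (degreePiece I d)).comap (LinearMap.mulRight D (incl D (Fin n) f)) := by
    rw [mon, AddMonoidAlgebra.supported_eq_span_single, Submodule.span_le]
    rintro _ ⟨m, hm, rfl⟩
    refine Submodule.subset_span ⟨MvPolynomial.monomial m 1 * f,
      ⟨hd ▸ (MvPolynomial.isHomogeneous_monomial 1 hm.1).mul hf, I.mul_mem_left _ hfI⟩, ?_⟩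
    rw [map_mul, ← MvPolynomial.single_eq_monomial, incl_single, map_one]
    rfl
  exact this hu

theorem k12_mem_span {a : Fin n → ℕ} (ha1 : ∀ i, 1 ≤ a i) {f : Fin n → MvPolynomial (Fin n) ℂ}
    {y : Fin n → PR D (Fin n)}
    (hH : ∀ j, ∃ (γ : D) (g h : Fin n → PR D (Fin n)), γ ≠ 0 ∧
      y j ^ a j = cst (Fin n) γ * incl D (Fin n) (f j) +
        ∑ i ∈ Finset.univ.filter (· < j), g i * incl D (Fin n) (f i) +
        ∑ l ∈ Finset.univ.filter (j < ·), h l * y l) (j : Fin n) :
    incl D (Fin n) (f j) ∈ Ideal.span (Set.range y) := by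
  induction j using WellFoundedLT.induction with
  | ind j ih =>
    obtain ⟨γ, g, h, hγ, e⟩ := hH j
    have hy : ∀ l, y l ∈ Ideal.span (Set.range y) := fun l => Ideal.subset_span ⟨l, rfl⟩
    have h1 : cst (Fin n) γ * incl D (Fin n) (f j) ∈ Ideal.span (Set.range y) := by
      rw [← sub_eq_iff_eq_add, ← sub_eq_iff_eq_add] at e
      rw [← e]
      refine Ideal.sub_mem _ (Ideal.sub_mem _ ?_ (Ideal.sum_mem _ fun l _ =>
        Ideal.mul_mem_left _ _ (hy l))) (Ideal.sum_mem _ fun i hi =>
          Ideal.mul_mem_left _ _ (ih i (Finset.mem_filter.1 hi).2))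
      obtain ⟨k, hk⟩ := Nat.exists_eq_add_of_le' (ha1 j)
      rw [hk, pow_succ]
      exact Ideal.mul_mem_left _ _ (hy j)
    have h2 := Ideal.mul_mem_left _ (cst (Fin n) γ⁻¹) h1
    rwa [← mul_assoc, cst, cst, AddMonoidAlgebra.single_mul_single, inv_mul_cancel₀ hγ, add_zero,
      ← AddMonoidAlgebra.one_def, one_mul] at h2

end aux

/-- Take `W = Θ⁻¹ (bc D I_d)` and `X = inS toColex W`. -/
theorem exists_PSet {n : ℕ} (a : Fin n → ℕ) (ha : Monotone a) (ha1 : ∀ i, 1 ≤ a i)
    (I : Ideal (MvPolynomial (Fin n) ℂ)) (f : Fin n → MvPolynomial (Fin n) ℂ)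
    (hf : ∀ i, (f i).IsHomogeneous (a i)) (hfI : ∀ i, f i ∈ I) (hA : Artin f) (hH : Hats a f)
    (d : ℕ) :
    ∃ X, PSet a Finset.univ d X ∧ X.ncard = finrank ℂ (degreePiece I d) ∧
      ∀ p, sg Finset.univ (tx ℂ) p (mon ℂ X) ≤ sg Finset.univ (tx ℂ) p (degreePiece I d) := by
  classical
  obtain ⟨D, _, _, y, hy1, hyc, hH⟩ := hH
  have : CharZero D := charZero_of_injective_algebraMap (algebraMap ℂ D).injective
  obtain ⟨N, hN⟩ := hA
  have hsp : Ideal.span (Set.range f) ≤ (Ideal.span (Set.range y)).comap (incl D (Fin n)) := by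
    rw [Ideal.span_le]
    rintro _ ⟨j, rfl⟩
    refine k12_mem_span ha1 (fun j => ?_) j
    obtain ⟨γ, g, h, h1, -, -, h2⟩ := hH j
    exact ⟨γ, g, h, h1, h2⟩
  have hind : LinearIndependent D y := indep_of_finite_colength y hy1 hyc N fun μ hμ => by
    have := Ideal.mem_comap.1 (hsp (hN μ hμ))
    rwa [← MvPolynomial.single_eq_monomial, incl_single, map_one] at this
  obtain ⟨Θ, hΘ1, hΘ, hΘd⟩ := exists_theta y hy1 hyc hind
  have hI : degreePiece I d ≤ mon ℂ (Mon Finset.univ d) := by
    rw [mon_Mon_univ]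
    exact inf_le_left
  have := finite_of_le_mon hI
  have hW0 : bc D (degreePiece I d) ≤ mon D (Mon Finset.univ d) := (bc_mono hI).trans (bc_mon _).le
  have := finite_of_le_mon hW0
  set W := (bc D (degreePiece I d)).comap (Θ : PR D (Fin n) →ₗ[D] PR D (Fin n)) with hWdef
  have hmap : W.map (Θ : PR D (Fin n) →ₗ[D] PR D (Fin n)) = bc D (degreePiece I d) :=
    Submodule.map_comap_eq_of_surjective Θ.surjective _
  have hW : W ≤ mon D (Mon Finset.univ d) := by
    rw [← Submodule.map_le_map_iff_of_injective (f := (Θ : PR D (Fin n) →ₗ[D] PR D (Fin n)))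
      Θ.injective, hmap, hΘd]
    exact hW0
  have := finite_of_le_mon hW
  have hX := inS_subset toColex hW
  refine ⟨inS toColex W, ⟨hX, ?_⟩, ?_, fun p => ?_⟩
  · rintro μ hμ ⟨j, hj⟩
    obtain ⟨γ, g, h, hγ, hg, -, e⟩ := hH j
    obtain ⟨β, rfl⟩ := exists_add_of_le (Finsupp.single_le_iff.2 hj)
    have hd : a j + β.degree = d := by
      rw [← hμ.1, map_add, Finsupp.degree_single]
    have hY : Θ (AddMonoidAlgebra.single β 1) ∈ mon D (Mon Finset.univ β.degree) := by
      rw [← hΘd]
      exact Submodule.mem_map_of_mem (k12_single_mem β 1)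
    set z := ∑ l ∈ Finset.univ.filter (j < ·), Θ.symm (h l) * xv D l with hz
    have hzZ : z * AddMonoidAlgebra.single β 1 ∈
        mon D {ν | toColex (Finsupp.single j (a j) + β) < toColex ν} := by
      rw [hz, Finset.sum_mul]
      exact Submodule.sum_mem _ fun l hl => k12_colex (Finset.mem_filter.1 hl).2 _ _ _
    have hzc := AddMonoidAlgebra.mem_supported'.1 hzZ
    have ew : (xv D j ^ a j - z) * AddMonoidAlgebra.single β 1 =
        AddMonoidAlgebra.single (Finsupp.single j (a j) + β) 1 -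
          z * AddMonoidAlgebra.single β 1 := by
      rw [sub_mul, k12_xv_pow, AddMonoidAlgebra.single_mul_single, one_mul]
    refine ⟨(xv D j ^ a j - z) * AddMonoidAlgebra.single β 1, ?_, ?_, fun ν hν => ?_⟩
    · have h1 := k12_theta_pow Θ hΘ 1 j (a j)
      rw [one_mul, hΘ1, one_mul] at h1
      have h2 : Θ z = ∑ l ∈ Finset.univ.filter (j < ·), h l * y l := by
        rw [hz, map_sum]
        exact Finset.sum_congr rfl fun l _ => by rw [hΘ, Θ.apply_symm_apply]
      change Θ _ ∈ bc D (degreePiece I d)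
      rw [k12_theta_mul Θ hΘ1 hΘ, map_sub, h1, h2, e, add_sub_cancel_right, add_mul,
        Finset.sum_mul]
      refine Submodule.add_mem _ ?_ (Submodule.sum_mem _ fun i hi => ?_)
      · rw [mul_assoc, incl_comm, ← mul_assoc]
        refine k12_mul_incl I (hf j) (hfI j) ?_ (mul_mem_Mon (k12_single_mem 0 γ) hY)
        rw [map_zero]
        omega
      · rw [mul_assoc, incl_comm, ← mul_assoc]
        refine k12_mul_incl I (hf i) (hfI i) ?_ (mul_mem_Mon (hg i) hY)
        have := ha (Finset.mem_filter.1 hi).2.le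
        omega
    · rw [ew, AddMonoidAlgebra.coeff_sub, Finsupp.sub_apply, hzc _ (by simp)]
      simp
    · by_contra hlt
      rw [ew, AddMonoidAlgebra.coeff_sub, Finsupp.sub_apply, hzc _ fun h' => hlt (le_of_lt h'),
        AddMonoidAlgebra.coeff_single, Finsupp.single_apply,
        if_neg fun h' => hlt (le_of_eq (congrArg _ h')), sub_zero] at hν
      exact hν rfl
  · rw [ncard_inS toColex toColex.injective W, ← finrank_bc (D := D), ← hmap,
      LinearEquiv.finrank_map_eq]
  · have := mon_finite (D := ℂ) ((Mon_finite _ _).subset hX)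
    rw [← sg_bc (D := D), ← sg_bc (D := D), bc_mon]
    refine (sg_inS_le toColex toColex.injective
      (fun μ ν lam h => add_le_add_left h (toColex lam)) _ p W).trans ?_
    rw [← sg_map Finset.univ (tx D) (fun j => LinearMap.mulRight D (y j))
      (Θ : PR D (Fin n) →ₗ[D] PR D (Fin n)) Θ.injective (fun i _ x => hΘ x i), hmap]
    exact sg_change y hy1 hyc hind _ (fun w hw c => bc_mul_cst _ hw c) p

end Crest.Agent.R181
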