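import Crest.Agent.R181.K1

/-! # Row 181, K5 (auxiliary): the distraction operator. -/

set_option autoImplicit false

namespace Crest.Agent.R181

open Module AddMonoidAlgebra

variable {n : ℕ}

theorem k5_map_mon {S : Set (Fin n →₀ ℕ)} {U : Submodule ℂ (PR ℂ (Fin n))}
    (L : PR ℂ (Fin n) →ₗ[ℂ] PR ℂ (Fin n)) (h : ∀ μ ∈ S, L (single μ 1) ∈ U) :
    (mon ℂ S).map L ≤ U := by
  rw [mon, supported_eq_span_single, Submodule.map_span, Submodule.span_le]
  rintro _ ⟨_, ⟨μ, hμ, rfl⟩, rfl⟩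
  exact h μ hμ

theorem k5_single_mem {S : Set (Fin n →₀ ℕ)} {μ : Fin n →₀ ℕ} (h : μ ∈ S) (c : ℂ) :
    single μ c ∈ mon ℂ S := by
  rw [mem_supported, coeff_single]
  exact (Finset.coe_subset.2 Finsupp.support_single_subset).trans (by simpa using h)

theorem k5_tx_mem {S T : Set (Fin n →₀ ℕ)} {i : Fin n}
    (h : ∀ μ ∈ S, μ + Finsupp.single i 1 ∈ T) {w : PR ℂ (Fin n)} (hw : w ∈ mon ℂ S) :
    tx ℂ i w ∈ mon ℂ T :=
  k5_map_mon (tx ℂ i) (fun μ hμ => by rw [tx_single]; exact k5_single_mem (h μ hμ) _) ⟨w, hw, rfl⟩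

theorem k5_cases (z : Fin n) (Q : (Fin n →₀ ℕ) → Prop) (h0 : ∀ μ, μ z = 0 → Q μ)
    (h1 : ∀ μ, Q μ → Q (μ + Finsupp.single z 1)) (μ : Fin n →₀ ℕ) : Q μ := by
  induction' hk : μ z with k ih generalizing μ
  · exact h0 μ hk
  · have e : μ = (μ - Finsupp.single z 1) + Finsupp.single z 1 :=
      (tsub_add_cancel_of_le (Finsupp.single_le_iff.2 (by omega))).symm
    rw [e]
    exact h1 _ (ih _ (by simp [hk]))

/-- The distraction `m z^k ↦ m ∏_{l<k} (z - ω^l x)`. -/
noncomputable def distr (ω : ℂ) (x z : Fin n) : PR ℂ (Fin n) →ₗ[ℂ] PR ℂ (Fin n) :=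
  (AddMonoidAlgebra.basis (Fin n →₀ ℕ) ℂ).constr ℂ fun μ =>
    single (μ.erase z) 1 * ∏ l ∈ Finset.range (μ z), (xv ℂ z - ω ^ l • xv ℂ x)

/-- The twist `μ ↦ ω^{μ z} μ`. -/
noncomputable def twist (ω : ℂ) (z : Fin n) : PR ℂ (Fin n) →ₗ[ℂ] PR ℂ (Fin n) :=
  (AddMonoidAlgebra.basis (Fin n →₀ ℕ) ℂ).constr ℂ fun μ => ω ^ μ z • single μ 1

variable (ω : ℂ) {x z : Fin n}

theorem distr_single (μ : Fin n →₀ ℕ) : distr ω x z (single μ 1) =
    single (μ.erase z) 1 * ∏ l ∈ Finset.range (μ z), (xv ℂ z - ω ^ l • xv ℂ x) :=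
  (AddMonoidAlgebra.basis (Fin n →₀ ℕ) ℂ).constr_basis ℂ _ μ

theorem twist_single (μ : Fin n →₀ ℕ) : twist ω z (single μ 1) = ω ^ μ z • single μ 1 :=
  (AddMonoidAlgebra.basis (Fin n →₀ ℕ) ℂ).constr_basis ℂ _ μ

theorem k5_ext {f g : PR ℂ (Fin n) →ₗ[ℂ] PR ℂ (Fin n)}
    (h : ∀ μ, f (single μ 1) = g (single μ 1)) (w : PR ℂ (Fin n)) : f w = g w :=
  LinearMap.congr_fun ((AddMonoidAlgebra.basis (Fin n →₀ ℕ) ℂ).ext h) w

theorem distr_zero {μ : Fin n →₀ ℕ} (h : μ z = 0) : distr ω x z (single μ 1) = single μ 1 := by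
  rw [distr_single, h, Finset.range_zero, Finset.prod_empty, mul_one,
    Finsupp.erase_of_notMem_support (by simpa using h)]

theorem distr_succ (μ : Fin n →₀ ℕ) : distr ω x z (single (μ + Finsupp.single z 1) 1) =
    tx ℂ z (distr ω x z (single μ 1)) - ω ^ μ z • tx ℂ x (distr ω x z (single μ 1)) := by
  rw [distr_single, distr_single, Finsupp.erase_add, Finsupp.erase_single, add_zero,
    Finsupp.add_apply, Finsupp.single_eq_same, Finset.prod_range_succ, ← mul_assoc, mul_sub,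
    mul_smul_comm]
  rfl

theorem distr_tx {i : Fin n} (hi : i ≠ z) (w : PR ℂ (Fin n)) :
    distr ω x z (tx ℂ i w) = tx ℂ i (distr ω x z w) := by
  refine k5_ext (f := distr ω x z ∘ₗ tx ℂ i) (g := tx ℂ i ∘ₗ distr ω x z) (fun μ => ?_) w
  rw [LinearMap.comp_apply, LinearMap.comp_apply, tx_single, distr_single, distr_single,
    Finsupp.erase_add, Finsupp.erase_single_ne hi.symm, Finsupp.add_apply,
    Finsupp.single_eq_of_ne hi.symm, add_zero, tx, LinearMap.mulRight_apply, mul_right_comm,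
    show xv ℂ i = single (Finsupp.single i 1) 1 from rfl, single_mul_single, mul_one]

theorem twist_tx {i : Fin n} (hi : i ≠ z) (w : PR ℂ (Fin n)) :
    twist ω z (tx ℂ i w) = tx ℂ i (twist ω z w) := by
  refine k5_ext (f := twist ω z ∘ₗ tx ℂ i) (g := tx ℂ i ∘ₗ twist ω z) (fun μ => ?_) w
  rw [LinearMap.comp_apply, LinearMap.comp_apply, tx_single, twist_single, twist_single, map_smul,
    tx_single, Finsupp.add_apply, Finsupp.single_eq_of_ne hi.symm, add_zero]

theorem distr_tz (hxz : x ≠ z) (w : PR ℂ (Fin n)) :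
    distr ω x z ((tx ℂ z + tx ℂ x ∘ₗ twist ω z) w) = tx ℂ z (distr ω x z w) := by
  refine k5_ext (f := distr ω x z ∘ₗ (tx ℂ z + tx ℂ x ∘ₗ twist ω z))
    (g := tx ℂ z ∘ₗ distr ω x z) (fun μ => ?_) w
  rw [LinearMap.comp_apply, LinearMap.comp_apply, LinearMap.add_apply, LinearMap.comp_apply,
    twist_single, map_add, map_smul, map_smul, distr_tx ω hxz, tx_single, distr_succ,
    sub_add_cancel]

theorem distr_tri (hxz : x ≠ z) (μ : Fin n →₀ ℕ) :
    ∀ lam, (distr ω x z (single μ 1)).coeff lam ≠ 0 → lam = μ ∨ lam z < μ z := by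
  induction μ using k5_cases z with
  | h0 μ h =>
    intro lam hl
    rw [distr_zero ω h, coeff_single] at hl
    exact Or.inl (Finsupp.single_apply_ne_zero.1 hl).1
  | h1 μ ih =>
    intro lam hl
    rw [distr_succ, coeff_sub, coeff_smul, Finsupp.sub_apply, Finsupp.smul_apply] at hl
    by_cases h1 : (tx ℂ z (distr ω x z (single μ 1))).coeff lam = 0
    · have h2 : (tx ℂ x (distr ω x z (single μ 1))).coeff lam ≠ 0 := fun h2 =>
        hl (by rw [h1, h2, smul_zero, sub_zero])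
      obtain ⟨κ, rfl, hκ⟩ := tx_coeff_ne_zero _ _ _ h2
      right
      simp only [Finsupp.add_apply, Finsupp.single_eq_same, Finsupp.single_eq_of_ne hxz.symm]
      rcases ih κ hκ with rfl | h <;> omega
    · obtain ⟨κ, rfl, hκ⟩ := tx_coeff_ne_zero _ _ _ h1
      rcases ih κ hκ with rfl | h
      · exact Or.inl rfl
      · right
        simpa using h

theorem distr_diag (hxz : x ≠ z) (μ : Fin n →₀ ℕ) : (distr ω x z (single μ 1)).coeff μ = 1 := by
  induction μ using k5_cases z with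
  | h0 μ h => rw [distr_zero ω h, coeff_single, Finsupp.single_eq_same]
  | h1 μ ih =>
    have h2 : (tx ℂ x (distr ω x z (single μ 1))).coeff (μ + Finsupp.single z 1) = 0 := by
      by_contra h2
      obtain ⟨κ, e, hκ⟩ := tx_coeff_ne_zero _ _ _ h2
      have e' := congrArg (fun f : Fin n →₀ ℕ => f z) e
      simp only [Finsupp.add_apply, Finsupp.single_eq_same, Finsupp.single_eq_of_ne hxz.symm] at e'
      rcases distr_tri ω hxz μ κ hκ with rfl | h <;> omega
    rw [distr_succ, coeff_sub, coeff_smul, Finsupp.sub_apply, Finsupp.smul_apply, tx_coeff_add, ih,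
      h2, smul_zero, sub_zero]

theorem distr_sub (hxz : x ≠ z) (ν : Fin n →₀ ℕ) :
    (distr ω x z (single (ν + Finsupp.single z 1) 1)).coeff (ν + Finsupp.single x 1) =
      -∑ l ∈ Finset.range (ν z + 1), ω ^ l := by
  induction ν using k5_cases z with
  | h0 ν h =>
    have h2 : (tx ℂ z (distr ω x z (single ν 1))).coeff (ν + Finsupp.single x 1) = 0 := by
      by_contra h2
      obtain ⟨κ, e, -⟩ := tx_coeff_ne_zero _ _ _ h2
      have e' := congrArg (fun f : Fin n →₀ ℕ => f z) e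
      simp only [Finsupp.add_apply, Finsupp.single_eq_same, Finsupp.single_eq_of_ne hxz.symm] at e'
      omega
    rw [distr_succ, coeff_sub, coeff_smul, Finsupp.sub_apply, Finsupp.smul_apply, tx_coeff_add,
      distr_diag ω hxz, h2, h]
    simp
  | h1 ν ih =>
    rw [distr_succ, coeff_sub, coeff_smul, Finsupp.sub_apply, Finsupp.smul_apply, tx_coeff_add,
      distr_diag ω hxz, add_right_comm ν, tx_coeff_add, ih, Finsupp.add_apply,
      Finsupp.single_eq_same, Finset.sum_range_succ _ (ν z + 1), smul_eq_mul, mul_one]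
    ring

theorem distr_injective (hxz : x ≠ z) : Function.Injective (distr ω x z) := by
  rw [← LinearMap.ker_eq_bot, LinearMap.ker_eq_bot']
  intro w hw
  by_contra h0
  obtain ⟨μ, hμ, hmax⟩ := w.coeff.support.exists_max_image (fun μ => μ z)
    (Finsupp.support_nonempty_iff.2 (fun h => h0 (coeff_eq_zero.1 h)))
  have h1 : w - w.coeff μ • single μ 1 ∈ mon ℂ {ν | ν ≠ μ ∧ ν z ≤ μ z} := by
    rw [mem_supported']
    intro ν hν
    rw [coeff_sub, coeff_smul, coeff_single, Finsupp.sub_apply, Finsupp.smul_apply]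
    by_cases h : ν = μ
    · rw [h]; simp
    · rw [Finsupp.single_eq_of_ne h, smul_zero, sub_zero]
      by_contra h'
      exact hν ⟨h, hmax ν (Finsupp.mem_support_iff.2 h')⟩
  have h2 : distr ω x z (w - w.coeff μ • single μ 1) ∈ mon ℂ {μ}ᶜ := by
    refine k5_map_mon _ (fun ν hν => ?_) ⟨_, h1, rfl⟩
    rw [mem_supported']
    intro κ hκ
    obtain rfl : κ = μ := by simpa using hκ
    by_contra h'
    rcases distr_tri ω hxz ν κ h' with h | h
    · exact hν.1 h.symm
    · exact h.not_ge hν.2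
  have h3 := mem_supported'.1 h2 μ (by simp)
  rw [map_sub, hw, map_smul, coeff_sub, coeff_smul, Finsupp.sub_apply, Finsupp.smul_apply,
    distr_diag ω hxz] at h3
  exact Finsupp.mem_support_iff.1 hμ (by simpa using h3)

theorem distr_Mon {s : Finset (Fin n)} (hx : x ∈ s) (μ : Fin n →₀ ℕ) :
    ∀ d, μ ∈ Mon s d → distr ω x z (single μ 1) ∈ mon ℂ (Mon s d) := by
  induction μ using k5_cases z with
  | h0 μ h => intro d hd; rw [distr_zero ω h]; exact k5_single_mem hd _
  | h1 μ ih =>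
    rintro d ⟨h1, h2⟩
    have hz : z ∈ s := by
      by_contra hz
      simpa using h2 z hz
    have h3 : μ ∈ Mon s μ.degree := ⟨rfl, fun i hi => by
      have := h2 i hi
      rw [Finsupp.add_apply] at this
      omega⟩
    rw [map_add, Finsupp.degree_single] at h1
    rw [distr_succ, ← h1]
    exact sub_mem (tx_mem_Mon hz (ih _ h3)) (Submodule.smul_mem _ _ (tx_mem_Mon hx (ih _ h3)))

theorem distr_pow {a : Fin n → ℕ} (ha : a x ≤ a z) (h0 : 0 < a z) (hω : IsPrimitiveRoot ω (a z))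
    (μ : Fin n →₀ ℕ) : (∃ i, a i ≤ μ i) → distr ω x z (single μ 1) ∈ mon ℂ {κ | ∃ i, a i ≤ κ i} := by
  induction μ using k5_cases z with
  | h0 μ h => intro hd; rw [distr_zero ω h]; exact k5_single_mem hd _
  | h1 μ ih =>
    rintro ⟨i, hi⟩
    by_cases h : ∃ i, a i ≤ μ i
    · have up : ∀ j : Fin n, ∀ κ ∈ {κ : Fin n →₀ ℕ | ∃ i, a i ≤ κ i},
          κ + Finsupp.single j 1 ∈ {κ : Fin n →₀ ℕ | ∃ i, a i ≤ κ i} :=
        fun j κ ⟨i, hi⟩ => ⟨i, hi.trans (Nat.le_add_right _ _)⟩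
      rw [distr_succ]
      exact sub_mem (k5_tx_mem (up z) (ih h)) (Submodule.smul_mem _ _ (k5_tx_mem (up x) (ih h)))
    · push Not at h
      have hiz : i = z := by
        by_contra hiz
        rw [Finsupp.add_apply, Finsupp.single_eq_of_ne hiz] at hi
        exact (h i).not_ge hi
      subst hiz
      have e : (μ + Finsupp.single i 1 : Fin n →₀ ℕ) i = a i := by
        have := h i
        rw [Finsupp.add_apply, Finsupp.single_eq_same] at hi ⊢
        omega
      have hp := congrArg (Polynomial.eval (xv ℂ i)) (X_pow_sub_C_eq_prod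
        (hω.map_of_injective (FaithfulSMul.algebraMap_injective ℂ (PR ℂ (Fin n)))) h0
        (rfl : xv ℂ x ^ a i = _))
      simp only [Polynomial.eval_sub, Polynomial.eval_pow, Polynomial.eval_X, Polynomial.eval_C,
        Polynomial.eval_prod, ← map_pow, ← Algebra.smul_def] at hp
      rw [distr_single, e, ← hp, xv, xv, single_pow, single_pow, mul_sub, single_mul_single,
        single_mul_single]
      refine sub_mem (k5_single_mem ?_ _) (k5_single_mem ?_ _)
      · exact ⟨i, by simp⟩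
      · exact ⟨x, ha.trans (by simp)⟩

end Crest.Agent.R181
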