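import Crest.Agent.R181.K1

/-! # Row 181, K5a: a homotopy lemma.  With `N = Ω ε_x ι_z` one has `N² = 0` and
`d (1 + N) = (1 + N) d'`. -/

set_option autoImplicit false

namespace Crest.Agent.R181

open Module

variable {D : Type} [DivisionRing D] {n : ℕ} {M : Type} [AddCommGroup M] [Module D M]

theorem sg_homotopy (s : Finset (Fin n)) (t t' : Fin n → M →ₗ[D] M) (Ω : M →ₗ[D] M)
    {x z : Fin n} (hx : x ∈ s) (hz : z ∈ s) (hxz : x ≠ z)
    (ht' : ∀ i, i ≠ z → t' i = t i) (htz : t' z = t z + t x ∘ₗ Ω)
    (hΩ : ∀ i ∈ s, i ≠ z → ∀ m, Ω (t i m) = t i (Ω m))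
    (W : Submodule D M) [Module.Finite D W] (hW : ∀ w ∈ W, Ω w ∈ W) (p : ℕ) :
    sg s t' p W ≤ sg s t p W := by
  let N : (Finset (Fin n) → M) →ₗ[D] (Finset (Fin n) → M) := lft Ω ∘ₗ wdg D M x ∘ₗ ctr D M z
  have hN : ∀ f, N f = lft Ω (wdg D M x (ctr D M z f)) := fun f => rfl
  have h0 : ∀ f, ctr D M z (N f) = 0 := by
    intro f
    have := ctr_wdg (D := D) z x (ctr D M z f)
    rw [if_neg hxz.symm, ctr_ctr_self, map_zero, add_zero] at this
    rw [hN, ← lft_ctr, this, map_zero]
  have hNN : ∀ f, N (N f) = 0 := fun f => by rw [hN, h0, map_zero, map_zero]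
  have key : ∀ f, ∀ i ∈ s, lft (t' i) (ctr D M i f) + N (lft (t' i) (ctr D M i f)) +
      (if i = x then lft (t x) (lft Ω (ctr D M z f)) else 0) =
      lft (t i) (ctr D M i (f + N f)) + if i = z then lft (t x) (lft Ω (ctr D M z f)) else 0 := by
    intro f i hi
    by_cases hiz : i = z
    · subst hiz
      rw [if_neg hxz.symm, if_pos rfl, map_add, h0, add_zero, add_zero, hN, ← lft_ctr, ctr_ctr_self,
        map_zero, map_zero, map_zero, add_zero, htz]
      rfl
    · have hc : ∀ g : Finset (Fin n) → M, lft Ω (lft (t i) g) = lft (t i) (lft Ω g) :=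
        fun g => funext fun U => hΩ i hi hiz _
      have h1 := eq_sub_of_add_eq (ctr_wdg (D := D) i x (ctr D M z f))
      rw [ht' i hiz, if_neg hiz, add_zero, map_add, map_add, hN, hN, ← lft_ctr, ← lft_wdg, hc,
        ← lft_ctr Ω i, h1, ctr_ctr i z, map_neg, sub_neg_eq_add, map_add, map_add]
      split_ifs with h
      · subst h; abel
      · simp
  refine sg_le_of_chainMap s t' t p W W (LinearMap.id + N) (LinearMap.id + N) ?_ ?_ ?_
  · intro f hf
    refine add_mem hf ?_
    cases p with
    | zero =>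
      have : ctr D M z f = 0 := by
        funext U
        rw [ctr_apply]
        split_ifs with h
        · rfl
        · rw [(mem_ch.1 hf _).2 (by simp), smul_zero]; rfl
      rw [hN, this, map_zero, map_zero]
      exact zero_mem _
    | succ p =>
      refine lft_mem_ch Ω hW (ch_subset ?_ _ _ (wdg_mem_ch x (ctr_mem_ch z hf)))
      exact Finset.insert_subset hx (Finset.erase_subset _ _)
  · intro f _
    have := Finset.sum_congr rfl (key f)
    rw [Finset.sum_add_distrib, Finset.sum_add_distrib (s := s), Finset.sum_add_distrib (s := s),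
      Finset.sum_ite_eq', Finset.sum_ite_eq', if_pos hx, if_pos hz, add_left_inj] at this
    simp only [kd, LinearMap.add_apply, LinearMap.id_apply, LinearMap.sum_apply, map_sum,
      LinearMap.comp_apply]
    rw [← this, Finset.sum_add_distrib]
  · intro f _ h
    have h1 : kd s t' f + N (kd s t' f) = 0 := h
    have h2 := congrArg N h1
    rw [map_add, hNN, add_zero, map_zero] at h2
    rwa [h2, add_zero] at h1

end Crest.Agent.R181
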