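import Crest.Agent.R181.K4
import Crest.Agent.R181.K5a
import Crest.Agent.R181.K5Aux

/-! # Row 181, K5: reduction to `z`-stable sets by distraction and initial monomials. -/

set_option autoImplicit false

namespace Crest.Agent.R181

open Module

variable {n : ℕ}

/-- A subspace with a basis indexed by `X` has a matching of `X` with its initial monomials. -/
theorem k5_matching {Λ : Type} [LinearOrder Λ] (key : (Fin n →₀ ℕ) → Λ)
    (L : PR ℂ (Fin n) →ₗ[ℂ] PR ℂ (Fin n)) (hL : Function.Injective L) (X X' : Finset (Fin n →₀ ℕ))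
    (hX' : (X' : Set (Fin n →₀ ℕ)) = inS key ((mon ℂ X).map L)) (hc : X'.card = X.card) :
    ∃ σ : X ≃ X', ∀ μ : X, (L (AddMonoidAlgebra.single μ 1)).coeff (σ μ) ≠ 0 := by
  classical
  let e : X ≃ X' := (Finset.equivOfCardEq hc).symm
  let A : Matrix X X ℂ := fun μ μ' => (L (AddMonoidAlgebra.single μ 1)).coeff (e μ')
  have hdet : A.det ≠ 0 := by
    intro h
    obtain ⟨c, hc0, hcA⟩ := Matrix.exists_vecMul_eq_zero_iff.2 h
    obtain ⟨w, hw⟩ : ∃ w : PR ℂ (Fin n), w = ∑ μ : X, c μ • AddMonoidAlgebra.single μ.1 1 :=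
      ⟨_, rfl⟩
    have hwX : w ∈ mon ℂ X :=
      hw ▸ Submodule.sum_mem _ fun μ _ => Submodule.smul_mem _ _ (k5_single_mem μ.2 _)
    have hz : ∀ κ ∈ X', (L w).coeff κ = 0 := by
      intro κ hκ
      have := congrFun hcA (e.symm ⟨κ, hκ⟩)
      rw [hw, map_sum]
      simp only [map_smul]
      simpa [A, Matrix.vecMul, dotProduct, Finsupp.finsetSum_apply] using this
    have h0 : L w = 0 := by
      by_contra h0
      obtain ⟨κ, hκ, hmin⟩ := (L w).coeff.support.exists_min_image key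
        (Finsupp.support_nonempty_iff.2 (fun h => h0 (AddMonoidAlgebra.coeff_eq_zero.1 h)))
      have : κ ∈ (X' : Set (Fin n →₀ ℕ)) := hX' ▸ ⟨L w, ⟨w, hwX, rfl⟩,
        Finsupp.mem_support_iff.1 hκ, fun ν hν => hmin ν (Finsupp.mem_support_iff.2 hν)⟩
      exact Finsupp.mem_support_iff.1 hκ (hz κ this)
    have h1 : w = 0 := hL (h0.trans (map_zero L).symm)
    refine hc0 (funext fun μ => ?_)
    have h2 := congrArg (fun v : PR ℂ (Fin n) => v.coeff μ) (hw.symm.trans h1)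
    simpa [Finsupp.finsetSum_apply, Finsupp.single_apply, Subtype.val_inj] using h2
  rw [Matrix.det_apply] at hdet
  obtain ⟨τ, -, hτ⟩ := Finset.exists_ne_zero_of_sum_ne_zero hdet
  refine ⟨τ.symm.trans e, fun μ => ?_⟩
  have := Finset.prod_ne_zero_iff.1 (right_ne_zero_of_smul hτ) (τ.symm μ) (Finset.mem_univ _)
  simpa [A] using this

/-- One step: if `X` is not stable for the variable `x`, the initial set of its distraction
`m z^k ↦ m ∏_{l=1}^k (z - ω^l x)` (`ω` a primitive `a z`-th root of unity) has smaller total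
`z`-exponent. -/
theorem distraction_step (a : Fin n → ℕ) (s : Finset (Fin n)) {x z : Fin n} (hx : x ∈ s)
    (hz : z ∈ s) (hxz : x ≠ z) (ha : a x ≤ a z) (d : ℕ) {X : Set (Fin n →₀ ℕ)}
    (hX : PSet a s d X) (ν : Fin n →₀ ℕ) (h1 : ν + Finsupp.single z 1 ∈ X) (h2 : ν z + 1 < a z)
    (h3 : ν + Finsupp.single x 1 ∉ X) :
    ∃ X', PSet a s d X' ∧ X'.ncard = X.ncard ∧
      (∀ p, sg s (tx ℂ) p (mon ℂ X') ≤ sg s (tx ℂ) p (mon ℂ X)) ∧
      ∑ᶠ μ ∈ X', μ z < ∑ᶠ μ ∈ X, μ z := by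
  classical
  have h0 : 0 < a z := by omega
  obtain ⟨ω, hω⟩ : ∃ ω : ℂ, IsPrimitiveRoot ω (a z) := ⟨_, Complex.isPrimitiveRoot_exp _ h0.ne'⟩
  obtain ⟨key, hkey⟩ : ∃ key : (Fin n →₀ ℕ) → ℕ ×ₗ Lex (Fin n →₀ ℕ),
      ∀ μ, key μ = toLex (μ z, toLex μ) := ⟨_, fun _ => rfl⟩
  have kinj : Function.Injective key := fun μ μ' h => by
    rw [hkey, hkey] at h
    exact congrArg (fun p => ofLex (ofLex p).2) h
  have kadd : ∀ μ ν lam, key μ ≤ key ν → key (μ + lam) ≤ key (ν + lam) := fun μ ν lam h => by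
    rw [hkey, hkey, Prod.Lex.toLex_le_toLex] at h ⊢
    rcases h with h | ⟨h, h'⟩
    · exact Or.inl (Nat.add_lt_add_right h _)
    · exact Or.inr ⟨congrArg (· + lam z) h, add_le_add_left h' (toLex lam)⟩
  have klt : ∀ μ ν, μ z < ν z → key μ ≤ key ν := fun μ ν h => by
    rw [hkey, hkey, Prod.Lex.toLex_le_toLex]
    exact Or.inl h
  have hinj := distr_injective ω hxz
  have hXf : X.Finite := (Mon_finite s d).subset hX.1
  have := mon_finite (D := ℂ) hXf
  obtain ⟨V, hV⟩ : ∃ V, V = (mon ℂ X).map (distr ω x z) := ⟨_, rfl⟩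
  have hVle : V ≤ mon ℂ (Mon s d) := hV ▸ k5_map_mon _ fun μ hμ => distr_Mon ω hx μ d (hX.1 hμ)
  have := finite_of_le_mon hVle
  have hsub : inS key V ⊆ Mon s d := inS_subset key hVle
  have hcard : (inS key V).ncard = X.ncard := by
    rw [ncard_inS key kinj, hV, ← (Submodule.equivMapOfInjective _ hinj _).finrank_eq,
      finrank_mon hXf]
  refine ⟨inS key V, ⟨hsub, fun μ hμ hμa => ?_⟩, hcard, fun p => ?_, ?_⟩
  · have hNf : {κ | κ ∈ Mon s d ∧ ∃ i, a i ≤ κ i}.Finite := (Mon_finite s d).subset fun _ h => h.1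
    have := mon_finite (D := ℂ) hNf
    have e : (mon ℂ {κ | κ ∈ Mon s d ∧ ∃ i, a i ≤ κ i}).map (distr ω x z) =
        mon ℂ {κ | κ ∈ Mon s d ∧ ∃ i, a i ≤ κ i} := by
      refine Submodule.eq_of_le_of_finrank_eq (k5_map_mon _ fun κ hκ => ?_)
        (Submodule.equivMapOfInjective _ hinj _).finrank_eq.symm
      exact Set.subset_inter (distr_Mon ω hx κ d hκ.1) (distr_pow ω ha h0 hω κ hκ.2)
    have h4 : AddMonoidAlgebra.single μ (1 : ℂ) ∈ V := by
      rw [hV]
      exact Submodule.map_mono (AddMonoidAlgebra.supported_mono fun κ hκ => hX.2 κ hκ.1 hκ.2)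
        (e.ge (k5_single_mem (show μ ∈ {κ | κ ∈ Mon s d ∧ ∃ i, a i ≤ κ i} from ⟨hμ, hμa⟩) _))
    refine ⟨_, h4, by simp, fun κ hκ => ?_⟩
    rw [(Finsupp.single_apply_ne_zero.1 hκ).1]
  · refine (sg_inS_le key kinj kadd s p V).trans ?_
    rw [hV, sg_map s (fun i => if i = z then tx ℂ z + tx ℂ x ∘ₗ twist ω z else tx ℂ i) (tx ℂ)
      (distr ω x z) hinj]
    · refine sg_homotopy s (tx ℂ) _ (twist ω z) hx hz hxz (fun i hi => if_neg hi) (if_pos rfl)
        (fun i _ hi m => twist_tx ω hi m) _ (fun w hw => ?_) p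
      refine k5_map_mon _ (fun μ hμ => ?_) ⟨w, hw, rfl⟩
      rw [twist_single]
      exact Submodule.smul_mem _ _ (k5_single_mem hμ _)
    · intro i _ w
      split_ifs with hi
      · rw [hi, distr_tz ω hxz]
      · exact distr_tx ω hi w
  · obtain ⟨X', hX'⟩ := ((Mon_finite s d).subset hsub).exists_finset_coe
    obtain ⟨X, rfl⟩ := hXf.exists_finset_coe
    obtain ⟨σ, hσ⟩ := k5_matching key _ hinj X X' (hV ▸ hX')
      (by rw [← Set.ncard_coe_finset, hX', hcard, Set.ncard_coe_finset])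
    have hσ' := fun μ : X => distr_tri ω hxz μ _ (hσ μ)
    have hne : ∃ μ : X, (σ μ).1 z < μ.1 z := by
      by_contra hne
      push Not at hne
      have hX'X : inS key V ⊆ X := by
        intro κ hκ
        rw [← hX'] at hκ
        obtain ⟨μ, hμ⟩ := σ.surjective ⟨κ, hκ⟩
        have := (hσ' μ).resolve_right (hne μ).not_gt
        rw [hμ] at this
        exact (show κ = μ from this) ▸ μ.2
      have key2 : ∀ k, ∀ μ ∈ X, μ z = k → AddMonoidAlgebra.single μ (1 : ℂ) ∈ V ∧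
          distr ω x z (AddMonoidAlgebra.single μ 1) ∈ mon ℂ X := by
        intro k
        induction k using Nat.strong_induction_on with
        | _ k ih =>
        intro μ hμ hk
        obtain ⟨v, hv⟩ : ∃ v, v = distr ω x z (AddMonoidAlgebra.single μ 1) := ⟨_, rfl⟩
        have hvV : v ∈ V := by rw [hV, hv]; exact ⟨_, k5_single_mem hμ _, rfl⟩
        obtain ⟨u, hu⟩ : ∃ u : PR ℂ (Fin n), ∀ κ, u.coeff κ =
            if κ ∈ X ∧ κ ≠ μ then v.coeff κ else 0 :=
          ⟨.ofCoeff (v.coeff.filter fun κ => κ ∈ X ∧ κ ≠ μ), fun κ => Finsupp.filter_apply _ _ _⟩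
        have huV : u ∈ V := by
          have h5 : (mon ℂ {κ | κ ∈ X ∧ κ z < k}).map LinearMap.id ≤ V :=
            k5_map_mon _ fun κ hκ => (ih _ hκ.2 κ hκ.1 rfl).1
          refine h5 ⟨u, AddMonoidAlgebra.mem_supported'.2 fun κ hκ => ?_, rfl⟩
          rw [hu]
          split_ifs with h
          · by_contra h'
            exact hκ ⟨h.1, hk ▸ (distr_tri ω hxz μ κ (hv ▸ h')).resolve_left h.2⟩
          · rfl
        have hvX : ∀ κ ∉ X, v.coeff κ = 0 := by
          by_contra hvX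
          push Not at hvX
          obtain ⟨κ₀, hκ₀, hκ₀'⟩ := hvX
          obtain ⟨κ, hκ, hmin⟩ := (v.coeff.support.filter (· ∉ X)).exists_min_image key
            ⟨κ₀, Finset.mem_filter.2 ⟨Finsupp.mem_support_iff.2 hκ₀', hκ₀⟩⟩
          obtain ⟨hκ1, hκ2⟩ := Finset.mem_filter.1 hκ
          refine hκ2 (hX'X ⟨v - u, sub_mem hvV huV, ?_, fun κ' hκ' => ?_⟩)
          · rw [AddMonoidAlgebra.coeff_sub, Finsupp.sub_apply, hu, if_neg fun h => hκ2 h.1, sub_zero]
            exact Finsupp.mem_support_iff.1 hκ1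
          · rw [AddMonoidAlgebra.coeff_sub, Finsupp.sub_apply, hu] at hκ'
            by_cases h : κ' = μ
            · rw [h]
              exact klt _ _ ((distr_tri ω hxz μ κ (hv ▸ Finsupp.mem_support_iff.1 hκ1)).resolve_left
                fun h => hκ2 (h ▸ hμ))
            · by_cases h' : κ' ∈ X
              · rw [if_pos ⟨h', h⟩, sub_self] at hκ'
                exact absurd rfl hκ'
              · rw [if_neg fun h => h' h.1, sub_zero] at hκ'
                exact hmin κ' (Finset.mem_filter.2 ⟨Finsupp.mem_support_iff.2 hκ', h'⟩)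
        refine ⟨?_, hv ▸ AddMonoidAlgebra.mem_supported'.2 hvX⟩
        have e : AddMonoidAlgebra.single μ (1 : ℂ) = v - u := by
          refine AddMonoidAlgebra.ext (Finsupp.ext fun κ => ?_)
          rw [AddMonoidAlgebra.coeff_sub, Finsupp.sub_apply, hu, AddMonoidAlgebra.coeff_single]
          by_cases h : κ = μ
          · rw [h, if_neg fun h => h.2 rfl, sub_zero, hv, distr_diag ω hxz, Finsupp.single_eq_same]
          · rw [Finsupp.single_eq_of_ne h]
            by_cases h' : κ ∈ X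
            · rw [if_pos ⟨h', h⟩, sub_self]
            · rw [if_neg fun h => h' h.1, sub_zero, hvX κ h']
        exact e ▸ sub_mem hvV huV
      have h6 := AddMonoidAlgebra.mem_supported'.1 (key2 _ _ h1 rfl).2 _ h3
      rw [distr_sub ω hxz, neg_eq_zero] at h6
      have h7 := mul_geom_sum ω (ν z + 1)
      rw [h6, mul_zero, eq_comm, sub_eq_zero] at h7
      exact hω.pow_ne_one_of_pos_of_lt (Nat.succ_ne_zero _) h2 h7
    obtain ⟨μ, hμ⟩ := hne
    rw [← hX', finsum_mem_coe_finset, finsum_mem_coe_finset, ← Finset.sum_coe_sort X,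
      ← Finset.sum_coe_sort X', ← Equiv.sum_comp σ]
    exact Finset.sum_lt_sum (fun μ _ => (hσ' μ).elim (fun h => (h ▸ le_rfl)) le_of_lt)
      ⟨μ, Finset.mem_univ _, hμ⟩

theorem exists_zstable (a : Fin n → ℕ) (s' : Finset (Fin n)) {z : Fin n} (hz : z ∉ s')
    (ha : ∀ i ∈ s', a i ≤ a z) (d : ℕ) {X : Set (Fin n →₀ ℕ)} (hX : PSet a (insert z s') d X) :
    ∃ X', PSet a (insert z s') d X' ∧ X'.ncard = X.ncard ∧
      (∀ p, sg (insert z s') (tx ℂ) p (mon ℂ X') ≤ sg (insert z s') (tx ℂ) p (mon ℂ X)) ∧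
      ZStable a z s' X' := by
  induction' hm : ∑ᶠ μ ∈ X, μ z using Nat.strong_induction_on with m ih generalizing X
  by_cases hst : ZStable a z s' X
  · exact ⟨X, hX, rfl, fun _ => le_rfl, hst⟩
  · unfold ZStable at hst
    push Not at hst
    obtain ⟨ν, h1, h2, i, hi, h3⟩ := hst
    have hiz : i ≠ z := fun h => hz (h ▸ hi)
    obtain ⟨X₁, hX₁, hc₁, hs₁, hlt⟩ := distraction_step a (insert z s') (Finset.mem_insert_of_mem hi)
      (Finset.mem_insert_self z s') hiz (ha i hi) d hX ν h1 h2 h3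
    obtain ⟨X₂, hX₂, hc₂, hs₂, hst₂⟩ := ih _ (hm ▸ hlt) hX₁ rfl
    exact ⟨X₂, hX₂, hc₂.trans hc₁, fun p => (hs₂ p).trans (hs₁ p), hst₂⟩

end Crest.Agent.R181
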