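import Crest.Agent.R181.K1

/-! # Row 181, K6: decomposition of `sg` along the powers of one variable. -/

set_option autoImplicit false

namespace Crest.Agent.R181

open Module

variable {D : Type} [DivisionRing D] {n : ℕ}

section K6aux

variable {M : Type} [AddCommGroup M] [Module D M]

theorem K6_kd_eq (s : Finset (Fin n)) (t : Fin n → M →ₗ[D] M) (f : Finset (Fin n) → M) :
    kd s t f = ∑ i ∈ s, lft (t i) (ctr D M i f) := by
  simp only [kd, LinearMap.coe_sum, Finset.sum_apply, LinearMap.comp_apply]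

theorem K6_kd_insert (s' : Finset (Fin n)) {z : Fin n} (hz : z ∉ s') (t : Fin n → M →ₗ[D] M)
    (f : Finset (Fin n) → M) :
    kd (insert z s') t f = kd s' t f + lft (t z) (ctr D M z f) := by
  rw [K6_kd_eq, K6_kd_eq, Finset.sum_insert hz, add_comm]

/-- The projection onto the chains not involving `z`. -/
def K6_pr (D : Type) [DivisionRing D] (M : Type) [AddCommGroup M] [Module D M] (z : Fin n) :
    (Finset (Fin n) → M) →ₗ[D] (Finset (Fin n) → M) :=
  ctr D M z ∘ₗ wdg D M z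

theorem K6_pr_apply (z : Fin n) (f : Finset (Fin n) → M) :
    K6_pr D M z f = ctr D M z (wdg D M z f) := rfl

theorem K6_pr_add (z : Fin n) (f : Finset (Fin n) → M) :
    K6_pr D M z f + wdg D M z (ctr D M z f) = f := by
  have := ctr_wdg (D := D) z z f
  rwa [if_pos rfl] at this

theorem K6_pr_of_ctr (z : Fin n) {f : Finset (Fin n) → M} (h : ctr D M z f = 0) :
    K6_pr D M z f = f := by
  have := K6_pr_add (D := D) z f
  rwa [h, map_zero, add_zero] at this

theorem K6_pr_ctr {i z : Fin n} (h : i ≠ z) (f : Finset (Fin n) → M) :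
    K6_pr D M z (ctr D M i f) = ctr D M i (K6_pr D M z f) := by
  have h1 := ctr_wdg (D := D) i z f
  rw [if_neg h] at h1
  have h2 : wdg D M z (ctr D M i f) = - ctr D M i (wdg D M z f) :=
    eq_neg_of_add_eq_zero_right h1
  rw [K6_pr_apply, K6_pr_apply, h2, map_neg, ctr_ctr z i, neg_neg]

theorem K6_pr_lft (z : Fin n) (g : M →ₗ[D] M) (f : Finset (Fin n) → M) :
    K6_pr D M z (lft g f) = lft g (K6_pr D M z f) := by
  rw [K6_pr_apply, K6_pr_apply, lft_ctr, lft_wdg]

theorem K6_pr_kd (s' : Finset (Fin n)) {z : Fin n} (hz : z ∉ s') (t : Fin n → M →ₗ[D] M)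
    (f : Finset (Fin n) → M) :
    K6_pr D M z (kd (insert z s') t f) =
      kd s' t (K6_pr D M z f) + lft (t z) (ctr D M z f) := by
  rw [K6_kd_insert s' hz, map_add, K6_pr_lft, K6_pr_of_ctr z (ctr_ctr_self z f), K6_kd_eq,
    K6_kd_eq, map_sum]
  congr 1
  refine Finset.sum_congr rfl fun i hi => ?_
  rw [K6_pr_lft, K6_pr_ctr (fun h : i = z => hz (h ▸ hi))]

theorem K6_ctr_eq_zero {s' : Finset (Fin n)} {z : Fin n} (hz : z ∉ s') {p : ℕ}
    {W : Submodule D M} {f : Finset (Fin n) → M} (hf : f ∈ ch s' p W) : ctr D M z f = 0 := by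
  funext U
  rw [ctr_apply]
  split_ifs with h
  · rfl
  · rw [((mem_ch.1 hf) (insert z U)).2 (fun h' => hz (h'.1 (Finset.mem_insert_self _ _))),
      smul_zero]
    rfl

theorem K6_lft_apply (g : M →ₗ[D] M) (f : Finset (Fin n) → M) (U : Finset (Fin n)) :
    lft g f U = g (f U) := rfl

theorem K6_lft_kd (s : Finset (Fin n)) (t : Fin n → M →ₗ[D] M) (g : M →ₗ[D] M)
    (hg : ∀ i ∈ s, ∀ x, g (t i x) = t i (g x)) (f : Finset (Fin n) → M) :
    lft g (kd s t f) = kd s t (lft g f) := by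
  rw [K6_kd_eq, K6_kd_eq, map_sum]
  refine Finset.sum_congr rfl fun i hi => ?_
  rw [← lft_ctr]
  funext U
  simp only [K6_lft_apply, hg i hi]

theorem K6_exists_lft {s : Finset (Fin n)} {p : ℕ} {W : Submodule D M} (g : M →ₗ[D] M)
    {h : Finset (Fin n) → M} (hh : h ∈ ch s p (W.map g)) :
    ∃ h' ∈ ch s p W, lft g h' = h := by
  have : ∀ T, ∃ w, ((T ⊆ s ∧ T.card = p → w ∈ W) ∧ (¬ (T ⊆ s ∧ T.card = p) → w = 0)) ∧
      g w = h T := by
    intro T
    by_cases hT : T ⊆ s ∧ T.card = p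
    · obtain ⟨w, hw, e⟩ := ((mem_ch.1 hh) T).1 hT
      exact ⟨w, ⟨fun _ => hw, fun h => absurd hT h⟩, e⟩
    · exact ⟨0, ⟨fun _ => W.zero_mem, fun _ => rfl⟩, by
        rw [map_zero, ((mem_ch.1 hh) T).2 hT]⟩
  choose h' h1 h2 using this
  exact ⟨h', mem_ch.2 h1, funext h2⟩

theorem K6_lft_congr {s : Finset (Fin n)} {p : ℕ} {W : Submodule D M} {g g' : M →ₗ[D] M}
    (h : ∀ w ∈ W, g w = g' w) {f : Finset (Fin n) → M} (hf : f ∈ ch s p W) :
    lft g f = lft g' f := by
  funext T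
  rw [K6_lft_apply, K6_lft_apply]
  by_cases hT : T ⊆ s ∧ T.card = p
  · exact h _ (((mem_ch.1 hf) T).1 hT)
  · rw [((mem_ch.1 hf) T).2 hT, map_zero, map_zero]

theorem K6_eq {s : Finset (Fin n)} {t : Fin n → M →ₗ[D] M} {p : ℕ} {W₁ W₂ : Submodule D M}
    {g g' : M →ₗ[D] M} (hg : ∀ i ∈ s, ∀ x, g (t i x) = t i (g x))
    (hg' : ∀ i ∈ s, ∀ x, g' (t i x) = t i (g' x))
    (h₁ : ∀ w ∈ W₁, g w = g' w) (h₂ : ∀ w ∈ W₂, g w = g' w) {u : Finset (Fin n) → M}
    (hu : u ∈ (ch s (p + 1) W₁).map (kd s t) ⊔ ch s p W₂) : lft g u = lft g' u := by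
  obtain ⟨_, ⟨f, hf, rfl⟩, h, hh, rfl⟩ := Submodule.mem_sup.1 hu
  rw [map_add, map_add, K6_lft_kd s t g hg, K6_lft_kd s t g' hg', K6_lft_congr h₁ hf,
    K6_lft_congr h₂ hh]

theorem K6_map {s : Finset (Fin n)} {t : Fin n → M →ₗ[D] M} {p : ℕ}
    {W₁ W₂ W₁' W₂' : Submodule D M}
    {g : M →ₗ[D] M} (hg : ∀ i ∈ s, ∀ x, g (t i x) = t i (g x))
    (h₁ : ∀ w ∈ W₁, g w ∈ W₁') (h₂ : ∀ w ∈ W₂, g w ∈ W₂') {u : Finset (Fin n) → M}
    (hu : u ∈ (ch s (p + 1) W₁).map (kd s t) ⊔ ch s p W₂) :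
    lft g u ∈ (ch s (p + 1) W₁').map (kd s t) ⊔ ch s p W₂' := by
  obtain ⟨_, ⟨f, hf, rfl⟩, h, hh, rfl⟩ := Submodule.mem_sup.1 hu
  rw [map_add, K6_lft_kd s t g hg]
  exact Submodule.add_mem_sup ⟨_, lft_mem_ch g h₁ hf, rfl⟩ (lft_mem_ch g h₂ hh)

theorem K6_finrank_decomp {V : Type} [AddCommGroup V] [Module D V] (N : ℕ) (U : Submodule D V)
    (Uk : ℕ → Submodule D V) [∀ k, Module.Finite D (Uk k)] (K S : ℕ → V →ₗ[D] V)
    (hK : ∀ k, ∀ u ∈ U, K k u ∈ Uk k) (hS : ∀ k, ∀ u ∈ Uk k, S k u ∈ U)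
    (hKS : ∀ j k, ∀ u ∈ Uk k, K j (S k u) = if j = k then u else 0)
    (hsum : ∀ u ∈ U, ∑ k ∈ Finset.range N, S k (K k u) = u) :
    finrank D U = ∑ k ∈ Finset.range N, finrank D (Uk k) := by
  let Φ : U →ₗ[D] (∀ k : Fin N, Uk k) := LinearMap.pi fun k => (K k).restrict (hK k)
  have hΦ : ∀ (u : U) (k : Fin N), ((Φ u k : Uk k) : V) = K k u := fun _ _ => rfl
  have hinj : Function.Injective Φ := by
    rw [injective_iff_map_eq_zero]
    intro u hu
    apply Subtype.ext
    rw [← hsum u u.2]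
    refine Finset.sum_eq_zero fun k hk => ?_
    have := hΦ u ⟨k, Finset.mem_range.1 hk⟩
    rw [hu] at this
    have h0 : K k u = 0 := this.symm
    rw [h0, map_zero]
  have hsurj : Function.Surjective Φ := by
    intro y
    refine ⟨⟨∑ k : Fin N, S k (y k), U.sum_mem fun k _ => hS k _ (y k).2⟩, ?_⟩
    funext j
    apply Subtype.ext
    rw [hΦ]
    simp only [map_sum]
    rw [Finset.sum_eq_single j]
    · rw [hKS _ _ _ (y j).2, if_pos rfl]
    · intro k _ hkj
      rw [hKS _ _ _ (y k).2, if_neg (fun h => hkj (Fin.ext h).symm)]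
    · intro h; exact absurd (Finset.mem_univ _) h
  rw [(LinearEquiv.ofBijective Φ ⟨hinj, hsurj⟩).finrank_eq, Module.finrank_pi_fintype,
    Finset.sum_range (fun k => finrank D (Uk k))]

end K6aux

/-- The projection onto the chains not involving `z` is injective on cycles. -/
theorem sg_insert {M : Type} [AddCommGroup M] [Module D M] (s' : Finset (Fin n)) {z : Fin n}
    (hz : z ∉ s') (t : Fin n → M →ₗ[D] M)
    (hc : ∀ i ∈ insert z s', ∀ j ∈ insert z s', ∀ x, t i (t j x) = t j (t i x))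
    (hinj : Function.Injective (t z)) (p : ℕ) (W : Submodule D M) :
    sg (insert z s') t (p + 1) W =
      finrank D ↥((ch s' (p + 1) W).map (kd s' t) ⊔ ch s' p (W.map (t z))) := by
  have hinj' : Function.Injective
      ((K6_pr D M z).domRestrict ((ch (insert z s') (p + 1) W).map (kd (insert z s') t))) := by
    rw [injective_iff_map_eq_zero]
    rintro ⟨_, f, hf, rfl⟩ h0
    apply Subtype.ext
    have h0' : K6_pr D M z (kd (insert z s') t f) = 0 := h0
    have h1 := K6_pr_kd s' hz t (kd (insert z s') t f)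
    rw [kd_kd _ t hc, h0', map_zero, map_zero, zero_add] at h1
    have h2 : ctr D M z (kd (insert z s') t f) = 0 := by
      funext U
      apply hinj
      have := congrFun h1 U
      rw [K6_lft_apply] at this
      rw [← this]
      simp
    have h3 := K6_pr_of_ctr z h2
    rw [h0'] at h3
    exact h3.symm
  rw [sg, ← LinearMap.finrank_range_of_inj hinj', LinearMap.range_domRestrict]
  refine congrArg (fun U : Submodule D (Finset (Fin n) → M) => finrank D U) ?_
  apply le_antisymm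
  · rintro _ ⟨_, ⟨f, hf, rfl⟩, rfl⟩
    rw [K6_pr_kd s' hz]
    refine Submodule.add_mem_sup ⟨_, ?_, rfl⟩ ?_
    · have := ctr_mem_ch z (wdg_mem_ch z hf)
      rwa [Finset.insert_idem, Finset.erase_insert hz] at this
    · have := ctr_mem_ch z hf
      rw [Finset.erase_insert hz] at this
      exact lft_mem_ch (t z) (fun w hw => Submodule.mem_map_of_mem hw) this
  · refine sup_le ?_ ?_
    · rintro _ ⟨g, hg, rfl⟩
      refine ⟨_, ⟨g, ch_subset (Finset.subset_insert z s') _ _ hg, rfl⟩, ?_⟩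
      rw [K6_pr_kd s' hz, K6_pr_of_ctr z (K6_ctr_eq_zero hz hg), K6_ctr_eq_zero hz hg, map_zero,
        add_zero]
    · intro h hh
      obtain ⟨h', hh', rfl⟩ := K6_exists_lft (t z) hh
      refine ⟨_, ⟨wdg D M z h', wdg_mem_ch z hh', rfl⟩, ?_⟩
      rw [K6_pr_kd s' hz, K6_pr_apply, wdg_wdg_self, map_zero, map_zero, zero_add,
        ← K6_pr_apply, K6_pr_of_ctr z (K6_ctr_eq_zero hz hh')]

section K6poly

/-- The coefficient of `z ^ k`. -/
noncomputable def K6_kap (D : Type) [DivisionRing D] (z : Fin n) (k : ℕ) :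
    PR D (Fin n) →ₗ[D] PR D (Fin n) :=
  (AddMonoidAlgebra.basis (Fin n →₀ ℕ) D).constr ℕ fun μ =>
    if μ z = k then AddMonoidAlgebra.single (μ.erase z) 1 else 0

/-- Multiplication by `z ^ k`. -/
noncomputable def K6_sig (D : Type) [DivisionRing D] (z : Fin n) (k : ℕ) :
    PR D (Fin n) →ₗ[D] PR D (Fin n) :=
  AddMonoidAlgebra.mapDomainLinearMap D D fun μ => μ + Finsupp.single z k

theorem K6_kap_single (z : Fin n) (k : ℕ) (μ : Fin n →₀ ℕ) :
    K6_kap D z k (AddMonoidAlgebra.single μ 1) =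
      if μ z = k then AddMonoidAlgebra.single (μ.erase z) 1 else 0 := by
  rw [← AddMonoidAlgebra.basis_apply, K6_kap, Basis.constr_basis]

theorem K6_sig_single (z : Fin n) (k : ℕ) (μ : Fin n →₀ ℕ) :
    K6_sig D z k (AddMonoidAlgebra.single μ 1) =
      AddMonoidAlgebra.single (μ + Finsupp.single z k) 1 := by
  rw [K6_sig, AddMonoidAlgebra.mapDomainLinearMap_single]

theorem K6_ext_on {X : Set (Fin n →₀ ℕ)} {g g' : PR D (Fin n) →ₗ[D] PR D (Fin n)}
    (h : ∀ μ ∈ X, g (AddMonoidAlgebra.single μ 1) = g' (AddMonoidAlgebra.single μ 1)) :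
    ∀ w ∈ mon D X, g w = g' w := by
  intro w hw
  rw [mon, AddMonoidAlgebra.supported_eq_span_single] at hw
  refine LinearMap.eqOn_span' ?_ hw
  rintro _ ⟨μ, hμ, rfl⟩
  exact h μ hμ

theorem K6_ext {g g' : PR D (Fin n) →ₗ[D] PR D (Fin n)}
    (h : ∀ μ, g (AddMonoidAlgebra.single μ 1) = g' (AddMonoidAlgebra.single μ 1))
    (w : PR D (Fin n)) : g w = g' w :=
  K6_ext_on (X := Set.univ) (fun μ _ => h μ) w (fun _ _ => Set.mem_univ _)

theorem K6_mem_on {X : Set (Fin n →₀ ℕ)} {g : PR D (Fin n) →ₗ[D] PR D (Fin n)}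
    {W : Submodule D (PR D (Fin n))} (h : ∀ μ ∈ X, g (AddMonoidAlgebra.single μ 1) ∈ W) :
    ∀ w ∈ mon D X, g w ∈ W := by
  intro w hw
  rw [mon, AddMonoidAlgebra.supported_eq_span_single] at hw
  have : Submodule.span D ((fun m => AddMonoidAlgebra.single m (1 : D)) '' X) ≤ W.comap g := by
    rw [Submodule.span_le]
    rintro _ ⟨μ, hμ, rfl⟩
    exact h μ hμ
  exact this hw

theorem K6_single_mem {X : Set (Fin n →₀ ℕ)} {μ : Fin n →₀ ℕ} (h : μ ∈ X) :
    AddMonoidAlgebra.single μ (1 : D) ∈ mon D X := by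
  rw [mon, AddMonoidAlgebra.supported_eq_span_single]
  exact Submodule.subset_span ⟨μ, h, rfl⟩

theorem K6_kap_tx {i z : Fin n} (h : i ≠ z) (k : ℕ) (w : PR D (Fin n)) :
    K6_kap D z k (tx D i w) = tx D i (K6_kap D z k w) := by
  refine K6_ext (g := K6_kap D z k ∘ₗ tx D i) (g' := tx D i ∘ₗ K6_kap D z k) (fun μ => ?_) w
  simp only [LinearMap.comp_apply, tx_single, K6_kap_single]
  have h1 : (μ + Finsupp.single i 1 : Fin n →₀ ℕ) z = μ z := by
    simp [h.symm]
  have h2 : (μ + Finsupp.single i 1 : Fin n →₀ ℕ).erase z = μ.erase z + Finsupp.single i 1 := by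
    rw [Finsupp.erase_add, Finsupp.erase_single_ne h.symm]
  rw [h1, h2]
  split_ifs
  · rw [tx_single]
  · rw [map_zero]

theorem K6_sig_tx (i z : Fin n) (k : ℕ) (w : PR D (Fin n)) :
    K6_sig D z k (tx D i w) = tx D i (K6_sig D z k w) := by
  refine K6_ext (g := K6_sig D z k ∘ₗ tx D i) (g' := tx D i ∘ₗ K6_sig D z k) (fun μ => ?_) w
  simp only [LinearMap.comp_apply, tx_single, K6_sig_single]
  rw [add_right_comm]

theorem K6_erase_add (z : Fin n) (μ : Fin n →₀ ℕ) :
    μ.erase z + Finsupp.single z (μ z) = μ := Finsupp.erase_add_single z μ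

theorem K6_kap_mem (X : Set (Fin n →₀ ℕ)) (z : Fin n) (k : ℕ) :
    ∀ w ∈ mon D X, K6_kap D z k w ∈ mon D (slice X z k) := by
  refine K6_mem_on fun μ hμ => ?_
  rw [K6_kap_single]
  split_ifs with h
  · refine K6_single_mem ⟨by simp, ?_⟩
    rw [← h, K6_erase_add]; exact hμ
  · exact Submodule.zero_mem _

theorem K6_sig_mem (X : Set (Fin n →₀ ℕ)) (z : Fin n) (k : ℕ) :
    ∀ w ∈ mon D (slice X z k), K6_sig D z k w ∈ mon D X := by
  refine K6_mem_on fun μ hμ => ?_
  rw [K6_sig_single]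
  exact K6_single_mem hμ.2

theorem K6_kap_zero_tx (z : Fin n) (w : PR D (Fin n)) : K6_kap D z 0 (tx D z w) = 0 := by
  refine (K6_ext (g := K6_kap D z 0 ∘ₗ tx D z) (g' := 0) (fun μ => ?_) w).trans
    (LinearMap.zero_apply w)
  simp only [LinearMap.comp_apply, tx_single, K6_kap_single]
  have h1 : (μ + Finsupp.single z 1 : Fin n →₀ ℕ) z ≠ 0 := by
    rw [Finsupp.add_apply, Finsupp.single_eq_same]; omega
  rw [if_neg h1, LinearMap.zero_apply]

theorem K6_kap_succ_tx (z : Fin n) (k : ℕ) (w : PR D (Fin n)) :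
    K6_kap D z (k + 1) (tx D z w) = K6_kap D z k w := by
  rw [← LinearMap.comp_apply (K6_kap D z (k + 1)) (tx D z)]
  refine K6_ext (fun μ => ?_) w
  simp only [LinearMap.comp_apply, tx_single, K6_kap_single]
  have h2 : (μ + Finsupp.single z 1 : Fin n →₀ ℕ).erase z = μ.erase z := by
    rw [Finsupp.erase_add, Finsupp.erase_single, add_zero]
  rw [h2]
  simp

theorem K6_sig_succ (z : Fin n) (k : ℕ) (w : PR D (Fin n)) :
    K6_sig D z (k + 1) w = tx D z (K6_sig D z k w) := by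
  refine K6_ext (g := K6_sig D z (k + 1)) (g' := tx D z ∘ₗ K6_sig D z k) (fun μ => ?_) w
  simp only [LinearMap.comp_apply, tx_single, K6_sig_single]
  rw [add_assoc, ← Finsupp.single_add]

theorem K6_kap_sig (X : Set (Fin n →₀ ℕ)) (z : Fin n) (j k l : ℕ) :
    ∀ w ∈ mon D (slice X z l), (K6_kap D z j ∘ₗ K6_sig D z k) w =
      (if j = k then LinearMap.id else 0 : PR D (Fin n) →ₗ[D] PR D (Fin n)) w := by
  refine K6_ext_on fun μ hμ => ?_
  simp only [LinearMap.comp_apply, K6_sig_single, K6_kap_single]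
  have h0 : μ z = 0 := hμ.1
  have h1 : (μ + Finsupp.single z k : Fin n →₀ ℕ) z = k := by simp [h0]
  have h2 : (μ + Finsupp.single z k : Fin n →₀ ℕ).erase z = μ := by
    rw [Finsupp.erase_add, Finsupp.erase_single, add_zero]
    have := K6_erase_add z μ
    rwa [h0, Finsupp.single_zero, add_zero] at this
  rw [h1, h2]
  by_cases h : j = k
  · rw [if_pos h.symm, if_pos h]; rfl
  · rw [if_neg (fun h' => h h'.symm), if_neg h]; rfl

theorem K6_sum_single (z : Fin n) (N : ℕ) {μ : Fin n →₀ ℕ} (h : μ z < N) :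
    (∑ k ∈ Finset.range N, K6_sig D z k ∘ₗ K6_kap D z k) (AddMonoidAlgebra.single μ 1) =
      AddMonoidAlgebra.single μ 1 := by
  simp only [LinearMap.coe_sum, Finset.sum_apply, LinearMap.comp_apply, K6_kap_single]
  rw [Finset.sum_eq_single (μ z)]
  · rw [if_pos rfl, K6_sig_single, K6_erase_add]
  · intro k _ hk
    rw [if_neg (fun h' => hk h'.symm), map_zero]
  · intro h'; exact absurd (Finset.mem_range.2 h) h'

theorem K6_slice_finite {X : Set (Fin n →₀ ℕ)} (hX : X.Finite) (z : Fin n) (k : ℕ) :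
    (slice X z k).Finite := by
  have : (slice X z k) ⊆ (fun μ => μ + Finsupp.single z k) ⁻¹' X := fun μ hμ => hμ.2
  exact (hX.preimage (add_left_injective _).injOn).subset this

/-- The coefficient spaces of `mon X · z`. -/
noncomputable def K6_W (D : Type) [DivisionRing D] (X : Set (Fin n →₀ ℕ)) (z : Fin n) :
    ℕ → Submodule D (PR D (Fin n))
  | 0 => ⊥
  | k + 1 => mon D (slice X z k)

end K6poly

theorem sg_slices (s' : Finset (Fin n)) {z : Fin n} (hz : z ∉ s') (d p : ℕ)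
    {X : Set (Fin n →₀ ℕ)} (hX : X ⊆ Mon (insert z s') d) :
    sg (insert z s') (tx D) (p + 1) (mon D X) =
      sg s' (tx D) (p + 1) (mon D (slice X z 0)) +
        ∑ k ∈ Finset.range (d + 1),
          rho s' (tx D) p (mon D (slice X z (k + 1))) (mon D (slice X z k)) := by
  rw [sg_insert s' hz (tx D) (fun i _ j _ x => tx_comm i j x) (tx_injective z)]
  have hfin : X.Finite := (Mon_finite _ _).subset hX
  have hne : ∀ i ∈ s', i ≠ z := fun i hi h => hz (h ▸ hi)
  let Uk : ℕ → Submodule D (Finset (Fin n) → PR D (Fin n)) := fun k =>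
    (ch s' (p + 1) (mon D (slice X z k))).map (kd s' (tx D)) ⊔ ch s' p (K6_W D X z k)
  haveI hm : ∀ k, Module.Finite D (mon D (slice X z k)) := fun k =>
    mon_finite (K6_slice_finite hfin z k)
  haveI hW : ∀ k : ℕ, Module.Finite D ↥(K6_W D X z k) := by
    rintro (_ | k)
    · exact inferInstanceAs (Module.Finite D (⊥ : Submodule D (PR D (Fin n))))
    · exact hm k
  haveI hU : ∀ k : ℕ, Module.Finite D ↥(Uk k) := fun k => by
    haveI := ch_finite s' (p + 1) (mon D (slice X z k))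
    haveI := ch_finite s' p (K6_W D X z k)
    exact Submodule.finite_sup _ _
  have hdeg : ∀ μ ∈ X, μ z ≤ d := fun μ hμ => by
    rw [← (hX hμ).1]; exact Finsupp.le_degree z μ
  rw [K6_finrank_decomp (d + 2) _ Uk (fun k => lft (K6_kap D z k)) (fun k => lft (K6_sig D z k)),
    Finset.sum_range_succ', add_comm]
  · congr 1
    simp only [Uk, sg]
    refine congrArg (fun U : Submodule D (Finset (Fin n) → PR D (Fin n)) => finrank D U) ?_
    exact (congrArg _ (ch_bot s' p)).trans (sup_bot_eq _)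
  · intro k u hu
    refine K6_map (fun i hi x => K6_kap_tx (hne i hi) k x) (K6_kap_mem X z k) ?_ hu
    rintro _ ⟨w, hw, rfl⟩
    rcases k with _ | k
    · rw [K6_kap_zero_tx]; exact Submodule.zero_mem _
    · rw [K6_kap_succ_tx]; exact K6_kap_mem X z k w hw
  · intro k u hu
    refine K6_map (fun i _ x => K6_sig_tx i z k x) (K6_sig_mem X z k) ?_ hu
    intro w hw
    rcases k with _ | k
    · have : w = 0 := hw
      rw [this, map_zero]; exact Submodule.zero_mem _
    · rw [K6_sig_succ]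
      exact ⟨_, K6_sig_mem X z k w hw, rfl⟩
  · intro j k u hu
    have h1 : lft (K6_kap D z j ∘ₗ K6_sig D z k) u =
        lft (if j = k then LinearMap.id else 0 : PR D (Fin n) →ₗ[D] PR D (Fin n)) u := by
      refine K6_eq (fun i hi x => ?_) (fun i hi x => ?_) (K6_kap_sig X z j k k) ?_ hu
      · simp only [LinearMap.comp_apply]
        rw [K6_sig_tx, K6_kap_tx (hne i hi)]
      · split_ifs <;> simp
      · intro w hw
        rcases k with _ | k
        · have : w = 0 := hw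
          rw [this, map_zero, map_zero]
        · exact K6_kap_sig X z j (k + 1) k w hw
    refine Eq.trans h1 ?_
    split_ifs
    · rfl
    · rfl
  · intro u hu
    have hc : ∀ i ∈ s', ∀ x, (∑ k ∈ Finset.range (d + 2), K6_sig D z k ∘ₗ K6_kap D z k) (tx D i x) =
        tx D i ((∑ k ∈ Finset.range (d + 2), K6_sig D z k ∘ₗ K6_kap D z k) x) := by
      intro i hi x
      simp only [LinearMap.coe_sum, Finset.sum_apply, LinearMap.comp_apply, map_sum]
      refine Finset.sum_congr rfl fun k _ => ?_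
      rw [K6_kap_tx (hne i hi), K6_sig_tx]
    have hc' : ∀ i ∈ s', ∀ x, (LinearMap.id : PR D (Fin n) →ₗ[D] PR D (Fin n)) (tx D i x) =
        tx D i ((LinearMap.id : PR D (Fin n) →ₗ[D] PR D (Fin n)) x) := by
      intro i _ x
      rw [LinearMap.id_apply, LinearMap.id_apply]
    have e1 : ∀ w ∈ mon D X, (∑ k ∈ Finset.range (d + 2), K6_sig D z k ∘ₗ K6_kap D z k) w =
        (LinearMap.id : PR D (Fin n) →ₗ[D] PR D (Fin n)) w := by
      refine K6_ext_on fun μ hμ => ?_
      rw [LinearMap.id_apply]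
      exact K6_sum_single z _ (by have := hdeg μ hμ; omega)
    have e2 : ∀ w ∈ (mon D X).map (tx D z),
        (∑ k ∈ Finset.range (d + 2), K6_sig D z k ∘ₗ K6_kap D z k) w =
        (LinearMap.id : PR D (Fin n) →ₗ[D] PR D (Fin n)) w := by
      rintro _ ⟨w, hw, rfl⟩
      rw [← LinearMap.comp_apply _ (tx D z), ← LinearMap.comp_apply _ (tx D z)]
      refine K6_ext_on (fun μ hμ => ?_) w hw
      rw [LinearMap.comp_apply, LinearMap.comp_apply _ (tx D z), tx_single, LinearMap.id_apply]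
      refine K6_sum_single z _ ?_
      have := hdeg μ hμ
      simp only [Finsupp.add_apply, Finsupp.single_eq_same]
      omega
    have h1 := K6_eq hc hc' e1 e2 hu
    funext T
    have h2 := congrFun h1 T
    rw [K6_lft_apply, K6_lft_apply, LinearMap.id_apply] at h2
    rw [← h2]
    simp only [Finset.sum_apply, K6_lft_apply, LinearMap.coe_sum, LinearMap.comp_apply]

end Crest.Agent.R181
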