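import Crest.Agent.R181.K1

/-! # Row 181, K7 (part A): combinatorics of lex segments in the box. -/

set_option autoImplicit false

namespace Crest.Agent.R181

variable {n : ℕ}

theorem k7_lt_iff {μ ν : Fin n →₀ ℕ} :
    toLex μ < toLex ν ↔ ∃ i, (∀ j < i, μ j = ν j) ∧ μ i < ν i := Finsupp.Lex.lt_iff

theorem k7_add_mem {s : Finset (Fin n)} {d : ℕ} {μ : Fin n →₀ ℕ} (h : μ ∈ Mon s d) {i : Fin n}
    (hi : i ∈ s) : μ + Finsupp.single i 1 ∈ Mon s (d + 1) := by
  refine ⟨by rw [map_add, h.1, Finsupp.degree_single], fun j hj => ?_⟩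
  have : j ≠ i := fun e => hj (e ▸ hi)
  simp [h.2 j hj, this]

theorem k7_eq_of_le {μ ν : Fin n →₀ ℕ} (h : μ ≤ ν) (hd : ν.degree ≤ μ.degree) : μ = ν := by
  obtain ⟨c, rfl⟩ := exists_add_of_le h
  rw [map_add] at hd
  rw [(Finsupp.degree_eq_zero_iff c).1 (by omega), add_zero]

/-- One step of `exists_small_multiple`. -/
theorem k7_step (a : Fin n → ℕ) (s : Finset (Fin n)) {e d : ℕ} (hed : e < d)
    {m m₀ : Fin n →₀ ℕ} (hm : m ∈ Mon s e) (hm₀ : m₀ ∈ Mon s d) (hb : ∀ i, m i < a i)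
    (hb₀ : ∀ i, m₀ i < a i) (hlt : toLex m ≤ toLex m₀) :
    ∃ l ∈ s, (∀ i, (m + Finsupp.single l 1 : Fin n →₀ ℕ) i < a i) ∧
      toLex (m + Finsupp.single l 1) ≤ toLex m₀ := by
  classical
  have hne : toLex m ≠ toLex m₀ := fun h => by
    have h1 : m = m₀ := toLex.injective h
    have h2 := hm.1
    rw [h1, hm₀.1] at h2
    omega
  obtain ⟨i, hi1, hi2⟩ := k7_lt_iff.1 (lt_of_le_of_ne hlt hne)
  have his : i ∈ s := by
    by_contra h
    have := hm₀.2 i h
    omega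
  have hiF : i ∈ s.filter fun l => m l + 1 < a l :=
    Finset.mem_filter.2 ⟨his, by have := hb₀ i; omega⟩
  obtain ⟨l, hl, hmax⟩ := Finset.exists_max_image _ id ⟨i, hiF⟩
  obtain ⟨hls, hla⟩ := Finset.mem_filter.1 hl
  have hil : i ≤ l := hmax i hiF
  refine ⟨l, hls, fun j => ?_, ?_⟩
  · by_cases h : j = l
    · subst h; simpa using hla
    · simpa [h] using hb j
  have hlow : ∀ j < i, (m + Finsupp.single l 1 : Fin n →₀ ℕ) j = m₀ j := fun j hj => by
    have : j ≠ l := (hj.trans_le hil).ne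
    simp [this, hi1 j hj]
  by_cases h1 : (m + Finsupp.single l 1 : Fin n →₀ ℕ) i < m₀ i
  · exact (k7_lt_iff.2 ⟨i, hlow, h1⟩).le
  have hli : i = l := by
    by_contra h
    simp [h] at h1
    omega
  subst hli
  refine le_of_eq (congrArg toLex (k7_eq_of_le (fun j => ?_) ?_).symm)
  · rcases lt_trichotomy j i with h | h | h
    · exact (hlow j h).ge
    · subst h; exact not_lt.1 h1
    · by_cases hj : j ∈ s
      · have h2 : ¬ m j + 1 < a j := fun h3 =>
          absurd (hmax j (Finset.mem_filter.2 ⟨hj, h3⟩)) (not_le.2 h)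
        have h3 := hb₀ j
        simp only [Finsupp.coe_add, Pi.add_apply]
        omega
      · rw [hm₀.2 j hj]; exact Nat.zero_le _
  · rw [(k7_add_mem hm hls).1, hm₀.1]; omega

/-- The lex-smallest multiple in the box.  `m` and `m₀` are box monomials in the variables of `s`,
`deg m ≤ deg m₀`, and at the first index where they differ `m` is smaller.  Fill `m` up from the
last variable of `s` backwards. -/
theorem exists_small_multiple (a : Fin n → ℕ) (s : Finset (Fin n)) {e d : ℕ} (hed : e ≤ d)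
    {m m₀ : Fin n →₀ ℕ} (hm : m ∈ Mon s e) (hm₀ : m₀ ∈ Mon s d) (hb : ∀ i, m i < a i)
    (hb₀ : ∀ i, m₀ i < a i) (hlt : toLex m ≤ toLex m₀) :
    ∃ m' ∈ Mon s d, m ≤ m' ∧ (∀ i, m' i < a i) ∧ toLex m' ≤ toLex m₀ := by
  obtain ⟨r, rfl⟩ := Nat.exists_eq_add_of_le hed
  induction r generalizing e m with
  | zero => exact ⟨m, hm, le_rfl, hb, hlt⟩
  | succ r ih =>
    obtain ⟨l, hl, h1, h2⟩ := k7_step a s (by omega) hm hm₀ hb hb₀ hlt
    have e1 : e + (r + 1) = e + 1 + r := by omega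
    rw [e1] at hm₀ ⊢
    obtain ⟨m', h3, h4, h5⟩ := ih (k7_add_mem hm hl) h1 h2 (by omega) hm₀
    exact ⟨m', h3, le_self_add.trans h4, h5⟩

theorem PSet.k7_box {a : Fin n → ℕ} {s : Finset (Fin n)} {d : ℕ} {X : Set (Fin n →₀ ℕ)}
    (hX : PSet a s d X) {μ : Fin n →₀ ℕ} (h : μ ∈ Mon s d) (h' : μ ∉ X) (i : Fin n) :
    μ i < a i := by
  by_contra h1
  exact h' (hX.2 μ h ⟨i, not_lt.1 h1⟩)

theorem exists_LSet (a : Fin n → ℕ) (s : Finset (Fin n)) (d : ℕ) {X : Set (Fin n →₀ ℕ)}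
    (hX : PSet a s d X) : ∃ Y, LSet a s d Y ∧ Y.ncard = X.ncard := by
  have hfin := Mon_finite s d
  let P : Set (Fin n →₀ ℕ) := {μ | μ ∈ Mon s d ∧ ∃ i, a i ≤ μ i}
  have key : ∀ k, P.ncard ≤ k → k ≤ (Mon s d).ncard → ∃ Y, LSet a s d Y ∧ Y.ncard = k := by
    intro k hk
    induction k, hk using Nat.le_induction with
    | base =>
      intro _
      refine ⟨P, ⟨⟨fun μ h => h.1, fun μ h h' => ⟨h, h'⟩⟩, fun μ h hb => ?_⟩, rfl⟩
      obtain ⟨i, hi⟩ := h.2
      exact absurd (hb i) (not_lt.2 hi)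
    | succ k _ ih =>
      intro hk
      obtain ⟨Y, hY, hc⟩ := ih (by omega)
      have hne : (Mon s d \ Y).Nonempty := by
        rw [Set.sdiff_nonempty]
        intro h
        have := Set.ncard_le_ncard h (hfin.subset hY.1.1)
        omega
      obtain ⟨μ, hμ, hmax⟩ := Set.exists_max_image _ toLex hfin.sdiff hne
      refine ⟨insert μ Y, ⟨⟨Set.insert_subset hμ.1 hY.1.1, fun ν h h' => Or.inr (hY.1.2 ν h h')⟩,
        fun ν hν hb ν' hν' hle => ?_⟩, ?_⟩
      · rcases hν with rfl | hν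
        · by_cases h : ν' ∈ Y
          · exact Or.inr h
          · exact Or.inl (toLex.injective (le_antisymm (hmax ν' ⟨hν', h⟩) hle))
        · exact Or.inr (hY.2 ν hν hb ν' hν' hle)
      · rw [Set.ncard_insert_of_notMem hμ.2 (hfin.subset hY.1.1), hc]
  exact key _ (Set.ncard_le_ncard (fun μ h => hX.2 μ h.1 h.2) (hfin.subset hX.1))
    (Set.ncard_le_ncard hX.1 hfin)

theorem LSet.subset_of_ncard_le {a : Fin n → ℕ} {s : Finset (Fin n)} {d : ℕ}
    {Y Y' : Set (Fin n →₀ ℕ)} (hY : LSet a s d Y) (hY' : LSet a s d Y') (h : Y.ncard ≤ Y'.ncard) :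
    Y ⊆ Y' := by
  by_contra h1
  obtain ⟨μ, hμ, hμ'⟩ := Set.not_subset.1 h1
  have h2 : Y' ⊆ Y := fun ν hν => by
    rcases le_total (toLex μ) (toLex ν) with h3 | h3
    · exact hY.2 μ hμ (hY'.1.k7_box (hY.1.1 hμ) hμ') ν (hY'.1.1 hν) h3
    · by_contra h4
      exact hμ' (hY'.2 ν hν (hY.1.k7_box (hY'.1.1 hν) h4) μ (hY.1.1 hμ) h3)
  rw [Set.eq_of_subset_of_ncard_le h2 h ((Mon_finite s d).subset hY.1.1)] at hμ'
  exact hμ' hμ

theorem LSet.col {a : Fin n → ℕ} {s : Finset (Fin n)} {d : ℕ} {Y : Set (Fin n →₀ ℕ)}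
    (hY : LSet a s (d + 1) Y) : LSet a s d (col s d Y) := by
  refine ⟨⟨fun μ h => h.1, fun μ h h' => ⟨h, fun i hi => hY.1.2 _ (k7_add_mem h hi) ?_⟩⟩,
    fun μ h hb μ' h' hle => ⟨h', fun i hi => ?_⟩⟩
  · obtain ⟨j, hj⟩ := h'
    exact ⟨j, hj.trans (Nat.le_add_right _ _)⟩
  · by_contra h1
    obtain ⟨l, hl, h2, h3⟩ := k7_step a s (Nat.lt_succ_self d) h.1 (k7_add_mem h' hi) hb
      (hY.1.k7_box (k7_add_mem h' hi) h1) (hle.trans (Finsupp.toLex_monotone le_self_add))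
    exact h1 (hY.2 _ (h.2 l hl) h2 _ (k7_add_mem h' hi) h3)

theorem k7_slice_mem {s' : Finset (Fin n)} {z : Fin n} {d k : ℕ} {μ : Fin n →₀ ℕ} (h0 : μ z = 0)
    (h : μ + Finsupp.single z k ∈ Mon (insert z s') d) : k ≤ d ∧ μ ∈ Mon s' (d - k) := by
  have h1 := h.1
  rw [map_add, Finsupp.degree_single] at h1
  refine ⟨by omega, by omega, fun i hi => ?_⟩
  by_cases h2 : i = z
  · rw [h2, h0]
  · simpa [h2] using h.2 i (by simp [h2, hi])

theorem k7_erase (z : Fin n) (ν : Fin n →₀ ℕ) : ν.erase z + Finsupp.single z (ν z) = ν :=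
  Finsupp.erase_add_single z ν

theorem k7_erase_le (z : Fin n) (ν : Fin n →₀ ℕ) : ν.erase z ≤ ν :=
  le_self_add.trans (k7_erase z ν).le

theorem k7_down {a : Fin n → ℕ} {s' : Finset (Fin n)} {z : Fin n} (hz : z ∉ s') {d : ℕ}
    {X : Set (Fin n →₀ ℕ)} (hX : X ⊆ Mon (insert z s') d)
    (hXs : ∀ k, LSet a s' (d - k) (slice X z k)) (hst : ZStable a z s' X) (j r : ℕ)
    (hk : j + r < a z) {m m₀ : Fin n →₀ ℕ} (hm : m ∈ slice X z (j + r)) (hb : ∀ i, m i < a i)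
    (hm₀ : m₀ ∈ Mon s' (d - j)) (hb₀ : ∀ i, m₀ i < a i) (hle : toLex m ≤ toLex m₀) :
    m₀ ∈ slice X z j := by
  induction r generalizing m with
  | zero => exact (hXs j).2 m hm hb m₀ hm₀ hle
  | succ r ih =>
    obtain ⟨h1, h2⟩ := k7_slice_mem hm.1 (hX hm.2)
    obtain ⟨l, hl, h3, h4⟩ := k7_step a s' (by omega) h2 hm₀ hb hb₀ hle
    have hlz : z ≠ l := fun e => hz (e ▸ hl)
    refine ih (by omega) ⟨by simp [hm.1, hlz], ?_⟩ h3 h4
    have h5 := hst (m + Finsupp.single z (j + r))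
      (by rw [add_assoc, ← Finsupp.single_add]; exact hm.2) (by simp [hm.1]; omega) l hl
    rwa [add_right_comm]

/-- The two comparison claims for a compressed stable set `X` and the lex set `Y` of the same size. -/
theorem slices_compare {a : Fin n → ℕ} (ha : ∀ i, 1 ≤ a i) {s' : Finset (Fin n)} {z : Fin n}
    (hz : ∀ i ∈ s', i < z) {d : ℕ} {X Y : Set (Fin n →₀ ℕ)} (hX : PSet a (insert z s') d X)
    (hXs : ∀ k, LSet a s' (d - k) (slice X z k)) (hst : ZStable a z s' X)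
    (hY : LSet a (insert z s') d Y) (hc : Y.ncard = X.ncard) :
    slice Y z 0 ⊆ slice X z 0 ∧ slice X z (a z - 1) ⊆ slice Y z (a z - 1) := by
  have hz' : z ∉ s' := fun h => lt_irrefl _ (hz z h)
  have hfin := Mon_finite (insert z s') d
  have hbe : ∀ ν : Fin n →₀ ℕ, (∀ i, ν i < a i) → ∀ i, ν.erase z i < a i := fun ν h i =>
    lt_of_le_of_lt (k7_erase_le _ _ i) (h i)
  constructor
  · intro m₀ hm₀
    by_contra h0
    have h1 : m₀ ∈ Y := by simpa using hm₀.2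
    have h2 : m₀ ∉ X := fun h => h0 ⟨hm₀.1, by simpa using h⟩
    have hb₀ := hX.k7_box (hY.1.1 h1) h2
    have hXY : X ⊆ Y := fun ν hν => by
      by_contra h3
      have hb := hY.1.k7_box (hX.1 hν) h3
      have h4 : toLex ν ≤ toLex m₀ :=
        le_of_not_ge fun h => h3 (hY.2 m₀ h1 hb₀ ν (hX.1 hν) h)
      refine h0 (k7_down hz' hX.1 hXs hst 0 (ν z) (by simpa using hb z) (m := ν.erase z)
        ⟨by simp, by rwa [zero_add, k7_erase]⟩ (hbe ν hb) (k7_slice_mem hm₀.1 (hY.1.1 hm₀.2)).2 hb₀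
        ((Finsupp.toLex_monotone (k7_erase_le _ _)).trans h4))
    rw [Set.eq_of_subset_of_ncard_le hXY hc.le (hfin.subset hY.1.1)] at h2
    exact h2 h1
  · intro m₁ hm₁
    by_contra h0
    have h2 : m₁ + Finsupp.single z (a z - 1) ∉ Y := fun h => h0 ⟨hm₁.1, h⟩
    have hb₁ := hY.1.k7_box (hX.1 hm₁.2) h2
    have hb₁' : ∀ i, m₁ i < a i := fun i => lt_of_le_of_lt (Nat.le_add_right _ _) (hb₁ i)
    have hM₁ := (k7_slice_mem hm₁.1 (hX.1 hm₁.2)).2
    have hYX : Y ⊆ X := fun ν hν => by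
      by_contra h3
      have hb := hX.k7_box (hY.1.1 hν) h3
      have hbz := hb z
      have hM := (k7_slice_mem (μ := ν.erase z) (k := ν z) Finsupp.erase_same
        (by rw [k7_erase]; exact hY.1.1 hν)).2
      have h4 : toLex m₁ ≤ toLex (ν.erase z) := by
        refine le_of_not_gt fun h => h2 (hY.2 ν hν hb _ (hX.1 hm₁.2) (le_of_lt ?_))
        obtain ⟨i, hi1, hi2⟩ := k7_lt_iff.1 h
        have hiz : i < z := hz i (by
          by_contra h5
          have := hM₁.2 i h5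
          omega)
        refine k7_lt_iff.2 ⟨i, fun j hj => ?_, ?_⟩
        · have h5 : j ≠ z := (hj.trans hiz).ne
          simpa [h5] using hi1 j hj
        · simpa [hiz.ne] using hi2
      have h5 := k7_down hz' hX.1 hXs hst (ν z) (a z - 1 - ν z) (by omega) (m := m₁)
        (by rwa [show ν z + (a z - 1 - ν z) = a z - 1 by omega]) hb₁' hM (hbe ν hb) h4
      exact h3 (k7_erase z ν ▸ h5.2)
    rw [Set.eq_of_subset_of_ncard_le hYX hc.ge (hfin.subset hX.1)] at h2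
    exact h2 hm₁.2

end Crest.Agent.R181
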