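import Crest.Agent.R181.K1

/-! # Row 181, K7B: slices of monomial sets. -/

set_option autoImplicit false

namespace Crest.Agent.R181

variable {n : ℕ}

theorem k7b_add_mem {s' : Finset (Fin n)} {z : Fin n} {d k : ℕ} (hkd : k ≤ d) {μ : Fin n →₀ ℕ}
    (hμ : μ ∈ Mon s' (d - k)) : μ + Finsupp.single z k ∈ Mon (insert z s') d := by
  refine ⟨?_, fun i hi => ?_⟩
  · rw [map_add, hμ.1, Finsupp.degree_single]
    omega
  · rw [Finset.mem_insert, not_or] at hi
    rw [Finsupp.add_apply, hμ.2 i hi.2, Finsupp.single_eq_of_ne hi.1, add_zero]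

theorem k7b_of_add_mem {s' : Finset (Fin n)} {z : Fin n} {d k : ℕ} {μ : Fin n →₀ ℕ}
    (hz : μ z = 0) (hμ : μ + Finsupp.single z k ∈ Mon (insert z s') d) : μ ∈ Mon s' (d - k) := by
  obtain ⟨h1, h2⟩ := hμ
  refine ⟨?_, fun i hi => ?_⟩
  · rw [map_add, Finsupp.degree_single] at h1
    omega
  · by_cases hiz : i = z
    · rw [hiz, hz]
    · have := h2 i (by simp [hiz, hi])
      rw [Finsupp.add_apply] at this
      omega

theorem k7b_le_of_mem {s : Finset (Fin n)} {z : Fin n} {d k : ℕ} {μ : Fin n →₀ ℕ}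
    (hμ : μ + Finsupp.single z k ∈ Mon s d) : k ≤ d := by
  have h1 := hμ.1
  rw [map_add, Finsupp.degree_single] at h1
  omega

theorem slice_subset {s' : Finset (Fin n)} {z : Fin n} (hz : z ∉ s') {d : ℕ}
    {X : Set (Fin n →₀ ℕ)} (hX : X ⊆ Mon (insert z s') d) (k : ℕ) :
    slice X z k ⊆ Mon s' (d - k) := by
  have _ := hz
  exact fun μ hμ => k7b_of_add_mem hμ.1 (hX hμ.2)

theorem slice_eq_empty {s : Finset (Fin n)} {z : Fin n} {d : ℕ}
    {X : Set (Fin n →₀ ℕ)} (hX : X ⊆ Mon s d) {k : ℕ} (hk : d < k) : slice X z k = ∅ := by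
  refine Set.eq_empty_of_forall_notMem fun μ hμ => ?_
  have := k7b_le_of_mem (hX hμ.2)
  omega

theorem PSet.slice {a : Fin n → ℕ} (ha : ∀ i, 1 ≤ a i) {s' : Finset (Fin n)} {z : Fin n}
    (hz : z ∉ s') {d : ℕ} {X : Set (Fin n →₀ ℕ)} (hX : PSet a (insert z s') d X) (k : ℕ) :
    PSet a s' (d - k) (slice X z k) := by
  refine ⟨slice_subset hz hX.1 k, ?_⟩
  rintro μ hμ ⟨i, hi⟩
  have hk : k ≤ d := by
    have h1 := Finsupp.le_degree i μ
    have h2 := hμ.1
    have h3 := ha i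
    omega
  refine ⟨hμ.2 z hz, hX.2 _ (k7b_add_mem hk hμ) ⟨i, ?_⟩⟩
  rw [Finsupp.add_apply]
  omega

theorem PSet.slice_eq {a : Fin n → ℕ} {s' : Finset (Fin n)} {z : Fin n}
    (hz : z ∉ s') {d : ℕ} {X : Set (Fin n →₀ ℕ)} (hX : PSet a (insert z s') d X) {k : ℕ}
    (hk : a z ≤ k) (hkd : k ≤ d) : R181.slice X z k = Mon s' (d - k) := by
  refine (slice_subset hz hX.1 k).antisymm fun μ hμ => ?_
  refine ⟨hμ.2 z hz, hX.2 _ (k7b_add_mem hkd hμ) ⟨z, ?_⟩⟩
  rw [Finsupp.add_apply, Finsupp.single_eq_same]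
  omega

theorem LSet.slice {a : Fin n → ℕ} (ha : ∀ i, 1 ≤ a i) {s' : Finset (Fin n)} {z : Fin n}
    (hz : ∀ i ∈ s', i < z) {d : ℕ} {Y : Set (Fin n →₀ ℕ)} (hY : LSet a (insert z s') d Y) (k : ℕ) :
    LSet a s' (d - k) (slice Y z k) := by
  have hz' : z ∉ s' := fun h => lt_irrefl _ (hz z h)
  refine ⟨hY.1.slice ha hz' k, fun μ hμ hb μ' hμ' hle => ?_⟩
  have hkd : k ≤ d := k7b_le_of_mem (hY.1.1 hμ.2)
  rcases le_or_gt (a z) k with hk | hk
  · rw [hY.1.slice_eq hz' hk hkd]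
    exact hμ'
  · refine ⟨hμ'.2 z hz', hY.2 _ hμ.2 (fun i => ?_) _ (k7b_add_mem hkd hμ') ?_⟩
    · rw [Finsupp.add_apply]
      by_cases hi : i = z
      · rw [hi, hμ.1, Finsupp.single_eq_same]
        omega
      · rw [Finsupp.single_eq_of_ne hi]
        exact hb i
    · rw [toLex_add, toLex_add]
      exact add_le_add_left hle _

theorem LSet.zstable {a : Fin n → ℕ} {s' : Finset (Fin n)} {z : Fin n}
    (hz : ∀ i ∈ s', i < z) {d : ℕ} {Y : Set (Fin n →₀ ℕ)} (hY : LSet a (insert z s') d Y) :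
    ZStable a z s' Y := by
  intro ν hν hlt i hi
  obtain ⟨h1, h2⟩ := hY.1.1 hν
  have hmem : ν + Finsupp.single i 1 ∈ Mon (insert z s') d := by
    refine ⟨?_, fun j hj => ?_⟩
    · rw [map_add, Finsupp.degree_single] at h1 ⊢
      exact h1
    · have h3 := h2 j hj
      have hji : j ≠ i := fun h => hj (h ▸ Finset.mem_insert_of_mem hi)
      rw [Finsupp.add_apply] at h3 ⊢
      rw [Finsupp.single_eq_of_ne hji]
      omega
  by_cases hb : ∀ j, (ν + Finsupp.single z 1 : Fin n →₀ ℕ) j < a j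
  · refine hY.2 _ hν hb _ hmem ?_
    rw [toLex_add, toLex_add]
    refine add_le_add_right (le_of_lt ?_) _
    refine ⟨i, fun j hj => ?_, ?_⟩
    · change Finsupp.single z 1 j = Finsupp.single i 1 j
      rw [Finsupp.single_eq_of_ne (ne_of_lt hj), Finsupp.single_eq_of_ne (hj.trans (hz i hi)).ne]
    · change Finsupp.single z 1 i < Finsupp.single i 1 i
      rw [Finsupp.single_eq_of_ne (hz i hi).ne, Finsupp.single_eq_same]
      exact one_pos
  · obtain ⟨j, hj⟩ := not_forall.1 hb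
    refine hY.1.2 _ hmem ⟨j, ?_⟩
    rw [Finsupp.add_apply] at hj ⊢
    by_cases hjz : j = z
    · rw [hjz, Finsupp.single_eq_same] at hj
      omega
    · rw [Finsupp.single_eq_of_ne hjz] at hj
      omega

theorem ncard_eq_sum_slice {s : Finset (Fin n)} (z : Fin n) {d : ℕ}
    {X : Set (Fin n →₀ ℕ)} (hX : X ⊆ Mon s d) :
    X.ncard = ∑ k ∈ Finset.range (d + 1), (slice X z k).ncard := by
  have hf : X.Finite := (Mon_finite s d).subset hX
  rw [Set.ncard_eq_toFinset_card X hf,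
    Finset.card_eq_sum_card_fiberwise (f := fun μ : Fin n →₀ ℕ => μ z)
      (t := Finset.range (d + 1)) (fun μ hμ => by
        have h1 := (hX (hf.mem_toFinset.1 hμ)).1
        have h2 := Finsupp.le_degree z μ
        exact Finset.mem_coe.2 (Finset.mem_range.2 (by simp only; omega)))]
  refine Finset.sum_congr rfl fun k _ => ?_
  rw [← Set.ncard_image_of_injective (slice X z k) (add_left_injective (Finsupp.single z k)),
    ← Set.ncard_coe_finset]
  congr 1
  ext ν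
  simp only [Finset.coe_filter, Set.Finite.mem_toFinset, Set.mem_ofPred_eq, Set.mem_image]
  constructor
  · rintro ⟨h1, rfl⟩
    exact ⟨ν.erase z, ⟨Finsupp.erase_same, by rwa [Finsupp.erase_add_single]⟩,
      Finsupp.erase_add_single z ν⟩
  · rintro ⟨μ, hμ, rfl⟩
    exact ⟨hμ.2, by rw [Finsupp.add_apply, hμ.1, Finsupp.single_eq_same, zero_add]⟩

/-- Reassembling a set from prescribed slices. -/
theorem exists_of_slices {s' : Finset (Fin n)} {z : Fin n} (hz : z ∉ s') (d : ℕ)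
    (Xs : ℕ → Set (Fin n →₀ ℕ)) (h : ∀ k, Xs k ⊆ Mon s' (d - k)) :
    ∃ X, X ⊆ Mon (insert z s') d ∧ ∀ k ≤ d, slice X z k = Xs k := by
  refine ⟨{ν | ν ∈ Mon (insert z s') d ∧ ν.erase z ∈ Xs (ν z)}, fun ν hν => hν.1,
    fun k hk => ?_⟩
  have key : ∀ μ : Fin n →₀ ℕ, μ z = 0 → (μ + Finsupp.single z k).erase z = μ ∧
      (μ + Finsupp.single z k : Fin n →₀ ℕ) z = k := by
    intro μ hμ
    refine ⟨?_, by rw [Finsupp.add_apply, hμ, Finsupp.single_eq_same, zero_add]⟩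
    rw [Finsupp.erase_add, Finsupp.erase_single, add_zero,
      Finsupp.erase_of_notMem_support (Finsupp.notMem_support_iff.2 hμ)]
  ext μ
  constructor
  · rintro ⟨h1, -, h2⟩
    rwa [(key μ h1).1, (key μ h1).2] at h2
  · intro hμ
    have h1 := (h k hμ).2 z hz
    refine ⟨h1, k7b_add_mem hk (h k hμ), ?_⟩
    rwa [(key μ h1).1, (key μ h1).2]

theorem PSet.of_slices {a : Fin n → ℕ} {s' : Finset (Fin n)} {z : Fin n} (hz : z ∉ s') {d : ℕ}
    {X : Set (Fin n →₀ ℕ)} (hX : X ⊆ Mon (insert z s') d)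
    (h : ∀ k ≤ d, PSet a s' (d - k) (R181.slice X z k))
    (h' : ∀ k ≤ d, a z ≤ k → R181.slice X z k = Mon s' (d - k)) : PSet a (insert z s') d X := by
  have _ := hz
  refine ⟨hX, ?_⟩
  rintro μ hμ ⟨i, hi⟩
  have e := Finsupp.erase_add_single z μ
  have hμ' : μ.erase z + Finsupp.single z (μ z) ∈ Mon (insert z s') d := by rwa [e]
  have hk := k7b_le_of_mem hμ'
  have hm := k7b_of_add_mem Finsupp.erase_same hμ'
  have : μ.erase z ∈ R181.slice X z (μ z) := by
    by_cases hiz : i = z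
    · rw [h' _ hk (hiz ▸ hi)]
      exact hm
    · exact (h _ hk).2 _ hm ⟨i, by rwa [Finsupp.erase_ne hiz]⟩
  exact e ▸ this.2

theorem zstable_iff {a : Fin n → ℕ} {s' : Finset (Fin n)} {z : Fin n} (hz : z ∉ s')
    {X : Set (Fin n →₀ ℕ)} : ZStable a z s' X ↔
      ∀ k, k + 1 < a z → ∀ μ ∈ slice X z (k + 1), ∀ i ∈ s', μ + Finsupp.single i 1 ∈ slice X z k := by
  constructor
  · intro h k hk μ hμ i hi
    have hzi : z ≠ i := fun e => hz (e ▸ hi)
    refine ⟨by rw [Finsupp.add_apply, hμ.1, Finsupp.single_eq_of_ne hzi, add_zero], ?_⟩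
    rw [add_right_comm]
    refine h _ ?_ ?_ i hi
    · rw [add_assoc, ← Finsupp.single_add]
      exact hμ.2
    · rwa [Finsupp.add_apply, hμ.1, Finsupp.single_eq_same, zero_add]
  · intro h ν hν hlt i hi
    have h1 : ν.erase z ∈ slice X z (ν z + 1) := by
      refine ⟨Finsupp.erase_same, ?_⟩
      rwa [Finsupp.single_add, ← add_assoc, Finsupp.erase_add_single]
    have h2 := (h _ hlt _ h1 i hi).2
    rwa [add_right_comm, Finsupp.erase_add_single] at h2

end Crest.Agent.R181
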