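import Crest.Agent.R181.K1
import Crest.Agent.R181.K7A
import Crest.Agent.R181.K7B

/-! # Row 181, K7: combinatorics of lex segments in the box.

`exists_small_multiple`, `exists_LSet`, `LSet.subset_of_ncard_le`, `LSet.col` and
`slices_compare` are in `K7A`; the slice lemmas `slice_subset` … `zstable_iff` are in `K7B`. -/
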