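import Crest.Agent.R181.K2
import Crest.Agent.R181.K5
import Crest.Agent.R181.K6
import Crest.Agent.R181.K7

/-! # Row 181, K9: the monomial case (Clements–Lindström and Mermin–Murai in one degree). -/

set_option autoImplicit false

namespace Crest.Agent.R181

open Module

variable {n : ℕ}

theorem k9_mon_mono {X Y : Set (Fin n →₀ ℕ)} (h : X ⊆ Y) : mon ℂ X ≤ mon ℂ Y :=
  AddMonoidAlgebra.supported_mono h

theorem k9_tx_mem {A B : Set (Fin n →₀ ℕ)} {i : Fin n}
    (h : ∀ μ ∈ A, μ + Finsupp.single i 1 ∈ B) {w : PR ℂ (Fin n)} (hw : w ∈ mon ℂ A) :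
    tx ℂ i w ∈ mon ℂ B := by
  rw [AddMonoidAlgebra.mem_supported'] at hw ⊢
  intro ν hν
  by_contra h0
  obtain ⟨μ, rfl, hμ⟩ := tx_coeff_ne_zero i w ν h0
  exact hν (h μ (by_contra fun h1 => hμ (hw μ h1)))

theorem k9_rho_eq (s : Finset (Fin n)) (p : ℕ) {A B : Set (Fin n →₀ ℕ)} (hB : B.Finite)
    (h : ∀ μ ∈ A, ∀ i ∈ s, μ + Finsupp.single i 1 ∈ B) :
    rho s (tx ℂ) p (mon ℂ A) (mon ℂ B) = s.card.choose p * B.ncard := by
  have := mon_finite (D := ℂ) hB
  rw [rho_eq_of_le s (tx ℂ) p _ _ fun i hi w hw => k9_tx_mem (fun μ hμ => h μ hμ i hi) hw,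
    finrank_mon hB]

theorem k9_le_rho (s : Finset (Fin n)) (p : ℕ) {A B : Set (Fin n →₀ ℕ)} (hA : A.Finite)
    (hB : B.Finite) : s.card.choose p * B.ncard ≤ rho s (tx ℂ) p (mon ℂ A) (mon ℂ B) := by
  have := mon_finite (D := ℂ) hA
  have := mon_finite (D := ℂ) hB
  rw [← finrank_mon (D := ℂ) hB]
  exact le_rho s (tx ℂ) p _ _

theorem k9_col_le {s : Finset (Fin n)} (hs : s.Nonempty) {m : ℕ} {A B : Set (Fin n →₀ ℕ)}
    (hA : A ⊆ Mon s (m + 1)) (hB : B ⊆ Mon s (m + 1)) (hc : B.ncard = A.ncard)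
    (h : ∀ p, sg s (tx ℂ) p (mon ℂ B) ≤ sg s (tx ℂ) p (mon ℂ A)) :
    (col s m A).ncard ≤ (col s m B).ncard := by
  obtain ⟨q, hq⟩ : ∃ q, s.card = q + 1 := ⟨s.card - 1, by have := hs.card_pos; omega⟩
  have h1 := sg_add_colon s q m hq (mon ℂ A) (k9_mon_mono hA)
  have h2 := sg_add_colon s q m hq (mon ℂ B) (k9_mon_mono hB)
  rw [colon_mon, finrank_mon ((Mon_finite s m).subset fun _ h => h.1)] at h1 h2
  rw [finrank_mon ((Mon_finite s _).subset hA)] at h1
  rw [finrank_mon ((Mon_finite s _).subset hB), hc] at h2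
  have := h q
  omega

theorem sg_LSet_le (a : Fin n → ℕ) (ha : Monotone a) (ha1 : ∀ i, 1 ≤ a i) (s : Finset (Fin n))
    (d : ℕ) {X Y : Set (Fin n →₀ ℕ)} (hX : PSet a s d X) (hY : LSet a s d Y)
    (hc : Y.ncard = X.ncard) (p : ℕ) :
    sg s (tx ℂ) p (mon ℂ Y) ≤ sg s (tx ℂ) p (mon ℂ X) := by
  induction s using Finset.induction_on_max generalizing d X Y p with
  | empty =>
    unfold sg kd
    rw [Finset.sum_empty, Submodule.map_zero, Submodule.map_zero]
  | insert z s' hz ih =>
    cases p with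
    | zero => rw [sg_zero]; exact Nat.zero_le _
    | succ p =>
    have hzs : z ∉ s' := fun h => lt_irrefl _ (hz z h)
    obtain ⟨X', hX', hc', hsg', hst⟩ := exists_zstable a s' hzs (fun i hi => ha (hz i hi).le) d hX
    refine le_trans ?_ (hsg' (p + 1))
    rw [← hc'] at hc
    clear hsg' hc' hX X
    rename' X' => X, hX' => hX
    have hXk := fun k => hX.slice ha1 hzs k
    have hYk := fun k => hY.slice ha1 hz k
    choose L hL hLc using fun k => exists_LSet a s' (d - k) (hXk k)
    have fX : ∀ k, (slice X z k).Finite := fun k => (Mon_finite _ _).subset (hXk k).1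
    have fY : ∀ k, (slice Y z k).Finite := fun k => (Mon_finite _ _).subset (hYk k).1.1
    have fL : ∀ k, (L k).Finite := fun k => (Mon_finite _ _).subset (hL k).1.1
    have ihL : ∀ k q, sg s' (tx ℂ) q (mon ℂ (L k)) ≤ sg s' (tx ℂ) q (mon ℂ (slice X z k)) :=
      fun k q => ih (d - k) (hXk k) (hL k) (hLc k) q
    obtain ⟨Z, hZ, hZk⟩ := exists_of_slices hzs d L fun k => (hL k).1.1
    have hLe : ∀ k, d < k → L k = ∅ := by
      intro k hk
      rw [← Set.ncard_eq_zero (fL k), hLc, slice_eq_empty hX.1 hk, Set.ncard_empty]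
    have hZk' : ∀ k, slice Z z k = L k := by
      intro k
      rcases le_or_gt k d with hk | hk
      · exact hZk k hk
      · rw [slice_eq_empty hZ hk, hLe k hk]
    have hZP : PSet a (insert z s') d Z := by
      refine PSet.of_slices hzs hZ (fun k _ => by rw [hZk']; exact (hL k).1) fun k hk hk' => ?_
      rw [hZk']
      refine Set.eq_of_subset_of_ncard_le (hL k).1.1 ?_ (Mon_finite _ _)
      rw [hLc, hX.slice_eq hzs hk' hk]
    have hZst : ZStable a z s' Z := by
      rw [zstable_iff hzs]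
      intro k hk μ hμ i hi
      rw [hZk'] at hμ ⊢
      rcases le_or_gt (k + 1) d with hkd | hkd
      swap
      · rw [hLe _ hkd] at hμ
        exact absurd hμ (Set.notMem_empty _)
      have e : d - k = d - (k + 1) + 1 := by omega
      have h1 : slice X z (k + 1) ⊆ col s' (d - (k + 1)) (slice X z k) := fun ν hν =>
        ⟨(hXk (k + 1)).1 hν, (zstable_iff hzs).1 hst k hk ν hν⟩
      have h2 := k9_col_le ⟨i, hi⟩ (e ▸ (hXk k).1) (e ▸ (hL k).1.1) (hLc k) (ihL k)
      have h3 : LSet a s' (d - (k + 1)) (col s' (d - (k + 1)) (L k)) := LSet.col (e ▸ hL k)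
      have h4 := Set.ncard_le_ncard h1 ((Mon_finite _ _).subset fun _ h => h.1)
      exact ((hL (k + 1)).subset_of_ncard_le h3 (by rw [hLc]; exact h4.trans h2) hμ).2 i hi
    have hZc : Y.ncard = Z.ncard := by
      rw [hc, ncard_eq_sum_slice z hX.1, ncard_eq_sum_slice z hZ]
      exact Finset.sum_congr rfl fun k _ => by rw [hZk', hLc]
    obtain ⟨c1, c2⟩ := slices_compare ha1 hz hZP (fun k => by rw [hZk']; exact hL k) hZst hY hZc
    rw [hZk'] at c1 c2
    rw [sg_slices s' hzs d p hX.1, sg_slices s' hzs d p hY.1.1]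
    refine add_le_add ?_ ?_
    · have := mon_finite (D := ℂ) (fL 0)
      exact (sg_mono s' (tx ℂ) (p + 1) (k9_mon_mono c1)).trans (ihL 0 _)
    have key : ∀ k ∈ Finset.range (d + 1),
        rho s' (tx ℂ) p (mon ℂ (slice Y z (k + 1))) (mon ℂ (slice Y z k)) +
            s'.card.choose p * (slice X z k).ncard ≤
          rho s' (tx ℂ) p (mon ℂ (slice X z (k + 1))) (mon ℂ (slice X z k)) +
            s'.card.choose p * (slice Y z k).ncard := by
      intro k hk
      have hkd : k ≤ d := by simpa [Nat.lt_succ_iff] using hk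
      have hle := k9_le_rho s' p (fX (k + 1)) (fX k)
      rcases hkd.eq_or_lt with rfl | hkd'
      · rw [k9_rho_eq s' p (fY k) fun μ hμ => by
          rw [slice_eq_empty hY.1.1 (Nat.lt_succ_self k)] at hμ
          exact absurd hμ (Set.notMem_empty _)]
        omega
      rcases lt_trichotomy (k + 1) (a z) with h1 | h1 | h1
      · rw [k9_rho_eq s' p (fY k) ((zstable_iff hzs).1 (hY.zstable hz) k h1)]
        omega
      · have e : d - k = d - (k + 1) + 1 := by omega
        have e' : a z - 1 = k := by omega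
        rw [e'] at c2
        rw [hX.slice_eq hzs h1.ge hkd', hY.1.slice_eq hzs h1.ge hkd']
        have := mon_finite (D := ℂ) (Mon_finite s' (d - (k + 1)))
        have := mon_finite (D := ℂ) (fY k)
        have a1 := rho_le_add s' (tx ℂ) p (mon ℂ (Mon s' (d - (k + 1)))) _ _ (k9_mon_mono c2)
        rw [finrank_mon (fL k), finrank_mon (fY k), hLc,
          rho_full s' p _ (mon ℂ (L k)) (k9_mon_mono (e ▸ (hL k).1.1))] at a1
        rw [rho_full s' p _ (mon ℂ (slice X z k)) (k9_mon_mono (e ▸ (hXk k).1))]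
        have := ihL k p
        omega
      · rw [hX.slice_eq hzs (k := k + 1) h1.le hkd', hY.1.slice_eq hzs (k := k + 1) h1.le hkd',
          hX.slice_eq hzs (k := k) (by omega) hkd, hY.1.slice_eq hzs (k := k) (by omega) hkd]
    have hs := Finset.sum_le_sum key
    rw [Finset.sum_add_distrib, Finset.sum_add_distrib, ← Finset.mul_sum, ← Finset.mul_sum,
      ← ncard_eq_sum_slice z hX.1, ← ncard_eq_sum_slice z hY.1.1, hc] at hs
    exact Nat.le_of_add_le_add_right hs

end Crest.Agent.R181
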