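import Crest.Agent.R181.K3
import Crest.Agent.R181.K9

/-! # Row 181, K13: assembling the lex-plus-powers ideal. -/

set_option autoImplicit false

namespace Crest.Agent.R181

open Module Crest.AlgebraR.LPP

theorem k13_mem_mon {n : ℕ} {X : Set (Fin n →₀ ℕ)} {g : MvPolynomial (Fin n) ℂ} :
    g ∈ mon ℂ X ↔ ∀ μ ∈ g.support, μ ∈ X := by
  rw [AddMonoidAlgebra.mem_supported]; rfl

theorem k13_piece {n : ℕ} (S : Set (Fin n →₀ ℕ)) (d : ℕ) :
    degreePiece (Ideal.span ((fun m => MvPolynomial.monomial m (1 : ℂ)) '' S)) d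
      = mon ℂ {μ | μ.degree = d ∧ ∃ ν ∈ S, ν ≤ μ} := by
  ext g
  rw [degreePiece, Submodule.mem_inf, ← mon_Mon_univ, Submodule.restrictScalars_mem,
    MvPolynomial.mem_ideal_span_monomial_image, k13_mem_mon, k13_mem_mon]
  constructor
  · rintro ⟨h1, h2⟩ μ hμ
    exact ⟨(h1 μ hμ).1, h2 μ hμ⟩
  · intro h
    exact ⟨fun μ hμ => ⟨(h μ hμ).1, by simp⟩, fun μ hμ => (h μ hμ).2⟩

theorem k13_pure {n : ℕ} (a : Fin n → ℕ) (d : ℕ) :
    degreePiece (purePowers a) d = mon ℂ {μ | μ.degree = d ∧ ∃ i, a i ≤ μ i} := by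
  have : purePowers a = Ideal.span ((fun m => MvPolynomial.monomial m (1 : ℂ)) ''
      Set.range fun i => Finsupp.single i (a i)) := by
    rw [purePowers, ← Set.range_comp]
    congr 2
    funext i
    simp [MvPolynomial.X_pow_eq_monomial]
  rw [this, k13_piece]
  congr 1
  ext μ
  simp [Finsupp.single_le_iff]

theorem k13_up {n : ℕ} {Y : ℕ → Set (Fin n →₀ ℕ)}
    (hY : ∀ d, Y d ⊆ col Finset.univ d (Y (d + 1))) {ν : Fin n →₀ ℕ} (hν : ν ∈ Y ν.degree)
    {μ : Fin n →₀ ℕ} (h : ν ≤ μ) : μ ∈ Y μ.degree := by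
  obtain ⟨ρ, rfl⟩ := le_iff_exists_add.1 h
  clear h
  induction hk : ρ.degree generalizing ρ with
  | zero =>
    have : ρ = 0 := (Finsupp.degree_eq_zero_iff ρ).1 hk
    simpa [this] using hν
  | succ k ih =>
    have hρ : ρ ≠ 0 := by rintro rfl; simp at hk
    obtain ⟨i, hi⟩ := Finsupp.ne_iff.1 hρ
    obtain ⟨ρ', rfl⟩ : ∃ ρ', ρ = ρ' + Finsupp.single i 1 := by
      have : Finsupp.single i 1 ≤ ρ := Finsupp.single_le_iff.2 (Nat.one_le_iff_ne_zero.2 hi)
      obtain ⟨ρ', h⟩ := le_iff_exists_add'.1 this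
      exact ⟨ρ', h⟩
    have h1 := ih ρ' (by simpa using hk)
    have h2 := (hY _ h1).2 i (Finset.mem_univ _)
    rw [← add_assoc, map_add (Finsupp.degree) (ν + ρ'), Finsupp.degree_single]
    exact h2

theorem k13_mon_union {n : ℕ} (A B : Set (Fin n →₀ ℕ)) :
    mon ℂ (A ∪ B) = mon ℂ A ⊔ mon ℂ B := by
  simp only [mon, AddMonoidAlgebra.supported_eq_span_single, Set.image_union, Submodule.span_union]

/-- Choose `Y d` with `exists_LSet`; `Y d ⊆ col (Y (d+1))` by `sg_add_colon`, `colon_mon`,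
`LSet.col`, `LSet.subset_of_ncard_le`; `U d` is the lex closure of the box part of `Y d`;
`J` is the monomial ideal spanned by `⋃ d, Y d`. -/
theorem lpp_of_PSet (n : ℕ) (hn : 1 ≤ n) (a : Fin n → ℕ) (ha : Monotone a) (ha1 : ∀ i, 1 ≤ a i)
    (I : Ideal (MvPolynomial (Fin n) ℂ))
    (hI : ∀ g ∈ I, ∀ d : ℕ, MvPolynomial.homogeneousComponent d g ∈ I)
    (h : ∀ d, ∃ X, PSet a Finset.univ d X ∧ X.ncard = finrank ℂ (degreePiece I d) ∧
      ∀ p, sg Finset.univ (tx ℂ) p (mon ℂ X) ≤ sg Finset.univ (tx ℂ) p (degreePiece I d)) :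
    ∃ U : ℕ → Set (Fin n →₀ ℕ), (∀ d, IsLexSegment n d (U d)) ∧
      (∀ d, Module.finrank ℂ (lppPiece a (U d) d) = Module.finrank ℂ (degreePiece I d)) ∧
      ∃ J : Ideal (MvPolynomial (Fin n) ℂ),
        (∀ g ∈ J, ∀ d : ℕ, MvPolynomial.homogeneousComponent d g ∈ J) ∧
        (∀ d, degreePiece J d = lppPiece a (U d) d) ∧
        ∀ p j : ℕ, gradedBetti I p j ≤ gradedBetti J p j := by
  classical
  choose X hX hXc hXs using h
  choose Y hY hYc using fun d => exists_LSet a Finset.univ d (hX d)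
  have hle : ∀ d, degreePiece I d ≤ mon ℂ (Mon Finset.univ d) := fun d => by
    rw [mon_Mon_univ]; exact inf_le_left
  have hYle : ∀ d, mon ℂ (Y d) ≤ mon ℂ (Mon Finset.univ d) := fun d =>
    AddMonoidAlgebra.supported_mono (hY d).1.1
  have hYfin : ∀ d, (Y d).Finite := fun d => (Mon_finite _ d).subset (hY d).1.1
  have hdim : ∀ d, finrank ℂ (mon ℂ (Y d)) = finrank ℂ (degreePiece I d) := fun d => by
    rw [finrank_mon (hYfin d), hYc, hXc]
  have hsg : ∀ d p, sg Finset.univ (tx ℂ) p (mon ℂ (Y d))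
      ≤ sg Finset.univ (tx ℂ) p (degreePiece I d) := fun d p =>
    (sg_LSet_le a ha ha1 _ d (hX d) (hY d) (hYc d) p).trans (hXs d p)
  have hcol : ∀ d, Y d ⊆ col Finset.univ d (Y (d + 1)) := by
    intro d
    refine (hY d).subset_of_ncard_le (hY (d + 1)).col ?_
    have hc : (Finset.univ : Finset (Fin n)).card = (n - 1) + 1 := by simp; omega
    have h1 := sg_add_colon (D := ℂ) Finset.univ (n - 1) d hc _ (hle (d + 1))
    have h2 := sg_add_colon (D := ℂ) Finset.univ (n - 1) d hc _ (hYle (d + 1))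
    rw [colon_mon, finrank_mon ((Mon_finite _ d).subset (hY (d + 1)).col.1.1), hdim] at h2
    have h3 := hsg (d + 1) (n - 1)
    have h4 : degreePiece I d ≤ colon ℂ Finset.univ d (degreePiece I (d + 1)) := by
      intro g hg
      refine ⟨hle d hg, ?_⟩
      simp only [SetLike.mem_coe, Submodule.mem_iInf, Submodule.mem_comap]
      intro i hi
      refine ⟨?_, I.mul_mem_right (MvPolynomial.X i) hg.2⟩
      rw [← mon_Mon_univ]
      exact tx_mem_Mon hi (hle d hg)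
    have : Module.Finite ℂ (colon ℂ Finset.univ d (degreePiece I (d + 1))) :=
      finite_of_le_mon (s := Finset.univ) (d := d) inf_le_left
    have h5 := Submodule.finrank_mono h4
    rw [hYc, hXc]
    refine h5.trans (Nat.le_of_add_le_add_left (a := sg Finset.univ (tx ℂ) (n - 1)
      (degreePiece I (d + 1))) ?_)
    exact (h1.trans h2.symm).le.trans (Nat.add_le_add_right h3 _)
  have hdeg : ∀ {d μ}, μ ∈ Y d → μ.degree = d := fun h => ((hY _).1.1 h).1
  let U : ℕ → Set (Fin n →₀ ℕ) := fun d =>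
    {m | m.degree = d ∧ ∃ y ∈ Y d, (∀ i, y i < a i) ∧ toLex y ≤ toLex m}
  have hlpp : ∀ d, lppPiece a (U d) d = mon ℂ (Y d) := by
    intro d
    have e : Submodule.span ℂ ((fun m => MvPolynomial.monomial m (1 : ℂ)) '' U d) = mon ℂ (U d) :=
      (AddMonoidAlgebra.supported_eq_span_single ℂ (U d)).symm
    rw [lppPiece, e, k13_pure, ← k13_mon_union]
    congr 1
    ext μ
    constructor
    · rintro (⟨h1, y, hy, hb, hl⟩ | ⟨h1, h2⟩)
      · exact (hY d).2 y hy hb μ ⟨h1, by simp⟩ hl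
      · exact (hY d).1.2 μ ⟨h1, by simp⟩ h2
    · intro hμ
      by_cases hb : ∀ i, μ i < a i
      · exact Or.inl ⟨hdeg hμ, μ, hμ, hb, le_rfl⟩
      · push Not at hb
        exact Or.inr ⟨hdeg hμ, hb⟩
  let J : Ideal (MvPolynomial (Fin n) ℂ) :=
    Ideal.span ((fun m => MvPolynomial.monomial m (1 : ℂ)) '' ⋃ d, Y d)
  have hJ : ∀ d, degreePiece J d = mon ℂ (Y d) := by
    intro d
    rw [k13_piece]
    congr 1
    ext μ
    constructor
    · rintro ⟨h1, ν, hν, hle⟩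
      obtain ⟨e, he⟩ := Set.mem_iUnion.1 hν
      rw [← h1]
      exact k13_up hcol (by rw [hdeg he]; exact he) hle
    · intro hμ
      exact ⟨hdeg hμ, μ, Set.mem_iUnion.2 ⟨d, hμ⟩, le_rfl⟩
  have hJh : ∀ g ∈ J, ∀ d : ℕ, MvPolynomial.homogeneousComponent d g ∈ J := by
    intro g hg d
    rw [MvPolynomial.mem_ideal_span_monomial_image] at hg ⊢
    intro μ hμ
    refine hg μ ?_
    rw [MvPolynomial.mem_support_iff] at hμ ⊢
    rw [MvPolynomial.coeff_homogeneousComponent] at hμ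
    intro h0
    simp [h0] at hμ
  refine ⟨U, fun d => ⟨fun m hm => hm.1, fun m hm m' hm' hl => ?_⟩, fun d => by rw [hlpp, hdim],
    J, hJh, fun d => by rw [hJ, hlpp], fun p j => ?_⟩
  · obtain ⟨-, y, hy, hb, hl'⟩ := hm
    exact ⟨hm', y, hy, hb, hl'.trans hl⟩
  · exact betti_le I J hI hJh (fun d => by rw [hJ, hdim]) (fun d p => by rw [hJ]; exact hsg d p) p j

end Crest.Agent.R181
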