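import Crest.Agent.R181.KDefs

/-! # Row 181, K1A: anticommutation relations and the basic calculus of `ch`. -/

set_option autoImplicit false

namespace Crest.Agent.R181

open Module

variable {D : Type} [DivisionRing D] {n : ℕ} {M : Type} [AddCommGroup M] [Module D M]

theorem k1a_sgn_insert (i : Fin n) {j : Fin n} {U : Finset (Fin n)} (h : j ∉ U) :
    sgn i (insert j U) = (if j < i then -1 else 1) * sgn i U := by
  unfold sgn
  rw [Finset.filter_insert]
  split_ifs with hji
  · rw [Finset.card_insert_of_notMem fun h' => h (Finset.mem_filter.1 h').1, pow_succ]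
    ring
  · rw [one_mul]

theorem k1a_sgn_mul_self (i : Fin n) (U : Finset (Fin n)) : sgn i U * sgn i U = 1 := by
  unfold sgn
  rw [← mul_pow]
  simp

theorem k1a_sgn_erase (i : Fin n) {j : Fin n} {U : Finset (Fin n)} (h : j ∈ U) :
    sgn i (U.erase j) = (if j < i then -1 else 1) * sgn i U := by
  conv_rhs => rw [← Finset.insert_erase h, k1a_sgn_insert i (Finset.notMem_erase j U)]
  split_ifs <;> ring

theorem k1a_sgn_insert_self (i : Fin n) {U : Finset (Fin n)} (h : i ∉ U) :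
    sgn i (insert i U) = sgn i U := by
  rw [k1a_sgn_insert i h, if_neg (lt_irrefl i), one_mul]

theorem k1a_sgn_erase_self (i : Fin n) {U : Finset (Fin n)} (h : i ∈ U) :
    sgn i (U.erase i) = sgn i U := by
  rw [k1a_sgn_erase i h, if_neg (lt_irrefl i), one_mul]

theorem k1a_lft_apply (g : M →ₗ[D] M) (f : Finset (Fin n) → M) (U : Finset (Fin n)) :
    lft g f U = g (f U) := rfl

theorem k1a_kd_eq_sum (s : Finset (Fin n)) (t : Fin n → M →ₗ[D] M) (f : Finset (Fin n) → M) :
    kd s t f = ∑ i ∈ s, lft (t i) (ctr D M i f) := by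
  simp only [kd, LinearMap.sum_apply, LinearMap.comp_apply]

theorem ctr_apply (i : Fin n) (f : Finset (Fin n) → M) (U : Finset (Fin n)) :
    ctr D M i f U = if i ∈ U then 0 else sgn i U • f (insert i U) := by
  simp only [ctr, LinearMap.pi_apply]
  split_ifs <;> rfl

theorem wdg_apply (i : Fin n) (f : Finset (Fin n) → M) (U : Finset (Fin n)) :
    wdg D M i f U = if i ∈ U then sgn i U • f (U.erase i) else 0 := by
  simp only [wdg, LinearMap.pi_apply]
  split_ifs <;> rfl

theorem kd_apply (s : Finset (Fin n)) (t : Fin n → M →ₗ[D] M) (f : Finset (Fin n) → M)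
    (U : Finset (Fin n)) :
    kd s t f U = ∑ i ∈ s, if i ∈ U then 0 else sgn i U • t i (f (insert i U)) := by
  rw [k1a_kd_eq_sum, Finset.sum_apply]
  refine Finset.sum_congr rfl fun i _ => ?_
  rw [k1a_lft_apply, ctr_apply]
  split_ifs
  · exact map_zero _
  · exact map_zsmul _ _ _

theorem mem_ch {s : Finset (Fin n)} {p : ℕ} {W : Submodule D M} {f : Finset (Fin n) → M} :
    f ∈ ch s p W ↔ ∀ T, (T ⊆ s ∧ T.card = p → f T ∈ W) ∧ (¬ (T ⊆ s ∧ T.card = p) → f T = 0) := by
  simp only [ch, Submodule.mem_pi, Set.mem_univ, true_implies]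
  refine forall_congr' fun T => ?_
  split_ifs with h
  · simp [h]
  · simp only [Submodule.mem_bot]
    exact ⟨fun h' => ⟨fun h'' => absurd h'' h, fun _ => h'⟩, fun h' => h'.2 h⟩

theorem ctr_ctr (i j : Fin n) (f : Finset (Fin n) → M) :
    ctr D M i (ctr D M j f) = - ctr D M j (ctr D M i f) := by
  funext U
  simp only [Pi.neg_apply, ctr_apply, Finset.mem_insert]
  by_cases hi : i ∈ U
  · simp [hi]
  by_cases hj : j ∈ U
  · simp [hj]
  rcases lt_trichotomy i j with h | h | h
  · simp [hi, hj, h.ne, h.ne', k1a_sgn_insert, h, h.not_gt, smul_smul, Finset.insert_comm i j, mul_comm]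
  · simp [h]
  · simp [hi, hj, h.ne, h.ne', k1a_sgn_insert, h, h.not_gt, smul_smul, Finset.insert_comm i j, mul_comm]

theorem ctr_ctr_self (i : Fin n) (f : Finset (Fin n) → M) : ctr D M i (ctr D M i f) = 0 := by
  funext U
  simp [ctr_apply]

theorem wdg_wdg_self (i : Fin n) (f : Finset (Fin n) → M) : wdg D M i (wdg D M i f) = 0 := by
  funext U
  simp [wdg_apply]

theorem ctr_wdg (i j : Fin n) (f : Finset (Fin n) → M) :
    ctr D M i (wdg D M j f) + wdg D M j (ctr D M i f) = if i = j then f else 0 := by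
  funext U
  simp only [Pi.add_apply, ctr_apply, wdg_apply, Finset.mem_insert, Finset.mem_erase]
  by_cases hij : i = j
  · subst hij
    by_cases hi : i ∈ U
    · simp [hi, k1a_sgn_erase_self, smul_smul, k1a_sgn_mul_self]
    · simp [hi, k1a_sgn_insert_self, smul_smul, k1a_sgn_mul_self]
  · have hji : j ≠ i := fun h => hij h.symm
    by_cases hi : i ∈ U
    · simp [hi, hij]
    by_cases hj : j ∈ U
    · have e : (insert i U).erase j = insert i (U.erase j) := Finset.erase_insert_of_ne hij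
      rcases lt_or_gt_of_ne hij with h | h
      · simp [hi, hj, hij, e, k1a_sgn_insert, k1a_sgn_erase, h, h.not_gt, smul_smul, mul_comm]
      · simp [hi, hj, hij, e, k1a_sgn_insert, k1a_sgn_erase, h, h.not_gt, smul_smul, mul_comm]
    · simp [hi, hj, hij, hji]

/-- `ε_i ι_i` is the projection on the sets containing `i`. -/
theorem wdg_ctr_self_apply (i : Fin n) (f : Finset (Fin n) → M) (U : Finset (Fin n)) :
    wdg D M i (ctr D M i f) U = if i ∈ U then f U else 0 := by
  rw [wdg_apply, ctr_apply]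
  by_cases hi : i ∈ U
  · simp [hi, k1a_sgn_erase_self, smul_smul, k1a_sgn_mul_self]
  · simp [hi]

theorem lft_ctr (g : M →ₗ[D] M) (i : Fin n) (f : Finset (Fin n) → M) :
    lft g (ctr D M i f) = ctr D M i (lft g f) := by
  funext U
  simp only [k1a_lft_apply, ctr_apply]
  split_ifs
  · exact map_zero _
  · exact map_zsmul _ _ _

theorem lft_wdg (g : M →ₗ[D] M) (i : Fin n) (f : Finset (Fin n) → M) :
    lft g (wdg D M i f) = wdg D M i (lft g f) := by
  funext U
  simp only [k1a_lft_apply, wdg_apply]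
  split_ifs
  · exact map_zsmul _ _ _
  · exact map_zero _

theorem kd_kd (s : Finset (Fin n)) (t : Fin n → M →ₗ[D] M)
    (hc : ∀ i ∈ s, ∀ j ∈ s, ∀ x, t i (t j x) = t j (t i x)) (f : Finset (Fin n) → M) :
    kd s t (kd s t f) = 0 := by
  simp only [k1a_kd_eq_sum, map_sum, ← lft_ctr]
  rw [← Finset.sum_product' s s fun i j => lft (t j) (lft (t i) (ctr D M j (ctr D M i f)))]
  refine Finset.sum_involution (fun q _ => q.swap) (fun q hq => ?_) (fun q _ hq h => hq ?_)
    (fun q hq => ?_) fun q _ => rfl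
  · obtain ⟨h1, h2⟩ := Finset.mem_product.1 hq
    rw [ctr_ctr q.2 q.1]
    funext U
    simp only [Prod.fst_swap, Prod.snd_swap, map_neg, Pi.add_apply, Pi.neg_apply, k1a_lft_apply,
      Pi.zero_apply]
    rw [hc _ h1 _ h2, neg_add_cancel]
  · have : q.2 = q.1 := congrArg Prod.fst h
    rw [this, ctr_ctr_self, map_zero, map_zero]
  · obtain ⟨h1, h2⟩ := Finset.mem_product.1 hq
    exact Finset.mem_product.2 ⟨h2, h1⟩

theorem ch_mono (s : Finset (Fin n)) (p : ℕ) {W W' : Submodule D M} (h : W ≤ W') :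
    ch s p W ≤ ch s p W' := by
  intro f hf
  rw [mem_ch] at hf ⊢
  exact fun T => ⟨fun hT => h ((hf T).1 hT), (hf T).2⟩

theorem ch_sup (s : Finset (Fin n)) (p : ℕ) (W W' : Submodule D M) :
    ch s p (W ⊔ W') = ch s p W ⊔ ch s p W' := by
  refine le_antisymm (fun f hf => ?_) (sup_le (ch_mono s p le_sup_left) (ch_mono s p le_sup_right))
  rw [mem_ch] at hf
  have h : ∀ T, ∃ a b : M, (T ⊆ s ∧ T.card = p → a ∈ W ∧ b ∈ W') ∧
      (¬ (T ⊆ s ∧ T.card = p) → a = 0 ∧ b = 0) ∧ a + b = f T := by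
    intro T
    by_cases hT : T ⊆ s ∧ T.card = p
    · obtain ⟨a, ha, b, hb, e⟩ := Submodule.mem_sup.1 ((hf T).1 hT)
      exact ⟨a, b, fun _ => ⟨ha, hb⟩, fun h => absurd hT h, e⟩
    · exact ⟨0, 0, fun h => absurd h hT, fun _ => ⟨rfl, rfl⟩, by rw [(hf T).2 hT, add_zero]⟩
  choose a b h1 h2 h3 using h
  exact Submodule.mem_sup.2 ⟨a, mem_ch.2 fun T => ⟨fun h => (h1 T h).1, fun h => (h2 T h).1⟩, b,
    mem_ch.2 fun T => ⟨fun h => (h1 T h).2, fun h => (h2 T h).2⟩, funext h3⟩

theorem ch_inf (s : Finset (Fin n)) (p : ℕ) (W W' : Submodule D M) :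
    ch s p (W ⊓ W') = ch s p W ⊓ ch s p W' := by
  refine le_antisymm (le_inf (ch_mono s p inf_le_left) (ch_mono s p inf_le_right)) fun f hf => ?_
  have h1 := mem_ch.1 hf.1
  have h2 := mem_ch.1 hf.2
  exact mem_ch.2 fun T => ⟨fun h => ⟨(h1 T).1 h, (h2 T).1 h⟩, (h1 T).2⟩

theorem ch_bot (s : Finset (Fin n)) (p : ℕ) : ch s p (⊥ : Submodule D M) = ⊥ := by
  refine eq_bot_iff.2 fun f hf => ?_
  rw [mem_ch] at hf
  refine (Submodule.mem_bot D).2 (funext fun T => ?_)
  by_cases hT : T ⊆ s ∧ T.card = p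
  · exact (hf T).1 hT
  · exact (hf T).2 hT

/-- `ch s p W` is spanned by the chains `e_T ⊗ w`. -/
theorem ch_span (s : Finset (Fin n)) (p : ℕ) (S : Set M) :
    ch s p (Submodule.span D S) =
      Submodule.span D {f | ∃ T, T ⊆ s ∧ T.card = p ∧ ∃ w ∈ S, f = Pi.single T w} := by
  refine le_antisymm (fun f hf => ?_) (Submodule.span_le.2 ?_)
  · rw [mem_ch] at hf
    rw [← Finset.univ_sum_single f]
    refine Submodule.sum_mem _ fun T _ => ?_
    by_cases hT : T ⊆ s ∧ T.card = p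
    · have h := Submodule.mem_map_of_mem (f := LinearMap.single D (fun _ : Finset (Fin n) => M) T)
        ((hf T).1 hT)
      rw [Submodule.map_span] at h
      refine Submodule.span_mono ?_ h
      rintro _ ⟨w, hw, rfl⟩
      exact ⟨T, hT.1, hT.2, w, hw, rfl⟩
    · rw [(hf T).2 hT, Pi.single_zero]
      exact Submodule.zero_mem _
  · rintro _ ⟨T, h1, h2, w, hw, rfl⟩
    refine mem_ch.2 fun U => ?_
    by_cases hU : U = T
    · subst hU
      rw [Pi.single_eq_same]
      exact ⟨fun _ => Submodule.subset_span hw, fun h => absurd ⟨h1, h2⟩ h⟩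
    · rw [Pi.single_eq_of_ne hU]
      exact ⟨fun _ => Submodule.zero_mem _, fun _ => rfl⟩

/-- Chains are families of coefficients indexed by the `p`-subsets of `s`. -/
def k1a_chEquiv (s : Finset (Fin n)) (p : ℕ) (W : Submodule D M) :
    ch s p W ≃ₗ[D] (s.powersetCard p → W) where
  toFun f T := ⟨f.1 T.1, (mem_ch.1 f.2 T.1).1 (Finset.mem_powersetCard.1 T.2)⟩
  map_add' _ _ := rfl
  map_smul' _ _ := rfl
  invFun g := ⟨fun T => if h : T ∈ s.powersetCard p then g ⟨T, h⟩ else 0, mem_ch.2 fun T =>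
    ⟨fun h => by rw [dif_pos (Finset.mem_powersetCard.2 h)]; exact (g _).2,
      fun h => dif_neg fun h' => h (Finset.mem_powersetCard.1 h')⟩⟩
  left_inv f := by
    refine Subtype.ext (funext fun T => ?_)
    by_cases h : T ∈ s.powersetCard p
    · exact dif_pos h
    · exact (dif_neg h).trans
        ((mem_ch.1 f.2 T).2 fun h' => h (Finset.mem_powersetCard.2 h')).symm
  right_inv g := funext fun T => Subtype.ext (dif_pos T.2)

theorem ch_finite (s : Finset (Fin n)) (p : ℕ) (W : Submodule D M) [Module.Finite D W] :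
    Module.Finite D (ch s p W) := by
  exact Module.Finite.equiv (k1a_chEquiv s p W).symm

theorem finrank_ch (s : Finset (Fin n)) (p : ℕ) (W : Submodule D M) [Module.Finite D W] :
    finrank D (ch s p W) = s.card.choose p * finrank D W := by
  rw [(k1a_chEquiv s p W).finrank_eq, Module.finrank_pi_fintype]
  simp

theorem ctr_mem_ch {s : Finset (Fin n)} {p : ℕ} {W : Submodule D M} {f : Finset (Fin n) → M}
    (i : Fin n) (hf : f ∈ ch s (p + 1) W) : ctr D M i f ∈ ch (s.erase i) p W := by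
  rw [mem_ch] at hf ⊢
  intro T
  rw [ctr_apply]
  by_cases hi : i ∈ T
  · rw [if_pos hi]
    exact ⟨fun _ => W.zero_mem, fun _ => rfl⟩
  rw [if_neg hi]
  by_cases h : insert i T ⊆ s ∧ (insert i T).card = p + 1
  · refine ⟨fun _ => W.toAddSubgroup.zsmul_mem ((hf _).1 h) _, fun h' => absurd ⟨?_, ?_⟩ h'⟩
    · exact Finset.subset_erase.2 ⟨(Finset.subset_insert _ _).trans h.1, hi⟩
    · have := h.2
      rw [Finset.card_insert_of_notMem hi] at this
      omega
  · rw [(hf _).2 h, smul_zero]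
    exact ⟨fun _ => W.zero_mem, fun _ => rfl⟩

theorem wdg_mem_ch {s : Finset (Fin n)} {p : ℕ} {W : Submodule D M} {f : Finset (Fin n) → M}
    (i : Fin n) (hf : f ∈ ch s p W) : wdg D M i f ∈ ch (insert i s) (p + 1) W := by
  rw [mem_ch] at hf ⊢
  intro T
  rw [wdg_apply]
  by_cases hi : i ∈ T
  swap
  · rw [if_neg hi]
    exact ⟨fun _ => W.zero_mem, fun _ => rfl⟩
  rw [if_pos hi]
  by_cases h : T.erase i ⊆ s ∧ (T.erase i).card = p
  · refine ⟨fun _ => W.toAddSubgroup.zsmul_mem ((hf _).1 h) _, fun h' => absurd ⟨?_, ?_⟩ h'⟩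
    · exact Finset.subset_insert_iff.2 h.1
    · rw [← Finset.card_erase_add_one hi, h.2]
  · rw [(hf _).2 h, smul_zero]
    exact ⟨fun _ => W.zero_mem, fun _ => rfl⟩

theorem ch_subset {s s' : Finset (Fin n)} (h : s ⊆ s') (p : ℕ) (W : Submodule D M) :
    ch s p W ≤ ch s' p W := by
  intro f hf
  rw [mem_ch] at hf ⊢
  intro T
  by_cases hT : T ⊆ s ∧ T.card = p
  · exact ⟨fun _ => (hf T).1 hT, fun h' => absurd ⟨hT.1.trans h, hT.2⟩ h'⟩
  · rw [(hf T).2 hT]
    exact ⟨fun _ => W.zero_mem, fun _ => rfl⟩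

theorem lft_mem_ch {s : Finset (Fin n)} {p : ℕ} {W W' : Submodule D M} (g : M →ₗ[D] M)
    (hg : ∀ w ∈ W, g w ∈ W') {f : Finset (Fin n) → M} (hf : f ∈ ch s p W) :
    lft g f ∈ ch s p W' := by
  rw [mem_ch] at hf ⊢
  intro T
  rw [k1a_lft_apply]
  exact ⟨fun h => hg _ ((hf T).1 h), fun h => by rw [(hf T).2 h, map_zero]⟩

theorem kd_mem_ch {s : Finset (Fin n)} {p : ℕ} {W W' : Submodule D M} (t : Fin n → M →ₗ[D] M)
    (ht : ∀ i ∈ s, ∀ w ∈ W, t i w ∈ W') {f : Finset (Fin n) → M} (hf : f ∈ ch s (p + 1) W) :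
    kd s t f ∈ ch s p W' := by
  rw [k1a_kd_eq_sum]
  exact Submodule.sum_mem _ fun i hi =>
    lft_mem_ch _ (ht i hi) (ch_subset (Finset.erase_subset i s) p W (ctr_mem_ch i hf))

theorem kd_ch_zero {s : Finset (Fin n)} {W : Submodule D M} (t : Fin n → M →ₗ[D] M)
    {f : Finset (Fin n) → M} (hf : f ∈ ch s 0 W) : kd s t f = 0 := by
  funext U
  rw [kd_apply]
  refine Finset.sum_eq_zero fun i _ => ?_
  split_ifs with hi
  · rfl
  · rw [(mem_ch.1 hf _).2 fun h => by simpa using h.2, map_zero, smul_zero]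

end Crest.Agent.R181
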