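import Crest.Agent.R181.K1

/-! # Row 181, K2: exactness of the Koszul complex of the polynomial ring, and consequences. -/

set_option autoImplicit false

namespace Crest.Agent.R181

open Module

variable {D : Type} [DivisionRing D] [CharZero D] {n : ℕ}

/-- The partial derivative `∂_i`. -/
noncomputable def k2dl (D : Type) [DivisionRing D] {n : ℕ} (i : Fin n) :
    PR D (Fin n) →ₗ[D] PR D (Fin n) :=
  Finsupp.linearCombination D
      (fun μ : Fin n →₀ ℕ => (AddMonoidAlgebra.single (μ - Finsupp.single i 1) ((μ i : ℕ) : D) :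
        PR D (Fin n))) ∘ₗ
    (AddMonoidAlgebra.coeffLinearEquiv D).toLinearMap

omit [CharZero D] in
theorem k2dl_single (i : Fin n) (μ : Fin n →₀ ℕ) (c : D) :
    k2dl D i (AddMonoidAlgebra.single μ c) =
      AddMonoidAlgebra.single (μ - Finsupp.single i 1) (c * (μ i : D)) := by
  simp [k2dl]

omit [CharZero D] in
theorem k2_tx_dl_single (i : Fin n) (μ : Fin n →₀ ℕ) (c : D) :
    tx D i (k2dl D i (AddMonoidAlgebra.single μ c)) =
      AddMonoidAlgebra.single μ (c * (μ i : D)) := by
  rw [k2dl_single, tx_single]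
  by_cases h : μ i = 0
  · simp [h]
  · congr 1
    ext k
    by_cases hk : i = k
    · subst hk
      simp
      omega
    · simp [hk]

omit [CharZero D] in
theorem k2dl_tx (i j : Fin n) (w : PR D (Fin n)) :
    k2dl D j (tx D i w) = tx D i (k2dl D j w) + if i = j then w else 0 := by
  induction w using AddMonoidAlgebra.induction_linear with
  | zero => simp
  | add a b ha hb =>
    rw [map_add, map_add, ha, hb, map_add, map_add]
    split_ifs <;> abel
  | single μ c =>
    by_cases h : i = j
    · subst h
      rw [k2_tx_dl_single, tx_single, k2dl_single, if_pos rfl, ← AddMonoidAlgebra.single_add]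
      simp [mul_add]
    · rw [if_neg h, add_zero, tx_single, k2dl_single, k2dl_single, tx_single]
      congr 1
      · ext k
        simp only [Finsupp.coe_tsub, Finsupp.coe_add, Pi.sub_apply, Pi.add_apply,
          Finsupp.single_apply]
        split_ifs with h1 h2
        · exact absurd (h1.trans h2.symm) h
        all_goals omega
      · simp [h]

omit [CharZero D] in
theorem k2_euler {s : Finset (Fin n)} {m : ℕ} {w : PR D (Fin n)} (hw : w ∈ mon D (Mon s m)) :
    ∑ i ∈ s, tx D i (k2dl D i w) = m • w := by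
  rw [mon, AddMonoidAlgebra.supported_eq_span_single] at hw
  induction hw using Submodule.span_induction with
  | mem x hx =>
    obtain ⟨μ, hμ, rfl⟩ := hx
    simp only [k2_tx_dl_single, one_mul]
    have h1 : ∑ i ∈ s, μ i = m := by
      rw [← hμ.1, Finsupp.degree_eq_sum]
      exact Finset.sum_subset (Finset.subset_univ s) (fun i _ hi => hμ.2 i hi)
    rw [← h1, Finset.sum_smul]
    refine Finset.sum_congr rfl fun i _ => ?_
    simp
  | zero => simp
  | add a b _ _ ha hb => simp only [map_add, Finset.sum_add_distrib, ha, hb, smul_add]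
  | smul c a _ ha =>
    simp only [map_smul]
    rw [← Finset.smul_sum, ha, smul_comm]

omit [CharZero D] in
theorem k2dl_mem {s : Finset (Fin n)} {d : ℕ} (j : Fin n) (w : PR D (Fin n))
    (hw : w ∈ mon D (Mon s (d + 1))) : k2dl D j w ∈ mon D (Mon s d) := by
  rw [mon, AddMonoidAlgebra.supported_eq_span_single] at hw
  induction hw using Submodule.span_induction with
  | mem x hx =>
    obtain ⟨μ, hμ, rfl⟩ := hx
    rw [k2dl_single]
    by_cases h : μ j = 0
    · simp [h]
    · rw [AddMonoidAlgebra.mem_supported]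
      refine subset_trans ?_ (?_ : ({μ - Finsupp.single j 1} : Set (Fin n →₀ ℕ)) ⊆ _)
      · intro ν hν
        have := Finsupp.support_single_subset (Finset.mem_coe.1 hν)
        simpa using this
      · rintro _ rfl
        constructor
        · have h1 : μ = (μ - Finsupp.single j 1) + Finsupp.single j 1 := by
            ext k
            by_cases hk : j = k
            · subst hk
              simp
              omega
            · simp [hk]
          have h2 := hμ.1
          rw [h1, map_add, Finsupp.degree_single] at h2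
          omega
        · intro i hi
          simp [hμ.2 i hi]
  | zero => simp
  | add a b _ _ ha hb => rw [map_add]; exact add_mem ha hb
  | smul c a _ ha => rw [map_smul]; exact Submodule.smul_mem _ c ha

/-- The Euler homotopy. -/
noncomputable def k2h (D : Type) [DivisionRing D] {n : ℕ} (s : Finset (Fin n)) :
    (Finset (Fin n) → PR D (Fin n)) →ₗ[D] (Finset (Fin n) → PR D (Fin n)) :=
  ∑ j ∈ s, wdg D (PR D (Fin n)) j ∘ₗ lft (k2dl D j)

omit [CharZero D] in
theorem k2_homotopy (s : Finset (Fin n)) (f : Finset (Fin n) → PR D (Fin n)) :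
    kd s (tx D) (k2h D s f) + k2h D s (kd s (tx D) f) =
      ∑ i ∈ s, (lft (tx D i) (lft (k2dl D i) f) + wdg D _ i (ctr D _ i f)) := by
  have key : ∀ i j : Fin n,
      lft (tx D i) (ctr D _ i (wdg D _ j (lft (k2dl D j) f))) +
        wdg D _ j (lft (k2dl D j) (lft (tx D i) (ctr D _ i f))) =
      if i = j then lft (tx D i) (lft (k2dl D i) f) + wdg D _ i (ctr D _ i f) else 0 := by
    intro i j
    have h1 : ∀ g : Finset (Fin n) → PR D (Fin n),
        lft (k2dl D j) (lft (tx D i) g) =
          lft (tx D i) (lft (k2dl D j) g) + if i = j then g else 0 := by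
      intro g
      funext U
      simp only [LinearMap.compLeft_apply, Function.comp_apply, Pi.add_apply]
      rw [k2dl_tx]
      split_ifs <;> rfl
    rw [h1, map_add, ← lft_wdg (tx D i) j, lft_ctr (k2dl D j) i, ← add_assoc, ← map_add, ctr_wdg]
    split_ifs with h
    · subst h; rfl
    · simp
  simp only [kd, k2h, LinearMap.sum_apply, LinearMap.comp_apply, map_sum]
  rw [Finset.sum_comm (s := s) (t := s)
    (f := fun j i => lft (tx D i) (ctr D _ i (wdg D _ j (lft (k2dl D j) f))))]
  rw [← Finset.sum_add_distrib]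
  refine Finset.sum_congr rfl fun i hi => ?_
  rw [← Finset.sum_add_distrib]
  simp only [key]
  rw [Finset.sum_ite_eq, if_pos hi]

omit [CharZero D] in
theorem k2_rank_nullity {V V' : Type} [AddCommGroup V] [Module D V] [AddCommGroup V']
    [Module D V'] (φ : V →ₗ[D] V') (C : Submodule D V) [Module.Finite D C] :
    finrank D (C.map φ) + finrank D ↥(LinearMap.ker φ ⊓ C) = finrank D C := by
  have h := LinearMap.finrank_range_add_finrank_ker (φ.domRestrict C)
  rw [LinearMap.range_domRestrict, LinearMap.ker_domRestrict] at h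
  rw [← h]
  congr 1
  have e := Submodule.comapSubtypeEquivOfLe (p := LinearMap.ker φ ⊓ C) (q := C) inf_le_right
  rw [← e.finrank_eq, Submodule.comap_inf, Submodule.comap_subtype_self, inf_top_eq]

theorem k2_sgn_mul_self (i : Fin n) (U : Finset (Fin n)) : sgn i U * sgn i U = 1 := by
  rw [sgn, ← mul_pow]
  simp

omit [CharZero D] in
theorem k2_kd_single {M : Type} [AddCommGroup M] [Module D M] (s : Finset (Fin n))
    (t : Fin n → M →ₗ[D] M) (g : M) {j : Fin n} (hj : j ∈ s) :
    sgn j (s.erase j) • kd s t (Pi.single s g) (s.erase j) = t j g := by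
  rw [kd_apply, Finset.sum_eq_single j]
  · rw [if_neg (Finset.notMem_erase j s), Finset.insert_erase hj, Pi.single_eq_same, smul_smul,
      k2_sgn_mul_self, one_smul]
  · intro i hi hij
    rw [if_pos (Finset.mem_erase.2 ⟨hij, hi⟩)]
  · intro h
    exact absurd hj h

/-- Exactness in positive polynomial degree.  (Euler homotopy `h = ∑_{i ∈ s} ε_i ∂_i`,
`d h + h d = (p + d + 1) • id` on `ch s p (mon D (Mon s (d+1)))`; here `∂_i x^μ = μ_i x^{μ - e_i}`.) -/
theorem exact_kd (s : Finset (Fin n)) (p d : ℕ) {f : Finset (Fin n) → PR D (Fin n)}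
    (hf : f ∈ ch s p (mon D (Mon s (d + 1)))) (h0 : kd s (tx D) f = 0) :
    f ∈ (ch s (p + 1) (mon D (Mon s d))).map (kd s (tx D)) := by
  have hh := k2_homotopy s f
  rw [h0, map_zero, add_zero] at hh
  have h2 : ∑ i ∈ s, (lft (tx D i) (lft (k2dl D i) f) + wdg D _ i (ctr D _ i f)) =
      ((d + 1 + p : ℕ) : D) • f := by
    funext U
    rw [Nat.cast_smul_eq_nsmul, Finset.sum_apply]
    simp only [Pi.add_apply, LinearMap.compLeft_apply, Function.comp_apply, wdg_ctr_self_apply,
      Pi.smul_apply, Finset.sum_add_distrib]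
    by_cases hU : U ⊆ s ∧ U.card = p
    · rw [k2_euler ((mem_ch.1 hf U).1 hU), ← Finset.sum_filter, Finset.sum_const,
        Finset.filter_mem_eq_inter, Finset.inter_eq_right.2 hU.1, hU.2, ← add_smul]
    · simp [(mem_ch.1 hf U).2 hU]
  have hne : ((d + 1 + p : ℕ) : D) ≠ 0 := Nat.cast_ne_zero.2 (by omega)
  refine ⟨((d + 1 + p : ℕ) : D)⁻¹ • k2h D s f, Submodule.smul_mem _ _ ?_, ?_⟩
  · simp only [k2h, LinearMap.sum_apply, LinearMap.comp_apply]
    refine Submodule.sum_mem _ fun j hj => ?_
    have := wdg_mem_ch j (lft_mem_ch (k2dl D j) (k2dl_mem j) hf)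
    rwa [Finset.insert_eq_of_mem hj] at this
  · rw [map_smul, hh, h2, smul_smul, inv_mul_cancel₀ hne, one_smul]

/-- `rho` with full source is `sg` plus a constant (the dimension of the boundaries). -/
theorem rho_full (s : Finset (Fin n)) (p d : ℕ) (W : Submodule D (PR D (Fin n)))
    (hW : W ≤ mon D (Mon s (d + 1))) :
    rho s (tx D) p (mon D (Mon s d)) W = sg s (tx D) (p + 1) (mon D (Mon s d)) + sg s (tx D) p W := by
  have : Module.Finite D W := finite_of_le_mon hW
  have : Module.Finite D (mon D (Mon s d)) := mon_finite (Mon_finite s d)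
  have := ch_finite s p W
  have := ch_finite s (p + 1) (mon D (Mon s d))
  set B := (ch s (p + 1) (mon D (Mon s d))).map (kd s (tx D)) with hB
  set C := ch s p W with hC
  have hBk : B ≤ LinearMap.ker (kd s (tx D)) := by
    rintro _ ⟨g, _, rfl⟩
    exact kd_kd s (tx D) (fun i _ j _ x => tx_comm i j x) g
  have hBc : B ≤ ch s p (mon D (Mon s (d + 1))) := by
    rintro _ ⟨g, hg, rfl⟩
    exact kd_mem_ch (tx D) (fun i hi w hw => tx_mem_Mon hi hw) hg
  have h1 : LinearMap.ker (kd s (tx D)) ⊓ (B ⊔ C) = B := by
    refine le_antisymm ?_ (le_inf hBk le_sup_left)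
    rintro f ⟨hf0, hf⟩
    exact exact_kd s p d ((sup_le hBc (ch_mono s p hW)) hf) hf0
  have h2 : (B ⊔ C).map (kd s (tx D)) = C.map (kd s (tx D)) := by
    rw [Submodule.map_sup, (LinearMap.le_ker_iff_map).1 hBk, bot_sup_eq]
  have h3 := k2_rank_nullity (kd s (tx D)) (B ⊔ C)
  rw [h1, h2] at h3
  rw [rho, sg, sg, ← hB, ← hC, ← h3, add_comm]

/-- The top-degree formula: cycles in `C_{|s|-1}(W)` are the boundaries of `e_s ⊗ g`,
`g ∈ colon`. -/
theorem sg_add_colon (s : Finset (Fin n)) (q d : ℕ) (hs : s.card = q + 1)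
    (W : Submodule D (PR D (Fin n))) (hW : W ≤ mon D (Mon s (d + 1))) :
    sg s (tx D) q W + finrank D (colon D s d W) = (q + 1) * finrank D W := by
  have : Module.Finite D W := finite_of_le_mon hW
  have := ch_finite s q W
  have h3 := k2_rank_nullity (kd s (tx D)) (ch s q W)
  rw [finrank_ch, hs, Nat.choose_succ_self_right] at h3
  rw [← h3, sg]
  congr 1
  let ψ : PR D (Fin n) →ₗ[D] (Finset (Fin n) → PR D (Fin n)) :=
    kd s (tx D) ∘ₗ LinearMap.single D (fun _ : Finset (Fin n) => PR D (Fin n)) s
  have hψ : ∀ g, ψ g = kd s (tx D) (Pi.single s g) := fun g => rfl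
  have hinj : Function.Injective ψ := by
    rw [← LinearMap.ker_eq_bot, LinearMap.ker_eq_bot']
    intro g hg
    obtain ⟨j, hj⟩ : s.Nonempty := Finset.card_pos.1 (by omega)
    have := k2_kd_single s (tx D) g hj
    rw [← hψ, hg] at this
    apply tx_injective j
    rw [← this]
    simp
  have hmap : (colon D s d W).map ψ = LinearMap.ker (kd s (tx D)) ⊓ ch s q W := by
    apply le_antisymm
    · rintro _ ⟨g, hg, rfl⟩
      refine ⟨kd_kd s (tx D) (fun i _ j _ x => tx_comm i j x) _, ?_⟩
      rw [hψ]
      refine kd_mem_ch (W := colon D s d W) (tx D) ?_ ?_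
      · intro i hi w hw
        have := hw.2
        simp only [Submodule.mem_iInf, SetLike.mem_coe] at this
        exact this i hi
      · rw [mem_ch]
        intro T
        by_cases hT : T = s
        · subst hT
          simp only [Pi.single_eq_same]
          exact ⟨fun _ => hg, fun h => absurd ⟨subset_rfl, hs⟩ h⟩
        · simp [Pi.single_eq_of_ne hT]
    · rintro f ⟨hf0, hf⟩
      obtain ⟨g, hg, rfl⟩ := exact_kd s q d (ch_mono s q hW hf) hf0
      have hgs : g = Pi.single s (g s) := by
        funext T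
        by_cases hT : T = s
        · subst hT
          simp
        · rw [Pi.single_eq_of_ne hT]
          refine (mem_ch.1 hg T).2 fun h => hT ?_
          exact Finset.eq_of_subset_of_card_le h.1 (by omega)
      refine ⟨g s, ⟨(mem_ch.1 hg s).1 ⟨subset_rfl, hs⟩, ?_⟩, by rw [hψ, ← hgs]⟩
      simp only [Submodule.mem_iInf, SetLike.mem_coe]
      intro j hj
      rw [Submodule.mem_comap, ← k2_kd_single s (tx D) (g s) hj, ← hgs]
      refine zsmul_mem ((mem_ch.1 hf _).1 ⟨Finset.erase_subset j s, ?_⟩) _
      rw [Finset.card_erase_of_mem hj]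
      omega
  rw [← hmap, (Submodule.equivMapOfInjective ψ hinj _).finrank_eq]

end Crest.Agent.R181
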