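import Crest.Agent.R181.K2
import Crest.Prelude.Def_LexPlusPowers

/-! # Row 181, K3: graded Betti numbers in terms of `sg`. -/

set_option autoImplicit false

namespace Crest.Agent.R181

open Module Crest.AlgebraR.LPP

theorem k3_rank {V W : Type} [AddCommGroup V] [Module ℂ V] [AddCommGroup W] [Module ℂ W]
    (g : V →ₗ[ℂ] W) (A : Submodule ℂ V) [Module.Finite ℂ A] :
    finrank ℂ (A.map g) + finrank ℂ ↥(LinearMap.ker g ⊓ A) = finrank ℂ A := by
  have h := LinearMap.finrank_range_add_finrank_ker (g.domRestrict A)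
  rw [LinearMap.range_domRestrict, LinearMap.ker_domRestrict] at h
  rw [← h]
  congr 1
  have e : Submodule.comap A.subtype (LinearMap.ker g) =
      Submodule.comap A.subtype (LinearMap.ker g ⊓ A) := by
    ext x
    simp
  rw [e]
  exact (Submodule.comapSubtypeEquivOfLe (inf_le_right : LinearMap.ker g ⊓ A ≤ A)).finrank_eq.symm

variable {n : ℕ}

/-- The quotient map on chains. -/
noncomputable def k3_pi (I : Ideal (MvPolynomial (Fin n) ℂ)) :
    (Finset (Fin n) → MvPolynomial (Fin n) ℂ) →ₗ[ℂ] (Finset (Fin n) → MvPolynomial (Fin n) ℂ ⧸ I) :=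
  (Ideal.Quotient.mkₐ ℂ I).toLinearMap.compLeft (Finset (Fin n))

theorem k3_pi_apply (I : Ideal (MvPolynomial (Fin n) ℂ))
    (f : Finset (Fin n) → MvPolynomial (Fin n) ℂ) (U : Finset (Fin n)) :
    k3_pi I f U = Ideal.Quotient.mk I (f U) := rfl

/-- The homogeneous piece of the polynomial ring. -/
noncomputable abbrev k3_S (n e : ℕ) : Submodule ℂ (MvPolynomial (Fin n) ℂ) :=
  mon ℂ (Mon (Finset.univ : Finset (Fin n)) e)

/-- The Koszul differential of the polynomial ring. -/
noncomputable abbrev k3_d (n : ℕ) : (Finset (Fin n) → MvPolynomial (Fin n) ℂ) →ₗ[ℂ]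
    (Finset (Fin n) → MvPolynomial (Fin n) ℂ) :=
  kd Finset.univ (tx ℂ)

instance k3_S_finite (e : ℕ) : Module.Finite ℂ (k3_S n e) := finite_of_le_mon le_rfl

theorem k3_piece_le (I : Ideal (MvPolynomial (Fin n) ℂ)) (e : ℕ) : degreePiece I e ≤ k3_S n e := by
  rw [k3_S, mon_Mon_univ]
  exact inf_le_left

instance k3_piece_finite (I : Ideal (MvPolynomial (Fin n) ℂ)) (e : ℕ) :
    Module.Finite ℂ (degreePiece I e) := finite_of_le_mon (k3_piece_le I e)

theorem k3_comm (I : Ideal (MvPolynomial (Fin n) ℂ))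
    (f : Finset (Fin n) → MvPolynomial (Fin n) ℂ) :
    koszulD I (k3_pi I f) = k3_pi I (k3_d n f) := by
  funext U
  rw [k3_pi_apply, kd_apply, map_sum]
  simp only [koszulD, LinearMap.pi_apply, LinearMap.sum_apply, LinearMap.smul_apply,
    LinearMap.comp_apply, LinearMap.proj_apply, LinearMap.mulLeft_apply, k3_pi_apply]
  rw [← Finset.sum_subset (Finset.subset_univ Uᶜ)]
  · refine Finset.sum_congr rfl fun t ht => ?_
    rw [if_neg (Finset.mem_compl.1 ht), tx_eq_mul_X, map_zsmul, map_mul, mul_comm, sgn,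
      ← Int.cast_smul_eq_zsmul ℂ]
    simp
  · intro t _ ht
    rw [if_pos (by simpa using ht), map_zero]

theorem k3_strand (I : Ideal (MvPolynomial (Fin n) ℂ)) {p j : ℕ} (h : p ≤ j) :
    strandChains I p j = (ch Finset.univ p (k3_S n (j - p))).map (k3_pi I) := by
  ext g
  simp only [strandChains, Submodule.mem_iInf, Submodule.mem_comap, LinearMap.proj_apply, h,
    and_true, Submodule.mem_map]
  constructor
  · intro hg
    have : ∀ T : Finset (Fin n), ∃ w : MvPolynomial (Fin n) ℂ,
        (T.card = p → w ∈ k3_S n (j - p)) ∧ (T.card ≠ p → w = 0) ∧ Ideal.Quotient.mk I w = g T := by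
      intro T
      have hT := hg T
      by_cases hc : T.card = p
      · rw [if_pos hc] at hT
        obtain ⟨w, hw, hw2⟩ := hT
        refine ⟨w, fun _ => ?_, fun h' => absurd hc h', hw2⟩
        rw [k3_S, mon_Mon_univ]
        exact hw
      · rw [if_neg hc] at hT
        refine ⟨0, fun h' => absurd h' hc, fun _ => rfl, ?_⟩
        rw [map_zero]
        exact ((Submodule.mem_bot ℂ).1 hT).symm
    choose f hf1 hf2 hf3 using this
    refine ⟨f, mem_ch.2 fun T => ⟨fun hT => hf1 T hT.2, fun hT => hf2 T fun hc => hT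
      ⟨Finset.subset_univ _, hc⟩⟩, funext fun T => hf3 T⟩
  · rintro ⟨f, hf, rfl⟩ T
    have hT := mem_ch.1 hf T
    by_cases hc : T.card = p
    · rw [if_pos hc]
      have h1 := hT.1 ⟨Finset.subset_univ _, hc⟩
      rw [k3_S, mon_Mon_univ] at h1
      exact ⟨f T, h1, rfl⟩
    · rw [if_neg hc, k3_pi_apply, hT.2 fun h' => hc h'.2, map_zero]
      exact Submodule.zero_mem _

theorem k3_strand_bot (I : Ideal (MvPolynomial (Fin n) ℂ)) {p j : ℕ} (h : ¬ p ≤ j) :
    strandChains I p j = ⊥ := by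
  rw [eq_bot_iff]
  intro g hg
  simp only [strandChains, Submodule.mem_iInf, Submodule.mem_comap, LinearMap.proj_apply, h,
    and_false, if_false, Submodule.mem_bot] at hg
  exact (Submodule.mem_bot ℂ).2 (funext hg)

theorem k3_ker (I : Ideal (MvPolynomial (Fin n) ℂ)) (p e : ℕ) :
    LinearMap.ker (k3_pi I) ⊓ ch Finset.univ p (k3_S n e) = ch Finset.univ p (degreePiece I e) := by
  ext f
  rw [Submodule.mem_inf, LinearMap.mem_ker, mem_ch, mem_ch]
  constructor
  · rintro ⟨h0, h1⟩ T
    refine ⟨fun hT => ⟨?_, ?_⟩, (h1 T).2⟩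
    · have := (h1 T).1 hT
      rwa [k3_S, mon_Mon_univ] at this
    · exact Ideal.Quotient.eq_zero_iff_mem.1 (congrFun h0 T)
  · intro h
    refine ⟨funext fun T => ?_, fun T => ⟨fun hT => k3_piece_le I e ((h T).1 hT), (h T).2⟩⟩
    rw [k3_pi_apply]
    by_cases hT : T ⊆ Finset.univ ∧ T.card = p
    · exact Ideal.Quotient.eq_zero_iff_mem.2 ((h T).1 hT).2
    · rw [(h T).2 hT, map_zero]
      rfl

instance k3_strand_finite (I : Ideal (MvPolynomial (Fin n) ℂ)) (p j : ℕ) :
    Module.Finite ℂ (strandChains I p j) := by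
  by_cases h : p ≤ j
  · rw [k3_strand I h]
    have := ch_finite (Finset.univ : Finset (Fin n)) p (k3_S n (j - p))
    infer_instance
  · rw [k3_strand_bot I h]
    infer_instance

theorem k3_dim (I : Ideal (MvPolynomial (Fin n) ℂ)) {p j : ℕ} (h : p ≤ j) :
    finrank ℂ (strandChains I p j) + n.choose p * finrank ℂ (degreePiece I (j - p)) =
      n.choose p * finrank ℂ (k3_S n (j - p)) := by
  have := ch_finite (Finset.univ : Finset (Fin n)) p (k3_S n (j - p))
  have h1 := k3_rank (k3_pi I) (ch Finset.univ p (k3_S n (j - p)))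
  rw [k3_ker, finrank_ch, finrank_ch, Finset.card_univ, Fintype.card_fin] at h1
  rw [k3_strand I h]
  exact h1

theorem k3_map_map (I : Ideal (MvPolynomial (Fin n) ℂ))
    (A : Submodule ℂ (Finset (Fin n) → MvPolynomial (Fin n) ℂ)) :
    (A.map (k3_pi I)).map (koszulD I) = (A.map (k3_d n)).map (k3_pi I) := by
  rw [← Submodule.map_comp, ← Submodule.map_comp]
  congr 1
  exact LinearMap.ext fun f => k3_comm I f

theorem k3_d_le (p e : ℕ) : (ch Finset.univ (p + 1) (k3_S n e)).map (k3_d n) ≤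
    ch Finset.univ p (k3_S n (e + 1)) := by
  rintro _ ⟨f, hf, rfl⟩
  exact kd_mem_ch _ (fun i hi w hw => tx_mem_Mon hi hw) hf

theorem k3_rk (I : Ideal (MvPolynomial (Fin n) ℂ)) {p j : ℕ} (h : p + 1 ≤ j) :
    finrank ℂ ((strandChains I (p + 1) j).map (koszulD I)) +
        n.choose p * finrank ℂ (degreePiece I (j - (p + 1) + 1)) =
      sg Finset.univ (tx ℂ) (p + 1) (k3_S n (j - (p + 1))) +
        sg Finset.univ (tx ℂ) p (degreePiece I (j - (p + 1) + 1)) := by
  set e := j - (p + 1) with he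
  rw [← rho_full Finset.univ p e _ (k3_piece_le I (e + 1)), k3_strand I h, k3_map_map, rho]
  set B := (ch Finset.univ (p + 1) (k3_S n e)).map (k3_d n) with hB
  set C := ch (Finset.univ : Finset (Fin n)) p (degreePiece I (e + 1)) with hC
  have hle : B ⊔ C ≤ ch Finset.univ p (k3_S n (e + 1)) :=
    sup_le (k3_d_le p e) (ch_mono _ _ (k3_piece_le I (e + 1)))
  have := ch_finite (Finset.univ : Finset (Fin n)) p (k3_S n (e + 1))
  have : Module.Finite ℂ ↥(B ⊔ C) := Submodule.finiteDimensional_of_le hle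
  have hCk : C ≤ LinearMap.ker (k3_pi I) := by
    rw [hC, ← k3_ker]
    exact inf_le_left
  have h1 := k3_rank (k3_pi I) (B ⊔ C)
  have h2 : LinearMap.ker (k3_pi I) ⊓ (B ⊔ C) = C := by
    apply le_antisymm
    · exact le_trans (inf_le_inf_left _ hle) (k3_ker I p (e + 1)).le
    · exact le_inf hCk le_sup_right
  have h3 : (B ⊔ C).map (k3_pi I) = B.map (k3_pi I) := by
    rw [Submodule.map_sup, (LinearMap.le_ker_iff_map).1 hCk, sup_bot_eq]
  rw [h2, h3, hC, finrank_ch, Finset.card_univ, Fintype.card_fin] at h1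
  exact h1

theorem k3_rk_zero (I : Ideal (MvPolynomial (Fin n) ℂ)) (j : ℕ) :
    (strandChains I 0 j).map (koszulD I) = ⊥ := by
  rw [k3_strand I (Nat.zero_le j), k3_map_map, eq_bot_iff]
  rintro _ ⟨_, ⟨f, hf, rfl⟩, rfl⟩
  rw [k3_d, kd_ch_zero _ hf, map_zero]
  exact Submodule.zero_mem _

theorem k3_bd_le (I : Ideal (MvPolynomial (Fin n) ℂ)) (p j : ℕ) :
    (strandChains I (p + 1) j).map (koszulD I) ≤
      LinearMap.ker (koszulD I) ⊓ strandChains I p j := by
  by_cases h : p + 1 ≤ j
  · rw [k3_strand I h, k3_map_map, k3_strand I (le_trans (Nat.le_succ p) h)]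
    have e : j - p = j - (p + 1) + 1 := by omega
    refine le_inf ?_ ?_
    · rintro _ ⟨_, ⟨f, _, rfl⟩, rfl⟩
      rw [LinearMap.mem_ker, k3_comm, k3_d, kd_kd _ _ (fun i _ j _ x => tx_comm i j x), map_zero]
    · rw [e]
      exact Submodule.map_mono (k3_d_le p _)
  · rw [k3_strand_bot I h, Submodule.map_bot]
    exact bot_le

theorem k3_betti (I : Ideal (MvPolynomial (Fin n) ℂ)) (p j : ℕ) :
    gradedBetti I p j + finrank ℂ ((strandChains I (p + 1) j).map (koszulD I)) +
      finrank ℂ ((strandChains I p j).map (koszulD I)) = finrank ℂ (strandChains I p j) := by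
  have h1 := k3_rank (koszulD I) (strandChains I p j)
  have : Module.Finite ℂ ↥(LinearMap.ker (koszulD I) ⊓ strandChains I p j) :=
    Submodule.finiteDimensional_of_le inf_le_right
  have h2 := Submodule.finrank_quotient_add_finrank
    (Submodule.comap (LinearMap.ker (koszulD I) ⊓ strandChains I p j).subtype
      (Submodule.map (koszulD I) (strandChains I (p + 1) j)))
  rw [(Submodule.comapSubtypeEquivOfLe (k3_bd_le I p j)).finrank_eq] at h2
  unfold gradedBetti
  omega

/-- With `e = j - p`, `c = C(n,p) dim (S/I)_e`, `r_{p,e}` the rank of the differential on the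
strand `(p, e)`: `β = c - r_{p,e} - r_{p+1,e-1}` and
`r_{p+1,e} = rho p S_e I_{e+1} - C(n,p) dim I_{e+1}`; conclude by `rho_full`. -/
theorem betti_le {n : ℕ} (I J : Ideal (MvPolynomial (Fin n) ℂ))
    (hI : ∀ g ∈ I, ∀ d : ℕ, MvPolynomial.homogeneousComponent d g ∈ I)
    (hJ : ∀ g ∈ J, ∀ d : ℕ, MvPolynomial.homogeneousComponent d g ∈ J)
    (hdim : ∀ d, finrank ℂ (degreePiece J d) = finrank ℂ (degreePiece I d))
    (hsg : ∀ d p, sg Finset.univ (tx ℂ) p (degreePiece J d) ≤
      sg Finset.univ (tx ℂ) p (degreePiece I d)) (p j : ℕ) :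
    gradedBetti I p j ≤ gradedBetti J p j := by
  have hr : ∀ q, finrank ℂ ((strandChains J q j).map (koszulD J)) ≤
      finrank ℂ ((strandChains I q j).map (koszulD I)) := by
    intro q
    cases q with
    | zero => rw [k3_rk_zero J, finrank_bot]; exact Nat.zero_le _
    | succ q =>
      by_cases h : q + 1 ≤ j
      · have h1 := k3_rk I h
        have h2 := k3_rk J h
        have h3 := hsg (j - (q + 1) + 1) q
        rw [hdim] at h2
        omega
      · rw [k3_strand_bot J h, Submodule.map_bot, finrank_bot]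
        exact Nat.zero_le _
  have hc : finrank ℂ (strandChains I p j) = finrank ℂ (strandChains J p j) := by
    by_cases h : p ≤ j
    · have h1 := k3_dim I h
      have h2 := k3_dim J h
      rw [hdim] at h2
      omega
    · rw [k3_strand_bot I h, k3_strand_bot J h, finrank_bot, finrank_bot]
  have h1 := k3_betti I p j
  have h2 := k3_betti J p j
  have h3 := hr p
  have h4 := hr (p + 1)
  omega

end Crest.Agent.R181
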