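import Mathlib

/-!
# Row 181, Koszul part: definitions.

Chains are functions `Finset (Fin n) → M`.  `s` is the set of *active* variables.
`sg s t p W` is the rank of the Koszul differential (built from the operators `t i`, `i ∈ s`)
on the `p`-chains with coefficients in the subspace `W`.
-/

set_option autoImplicit false

namespace Crest.Agent.R181

open Module

section Chains

variable (D : Type) [DivisionRing D] {n : ℕ} (M : Type) [AddCommGroup M] [Module D M]

/-- The Koszul sign `(-1)^{#{u ∈ U : u < i}}`. -/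
def sgn (i : Fin n) (U : Finset (Fin n)) : ℤ := (-1) ^ (U.filter (· < i)).card

/-- Contraction `ι_i` (removes `e_i`). -/
def ctr (i : Fin n) : (Finset (Fin n) → M) →ₗ[D] (Finset (Fin n) → M) :=
  LinearMap.pi fun U => if i ∈ U then 0 else sgn i U • LinearMap.proj (insert i U)

/-- Wedge `ε_i = e_i ∧ ·`. -/
def wdg (i : Fin n) : (Finset (Fin n) → M) →ₗ[D] (Finset (Fin n) → M) :=
  LinearMap.pi fun U => if i ∈ U then sgn i U • LinearMap.proj (U.erase i) else 0

variable {D M}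

/-- An operator on coefficients, applied to chains. -/
abbrev lft (g : M →ₗ[D] M) : (Finset (Fin n) → M) →ₗ[D] (Finset (Fin n) → M) :=
  g.compLeft (Finset (Fin n))

/-- The Koszul differential `∑_{i ∈ s} t_i ι_i`. -/
def kd (s : Finset (Fin n)) (t : Fin n → M →ₗ[D] M) :
    (Finset (Fin n) → M) →ₗ[D] (Finset (Fin n) → M) :=
  ∑ i ∈ s, lft (t i) ∘ₗ ctr D M i

/-- `p`-chains on the active set `s` with coefficients in `W`. -/
def ch (s : Finset (Fin n)) (p : ℕ) (W : Submodule D M) : Submodule D (Finset (Fin n) → M) :=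
  Submodule.pi Set.univ fun T => if T ⊆ s ∧ T.card = p then W else ⊥

/-- Rank of the Koszul differential on `ch s p W`. -/
noncomputable def sg (s : Finset (Fin n)) (t : Fin n → M →ₗ[D] M) (p : ℕ) (W : Submodule D M) : ℕ :=
  finrank D ((ch s p W).map (kd s t))

/-- Dimension of `d (C_{p+1}(W')) + C_p(W)`. -/
noncomputable def rho (s : Finset (Fin n)) (t : Fin n → M →ₗ[D] M) (p : ℕ)
    (W' W : Submodule D M) : ℕ :=
  finrank D ↥((ch s (p + 1) W').map (kd s t) ⊔ ch s p W)

end Chains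

section Poly

/-- Polynomials in central variables over a (possibly noncommutative) ring.
For commutative `D` this is `MvPolynomial σ D` by `rfl`. -/
abbrev PR (D : Type) [Semiring D] (σ : Type) := AddMonoidAlgebra D (σ →₀ ℕ)

/-- The variable `x_i`. -/
noncomputable def xv (D : Type) [Semiring D] {σ : Type} (i : σ) : PR D σ :=
  AddMonoidAlgebra.single (Finsupp.single i 1) 1

/-- The constant `c`. -/
noncomputable def cst {D : Type} [Semiring D] (σ : Type) (c : D) : PR D σ :=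
  AddMonoidAlgebra.single 0 c

/-- The span of a set of monomials. -/
noncomputable abbrev mon (D : Type) [Semiring D] {σ : Type} (X : Set (σ →₀ ℕ)) :
    Submodule D (PR D σ) :=
  AddMonoidAlgebra.supported D D X

/-- Multiplication by `x_i`. -/
noncomputable def tx (D : Type) [Semiring D] {σ : Type} (i : σ) : PR D σ →ₗ[D] PR D σ :=
  LinearMap.mulRight D (xv D i)

/-- The inclusion `ℂ[x] → D[x]`. -/
noncomputable def incl (D : Type) [Ring D] [Algebra ℂ D] (σ : Type) : PR ℂ σ →+* PR D σ :=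
  AddMonoidAlgebra.mapRingHom (σ →₀ ℕ) (algebraMap ℂ D)

/-- Base change of a subspace of `ℂ[x]` to `D[x]`. -/
noncomputable def bc (D : Type) [Ring D] [Algebra ℂ D] {σ : Type} (W : Submodule ℂ (PR ℂ σ)) :
    Submodule D (PR D σ) :=
  Submodule.span D (incl D σ '' (W : Set (PR ℂ σ)))

variable {n : ℕ}

/-- Monomials of degree `d` in the variables of `s`. -/
def Mon (s : Finset (Fin n)) (d : ℕ) : Set (Fin n →₀ ℕ) :=
  {μ | μ.degree = d ∧ ∀ i, i ∉ s → μ i = 0}

/-- `{g of degree d | g x_i ∈ W for all i ∈ s}`. -/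
noncomputable def colon (D : Type) [Semiring D] (s : Finset (Fin n)) (d : ℕ)
    (W : Submodule D (PR D (Fin n))) : Submodule D (PR D (Fin n)) :=
  mon D (Mon s d) ⊓ ⨅ i ∈ s, W.comap (tx D i)

/-- Monomial version of `colon`. -/
def col (s : Finset (Fin n)) (d : ℕ) (X : Set (Fin n →₀ ℕ)) : Set (Fin n →₀ ℕ) :=
  {μ | μ ∈ Mon s d ∧ ∀ i ∈ s, μ + Finsupp.single i 1 ∈ X}

/-- Set of degree-`d` monomials (in the variables of `s`) containing all those divisible by
some `x_i ^ a_i`. -/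
def PSet (a : Fin n → ℕ) (s : Finset (Fin n)) (d : ℕ) (X : Set (Fin n →₀ ℕ)) : Prop :=
  X ⊆ Mon s d ∧ ∀ μ ∈ Mon s d, (∃ i, a i ≤ μ i) → μ ∈ X

/-- Lex-plus-powers set. -/
def LSet (a : Fin n → ℕ) (s : Finset (Fin n)) (d : ℕ) (Y : Set (Fin n →₀ ℕ)) : Prop :=
  PSet a s d Y ∧ ∀ μ ∈ Y, (∀ i, μ i < a i) → ∀ μ' ∈ Mon s d, toLex μ ≤ toLex μ' → μ' ∈ Y

/-- The coefficient set of `z ^ k`. -/
def slice (X : Set (Fin n →₀ ℕ)) (z : Fin n) (k : ℕ) : Set (Fin n →₀ ℕ) :=
  {μ | μ z = 0 ∧ μ + Finsupp.single z k ∈ X}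

/-- `z`-stability: `m z^{k+1} ∈ X`, `k + 1 < a z` implies `m x_i z^k ∈ X` for `i ∈ s'`. -/
def ZStable (a : Fin n → ℕ) (z : Fin n) (s' : Finset (Fin n)) (X : Set (Fin n →₀ ℕ)) : Prop :=
  ∀ ν : Fin n →₀ ℕ, ν + Finsupp.single z 1 ∈ X → ν z + 1 < a z →
    ∀ i ∈ s', ν + Finsupp.single i 1 ∈ X

/-- Initial monomials of a subspace: the `key`-smallest monomial of each non-zero element. -/
def inS {D : Type} [Semiring D] {Λ : Type} [LinearOrder Λ] (key : (Fin n →₀ ℕ) → Λ)
    (W : Submodule D (PR D (Fin n))) : Set (Fin n →₀ ℕ) :=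
  {μ | ∃ w ∈ W, w.coeff μ ≠ 0 ∧ ∀ ν, w.coeff ν ≠ 0 → key μ ≤ key ν}

end Poly

end Crest.Agent.R181
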