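import Crest.Agent.R181.G5
import Crest.Agent.R181.G6
import Crest.Agent.R181.I4
import Crest.Agent.R181.I5
import Crest.Agent.R181.D7
import Crest.Agent.R181.D8

/-! # Row 181: existence of the skew field and of the commuting linear forms. -/

set_option autoImplicit false

namespace Crest.Agent.R181

open Module MvPolynomial

theorem hats {n : ℕ} (a : Fin n → ℕ) (ha : Monotone a) (ha1 : ∀ i, 1 ≤ a i)
    (f : Fin n → MvPolynomial (Fin n) ℂ) (hf : ∀ i, (f i).IsHomogeneous (a i)) (hA : Artin f) :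
    Hats a f := by
  classical
  obtain ⟨σ⟩ := exists_sch n a
  obtain ⟨P⟩ := σ.exists_spn f hf
  have hI : ∀ L, Intg ((P.rd ha1).toCD (FractionRing (MvPolynomial (σ.Par P.m) ℂ)))
      (FractionRing (MvPolynomial (σ.Par P.m) ℂ)) L := fun L =>
    intg_of_good (P.rd ha1) L _ fun 𝔠 h𝔠 hS =>
      good_HS (P.rd ha1) L (rows_iter (P.rd ha1) L σ.key (P.bpf_rows ha ha1 hf hA L)) h𝔠 hS
  obtain ⟨D, _, _, θ, hθ, hs⟩ := exists_div _ hI
  obtain ⟨χ, h1, h2, h3⟩ := exists_chi _ σ.lb σ.lt θ hθ hs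
  exact P.hats ha1 _ D χ h1 h2 h3

end Crest.Agent.R181
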