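import Crest.Agent.R181.HDefs

/-! # Row 181: a regular sequence of `n` forms in `n` variables generates an Artinian quotient. -/

set_option autoImplicit false
set_option linter.unusedVariables false

namespace Crest.Agent.R181

open RingTheory.Sequence Module in
theorem Reg_supportDim {R : Type} [CommRing R] (rs : List R) :
    ∀ (M : Type) [AddCommGroup M] [Module R M] [Module.Finite R M], IsWeaklyRegular M rs →
      supportDim R (M ⧸ Ideal.ofList rs • (⊤ : Submodule R M)) + rs.length ≤ supportDim R M := by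
  induction rs with
  | nil =>
    intro M _ _ _ _
    rw [Ideal.ofList_nil, Submodule.bot_smul]
    simpa using (supportDim_eq_of_equiv (Submodule.quotEquivOfEqBot ⊥ rfl)).le
  | cons x rs ih =>
    intro M _ _ _ reg
    obtain ⟨h1, h2⟩ := (isWeaklyRegular_cons_iff M _ _).1 reg
    rw [supportDim_eq_of_equiv (Submodule.quotOfListConsSMulTopEquivQuotSMulTopInner M x _),
      List.length_cons, Nat.cast_add_one, ← add_assoc]
    exact le_trans (add_le_add_left (ih _ h2) _)
      (supportDim_quotSMulTop_succ_le_of_notMem_minimalPrimes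
        fun _ => h1.notMem_of_mem_minimalPrimes)

theorem Reg_isMaximal {n : ℕ} (f : Fin n → MvPolynomial (Fin n) ℂ)
    (hreg : RingTheory.Sequence.IsRegular (MvPolynomial (Fin n) ℂ) (List.ofFn f))
    (P : Ideal (MvPolynomial (Fin n) ℂ)) [hP : P.IsPrime] (h : Ideal.span (Set.range f) ≤ P) :
    P.IsMaximal := by
  have h1 := Reg_supportDim (List.ofFn f) (MvPolynomial (Fin n) ℂ) hreg.toIsWeaklyRegular
  have e : Ideal.ofList (List.ofFn f) • (⊤ : Ideal (MvPolynomial (Fin n) ℂ)) =
      Ideal.span (Set.range f) := by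
    rw [smul_eq_mul, Ideal.mul_top, Ideal.ofList]
    congr 1
    ext x
    simp [List.mem_ofFn']
  rw [e, Module.supportDim_quotient_eq_ringKrullDim, Module.supportDim_self_eq_ringKrullDim,
    MvPolynomial.ringKrullDim_of_isNoetherianRing, ringKrullDim_eq_zero_of_field, zero_add,
    List.length_ofFn, Nat.card_eq_fintype_card, Fintype.card_fin] at h1
  have h2 : Ring.KrullDimLE 0 (MvPolynomial (Fin n) ℂ ⧸ Ideal.span (Set.range f)) := by
    rw [Ring.krullDimLE_iff]
    generalize ringKrullDim (MvPolynomial (Fin n) ℂ ⧸ Ideal.span (Set.range f)) = d at h1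
    induction d using WithBot.recBotCoe with
    | bot => exact bot_le
    | coe d =>
      induction d using ENat.recTopCoe with
      | top => exact absurd h1 (by
          rw [← WithBot.coe_natCast, ← WithBot.coe_add, top_add, WithBot.coe_le_coe]
          simp)
      | coe d =>
        have : d + n ≤ n := by exact_mod_cast h1
        have : d = 0 := by omega
        subst this
        exact le_rfl
  obtain ⟨Q, hQ, hQP⟩ := Ideal.exists_minimalPrimes_le h
  have hQm := (Ideal.krullDimLE_zero_quotient_iff_forall_minimalPrimes_isMaximal.1 h2) Q hQ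
  rwa [← hQm.eq_of_le hP.ne_top hQP]

theorem Reg_aeval_line {n d : ℕ} (z : Fin n → ℂ) {g : MvPolynomial (Fin n) ℂ}
    (hg : g.IsHomogeneous d) :
    MvPolynomial.aeval (fun i => Polynomial.C (z i) * Polynomial.X) g =
      Polynomial.C (MvPolynomial.aeval z g) * Polynomial.X ^ d := by
  conv_lhs => rw [g.as_sum]
  conv_rhs => rw [g.as_sum]
  rw [map_sum, map_sum, map_sum, Finset.sum_mul]
  refine Finset.sum_congr rfl fun μ hμ => ?_
  have hd : μ.degree = d := by
    have := hg (MvPolynomial.mem_support_iff.1 hμ)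
    rw [Finsupp.degree_eq_weight_one]
    exact this
  rw [MvPolynomial.aeval_monomial, MvPolynomial.aeval_monomial, ← hd]
  simp only [mul_pow, Finsupp.prod, Finset.prod_mul_distrib,
    Finset.prod_pow_eq_pow_sum, map_mul, map_prod, map_pow, Finsupp.degree_apply,
    Polynomial.algebraMap_apply, mul_assoc]

/-- Krull dimension: each element of a regular sequence lowers the dimension, so the quotient has
dimension zero; a non-zero point of the (conical) zero set would give a non-maximal prime. -/
theorem artin_of_isRegular {n : ℕ} (a : Fin n → ℕ) (ha1 : ∀ i, 1 ≤ a i)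
    (f : Fin n → MvPolynomial (Fin n) ℂ) (hf : ∀ i, (f i).IsHomogeneous (a i))
    (hreg : RingTheory.Sequence.IsRegular (MvPolynomial (Fin n) ℂ) (List.ofFn f)) : Artin f := by
  classical
  have hX : ∀ i, ∃ k : ℕ, (MvPolynomial.X i : MvPolynomial (Fin n) ℂ) ^ k ∈
      Ideal.span (Set.range f) := by
    intro i
    change MvPolynomial.X i ∈ (Ideal.span (Set.range f)).radical
    rw [← MvPolynomial.vanishingIdeal_zeroLocus_eq_radical (K := ℂ),
      MvPolynomial.mem_vanishingIdeal_iff]
    intro z hz
    rw [MvPolynomial.aeval_X]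
    by_contra hzi
    let φ : MvPolynomial (Fin n) ℂ →ₐ[ℂ] Polynomial ℂ :=
      MvPolynomial.aeval fun i => Polynomial.C (z i) * Polynomial.X
    have hP : (RingHom.ker φ).IsPrime := RingHom.ker_isPrime φ
    have hle : Ideal.span (Set.range f) ≤ RingHom.ker φ := by
      rw [Ideal.span_le]
      rintro _ ⟨j, rfl⟩
      have := hz (f j) (Ideal.subset_span ⟨j, rfl⟩)
      change φ (f j) = 0
      rw [Reg_aeval_line z (hf j), this, map_zero, zero_mul]
    have hm := Reg_isMaximal f hreg _ hle
    let ψ : MvPolynomial (Fin n) ℂ →ₐ[ℂ] ℂ := (Polynomial.aeval (0 : ℂ)).comp φ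
    have h1 : RingHom.ker φ = RingHom.ker ψ := hm.eq_of_le (RingHom.ker_ne_top ψ) fun g hg => by
      change Polynomial.aeval (0 : ℂ) (φ g) = 0
      rw [show φ g = 0 from hg, map_zero]
    have h2 : MvPolynomial.X i ∈ RingHom.ker ψ := by
      change Polynomial.aeval (0 : ℂ) (φ (MvPolynomial.X i)) = 0
      simp [φ]
    rw [← h1] at h2
    have h3 : φ (MvPolynomial.X i) = 0 := h2
    simp [φ, hzi] at h3
  choose k hk using hX
  refine ⟨∑ i, k i + 1, fun μ hμ => ?_⟩
  obtain ⟨i, hi⟩ : ∃ i, k i ≤ μ i := by
    by_contra hn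
    push Not at hn
    have h1 : ∑ i, μ i ≤ ∑ i, k i := Finset.sum_le_sum fun i _ => (hn i).le
    rw [Finsupp.degree_eq_sum] at hμ
    omega
  have : MvPolynomial.monomial μ (1 : ℂ) =
      MvPolynomial.monomial (μ - Finsupp.single i (k i)) 1 * MvPolynomial.X i ^ k i := by
    rw [MvPolynomial.X_pow_eq_monomial, MvPolynomial.monomial_mul, one_mul,
      tsub_add_cancel_of_le (Finsupp.single_le_iff.2 hi)]
  rw [this]
  exact Ideal.mul_mem_left _ _ (hk i)

end Crest.Agent.R181
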